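import Crest.Agent.R305.Fcl_310
import Crest.Agent.R305.Kd_447

/-!
# R305: the class operator of `Fcl_310` for the `k`-dense closures of `Kd_447`
-/

set_option autoImplicit false

namespace Crest.Agent.R305.Fcr310

open Finset Dep310 Fcl310 Kd447

variable {α : Type*} [DecidableEq α] [Fintype α]

/-- the instance: closure of the matroid, `c n` = the `k`-dense closure of `Zs n` -/
noncomputable def rankData (M : RankFn α) (cls : α → ℕ) (k : ℕ) (Zs : ℕ → Finset α) : Data α where
  cl := M.cl
  cl_mono h := M.cl_mono h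
  cl_ext A := M.subset_cl A
  cl_idem A := M.cl_cl A
  cls := cls
  c n F := M.kc k (Zs n) F
  c_mono _ _ _ h := M.kc_mono (Subset.refl _) h
  c_ext _ F := M.subset_kc _ _ F

variable (M : RankFn α) (cls : α → ℕ) (k : ℕ) (Zs : ℕ → Finset α)

@[simp] theorem rankData_cl (A : Finset α) : (rankData M cls k Zs).cl A = M.cl A := rfl
@[simp] theorem rankData_cls (a : α) : (rankData M cls k Zs).cls a = cls a := rfl
@[simp] theorem rankData_c (n : ℕ) (F : Finset α) :
    (rankData M cls k Zs).c n F = M.kc k (Zs n) F := rfl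

theorem c_closed (n : ℕ) (F : Finset α) :
    (rankData M cls k Zs).cl ((rankData M cls k Zs).c n F) = (rankData M cls k Zs).c n F :=
  M.kc_flat k (Zs n) F




omit [Fintype α] in
/-- a subset of an independent set is independent -/
theorem r_eq_card_of_subset {Z A : Finset α} (hZ : M.r Z = Z.card) (h : A ⊆ Z) :
    M.r A = A.card := by
  have h1 := M.r_union_le_card A (Z \ A)
  rw [union_sdiff_of_subset h, hZ] at h1
  have h2 := card_sdiff_add_card_eq_card h
  have h3 := M.r_le_card A
  omega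

/-- for an independent `Z` nothing is dense over the loops -/
theorem kc_cl_empty {k : ℕ} (hk : 2 ≤ k) {Z : Finset α} (hZ : M.r Z = Z.card) :
    M.kc k Z (M.cl ∅) = M.cl ∅ := by
  refine Subset.antisymm (M.kc_subset (Subset.refl _) (M.flat_cl ∅) ?_) (M.subset_kc _ _ _)
  intro A hA hne
  have h1 : M.r A = A.card := r_eq_card_of_subset M hZ (hA.trans sdiff_subset)
  have h2 : M.rr (M.cl ∅) A = A.card := by
    rw [M.rr_cl_left, M.rr_empty_left, h1]
  rw [h2]
  have h3 : 0 < A.card := hne.card_pos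
  nlinarith

section

variable {M cls k Zs}

theorem c_cl_empty (hk : 2 ≤ k) (hZ : ∀ n, M.r (Zs n) = (Zs n).card) (n : ℕ) :
    (rankData M cls k Zs).c n ((rankData M cls k Zs).cl ∅) = (rankData M cls k Zs).cl ∅ :=
  kc_cl_empty M hk (hZ n)

theorem mem_K_empty (hk : 2 ≤ k) (hZ : ∀ n, M.r (Zs n) = (Zs n).card) {y : α} :
    y ∈ K (rankData M cls k Zs) ∅ ↔ y ∈ M.cl ∅ := by
  rw [K_empty _ (c_cl_empty hk hZ)]
  rfl

/-- every non-loop exits -/
theorem exits (hk : 2 ≤ k) (hZ : ∀ n, M.r (Zs n) = (Zs n).card) (A : Finset α) {y : α}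
    (hy : y ∉ M.cl ∅) : ∃ t < Fintype.card α, y ∈ Dt (rankData M cls k Zs) A t :=
  exit_exists _ fun h => hy ((mem_K_empty hk hZ).1 h)








end

end Crest.Agent.R305.Fcr310
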