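import Mathlib
import Crest.Prelude.Def_OnlineMatroid
import Crest.Prelude.Def_SampleRule
import Crest.Agent.R305.Kd_447

-- ▼ part R305/Red_396
section

/-!
R305 / S0468: reduction of the literal statement to combinatorial cores (helper396).

* `SecCore k M c`  : order/value dependent secretary rules for every fixed weight vector (AKW).
* `FamCore k M c`  : families `F r w X` that only look at `w` on `T r ∪ X`.
* `OrdCore k M c`  : the same with linear orders instead of weights, guarantee on prefixes.
* `PtCore  k M c`  : pointwise guarantee for the elements of the greedy basis.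
-/

set_option autoImplicit false
universe u
open Crest.OnlineMatroid MeasureTheory

namespace Crest.Agent.R305.Red396

variable {k : ℕ}

/-- the vector `s` on `T`, `v` off `T` -/
noncomputable def glue (T : Finset (Fin k)) (s v : Fin k → ℝ) : Fin k → ℝ :=
  fun e => if e ∈ T then s e else v e

theorem glue_self (T : Finset (Fin k)) (w : Fin k → ℝ) : glue T w w = w := by
  funext e; simp [glue]

/-- SECRETARY CORE: finite seed space with weights `μ`, sampled part `T r`; the rule may only use
the sample values on `T r` and the arriving values off `T r` (`hloc`), never accepts elements of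
`T r`, and for every fixed weight vector beats `c * OPT` against the worst order. -/
def SecCore (k : ℕ) (M : Matroid (Fin k)) (c : ENNReal) : Prop :=
  ∃ (Ω : Type) (_ : Fintype Ω) (μ : Ω → ENNReal) (R : SampleRule Ω k)
    (T : Ω → Finset (Fin k)),
    (∑ r, μ r = 1) ∧
    (∀ r s v order, M.Indep (sAccepted R r s v order : Set (Fin k))) ∧
    (∀ r s v order, ∀ e ∈ sAccepted R r s v order, e ∉ T r) ∧
    (∀ r s v order, sAccepted R r s v order =
      sAccepted R r (glue (T r) s v) (glue (T r) s v) order) ∧
    (∀ r order A, MeasurableSet {w : Fin k → ℝ | sAccepted R r w w order = A}) ∧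
    (∀ w : Fin k → ℝ, (∀ e, 0 ≤ w e) → c * optWeight M w ≤
      ∑ r, μ r * ⨅ σ : Equiv.Perm (Fin k),
        ENNReal.ofReal (∑ e ∈ sAccepted R r w w (List.ofFn σ), w e))

/-- the conclusion of S0468 with a general constant -/
def Concl (k : ℕ) (M : Matroid (Fin k)) (c : ENNReal) : Prop :=
    ∃ (ΩR : Type) (_ : MeasurableSpace ΩR) (μR : MeasureTheory.Measure ΩR) (R : SampleRule ΩR k),
      MeasureTheory.IsProbabilityMeasure μR ∧
      (∀ (r : ΩR) (s v : Fin k → ℝ) (order : List (Fin k)),
        M.Indep (sAccepted R r s v order : Set (Fin k))) ∧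
      ∀ (Ω : Type u) [MeasurableSpace Ω] (P : MeasureTheory.Measure Ω)
        [MeasureTheory.IsProbabilityMeasure P] (S V : Ω → Fin k → ℝ),
        Measurable S → Measurable V → (∀ ω e, 0 ≤ S ω e ∧ 0 ≤ V ω e) →
        ProbabilityTheory.iIndepFun
          (fun (i : Fin k × Bool) (ω : Ω) => if i.2 = true then S ω i.1 else V ω i.1) P →
        (∀ e, P.map (fun ω => S ω e) = P.map (fun ω => V ω e)) →
        ∫⁻ ω, optWeight M (V ω) ∂P ≠ ⊤ →
        c * ∫⁻ ω, optWeight M (V ω) ∂P ≤
          ∫⁻ p, ⨅ σ : Equiv.Perm (Fin k),
            ENNReal.ofReal (∑ e ∈ sAccepted R p.1 (S p.2) (V p.2) (List.ofFn σ), V p.2 e)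
            ∂(μR.prod P)

/-- value of the worst order for a rule, fixed weights -/
noncomputable def gval {Ω : Type} (R : SampleRule Ω k) (r : Ω) (w : Fin k → ℝ) : ENNReal :=
  ⨅ σ : Equiv.Perm (Fin k),
    ENNReal.ofReal (∑ e ∈ sAccepted R r w w (List.ofFn σ), w e)

theorem measurable_gval {Ω : Type} (R : SampleRule Ω k) (r : Ω)
    (hm : ∀ order A, MeasurableSet {w : Fin k → ℝ | sAccepted R r w w order = A}) :
    Measurable (gval R r) := by
  classical
  unfold gval
  refine Measurable.iInf fun σ => ?_
  have : (fun w : Fin k → ℝ => ENNReal.ofReal (∑ e ∈ sAccepted R r w w (List.ofFn σ), w e)) =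
      fun w => ∑ A : Finset (Fin k), Set.indicator {w : Fin k → ℝ | sAccepted R r w w (List.ofFn σ) = A}
        (fun w => ENNReal.ofReal (∑ e ∈ A, w e)) w := by
    funext w
    rw [Finset.sum_eq_single (sAccepted R r w w (List.ofFn σ))]
    · simp [Set.indicator]
    · intro B _ hB
      simp [Set.indicator, Ne.symm hB]
    · intro h; exact absurd (Finset.mem_univ _) h
  rw [this]
  refine Finset.measurable_sum _ fun A _ => ?_
  refine Measurable.indicator ?_ (hm _ A)
  refine ENNReal.measurable_ofReal.comp ?_
  exact Finset.measurable_sum _ fun e _ => measurable_pi_apply e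

theorem law_glue {Ω : Type u} [MeasurableSpace Ω] (P : Measure Ω) [IsProbabilityMeasure P]
    (S V : Ω → Fin k → ℝ) (hS : Measurable S) (hV : Measurable V)
    (hind : ProbabilityTheory.iIndepFun
          (fun (i : Fin k × Bool) (ω : Ω) => if i.2 = true then S ω i.1 else V ω i.1) P)
    (hlaw : ∀ e, P.map (fun ω => S ω e) = P.map (fun ω => V ω e)) (T : Finset (Fin k)) :
    P.map (fun ω => glue T (S ω) (V ω)) = P.map V := by
  classical
  have key : ∀ T' : Finset (Fin k), P.map (fun ω => glue T' (S ω) (V ω)) =
      Measure.pi (fun e => P.map (fun ω => V ω e)) := by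
    intro T'
    let f : Fin k → Fin k × Bool := fun e => (e, decide (e ∈ T'))
    have hf : Function.Injective f := fun a b h => congrArg Prod.fst h
    have h1 := hind.precomp hf
    have hm : ∀ e, Measurable (fun ω => glue T' (S ω) (V ω) e) := by
      intro e
      have h1 : Measurable (fun ω => S ω e) := (measurable_pi_apply e).comp hS
      have h2 : Measurable (fun ω => V ω e) := (measurable_pi_apply e).comp hV
      by_cases he : e ∈ T'
      · simpa [glue, he] using h1
      · simpa [glue, he] using h2
    have heq : (fun (e : Fin k) (ω : Ω) => if (f e).2 = true then S ω (f e).1 else V ω (f e).1) =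
        fun e ω => glue T' (S ω) (V ω) e := by
      funext e ω
      simp [f, glue]
    have h2 : ProbabilityTheory.iIndepFun (fun (e : Fin k) (ω : Ω) => glue T' (S ω) (V ω) e) P := by
      rw [← heq]; exact h1
    rw [ProbabilityTheory.iIndepFun_iff_map_fun_eq_pi_map (fun e => (hm e).aemeasurable)] at h2
    rw [h2]
    congr 1
    funext e
    by_cases he : e ∈ T'
    · simpa [glue, he] using hlaw e
    · simp [glue, he]
  rw [key T, ← key ∅]
  congr 1

theorem concl_of_secCore (M : Matroid (Fin k)) (c : ENNReal) (hc : c ≠ ⊤)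
    (h : SecCore k M c) : Concl.{u} k M c := by
  classical
  obtain ⟨Ω₀, _, μ, R, T, hμ, hI, hT, hloc, hmeas, hval⟩ := h
  let _ : MeasurableSpace Ω₀ := ⊤
  have _ : DiscreteMeasurableSpace Ω₀ := ⟨fun _ => trivial⟩
  let μR : Measure Ω₀ := ∑ r, μ r • Measure.dirac r
  have hint : ∀ f : Ω₀ → ENNReal, ∫⁻ r, f r ∂μR = ∑ r, μ r * f r := by
    intro f
    simp only [μR]
    rw [lintegral_finsetSum_measure]
    refine Finset.sum_congr rfl fun r _ => ?_
    rw [lintegral_smul_measure, lintegral_dirac]
    rfl
  have hprob : IsProbabilityMeasure μR := by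
    constructor
    have := hint (fun _ => 1)
    simpa [hμ] using this
  refine ⟨Ω₀, ⊤, μR, R, hprob, hI, ?_⟩
  intro Ω _ P _ S V hS hV hpos hind hlaw _
  have hW : ∀ r, Measurable (fun ω => glue (T r) (S ω) (V ω)) := by
    intro r
    refine measurable_pi_lambda _ fun e => ?_
    have h1 : Measurable (fun ω => S ω e) := (measurable_pi_apply e).comp hS
    have h2 : Measurable (fun ω => V ω e) := (measurable_pi_apply e).comp hV
    by_cases he : e ∈ T r
    · simpa [glue, he] using h1
    · simpa [glue, he] using h2
  have hG : ∀ p : Ω₀ × Ω, (⨅ σ : Equiv.Perm (Fin k),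
      ENNReal.ofReal (∑ e ∈ sAccepted R p.1 (S p.2) (V p.2) (List.ofFn σ), V p.2 e)) =
      gval R p.1 (glue (T p.1) (S p.2) (V p.2)) := by
    intro p
    unfold gval
    refine iInf_congr fun σ => ?_
    congr 1
    rw [← hloc]
    refine Finset.sum_congr rfl fun e he => ?_
    have := hT _ _ _ _ e he
    simp [glue, this]
  simp_rw [hG]
  have hmg : ∀ r, Measurable (gval R r) := fun r => measurable_gval R r (hmeas r)
  have hmG : Measurable (fun p : Ω₀ × Ω => gval R p.1 (glue (T p.1) (S p.2) (V p.2))) := by
    refine measurable_from_prod_countable_right fun r => ?_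
    exact (hmg r).comp (hW r)
  rw [lintegral_prod _ hmG.aemeasurable, hint]
  have h1 : ∀ r, ∫⁻ ω, gval R r (glue (T r) (S ω) (V ω)) ∂P = ∫⁻ ω, gval R r (V ω) ∂P := by
    intro r
    rw [← lintegral_map (hmg r) (hW r), law_glue P S V hS hV hind hlaw, lintegral_map (hmg r) hV]
  simp only [h1]
  have h2 : ∑ r, μ r * ∫⁻ ω, gval R r (V ω) ∂P = ∫⁻ ω, ∑ r, μ r * gval R r (V ω) ∂P := by
    rw [lintegral_finsetSum]
    · refine Finset.sum_congr rfl fun r _ => ?_
      rw [← lintegral_const_mul (μ r) (f := fun ω => gval R r (V ω)) ((hmg r).comp hV)]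
    · intro r _
      exact ((hmg r).comp hV).const_mul _
  rw [h2, ← lintegral_const_mul' _ _ hc]
  refine lintegral_mono fun ω => ?_
  exact hval (V ω) fun e => (hpos ω e).2

end Crest.Agent.R305.Red396
end

-- ▼ part R305/RedFam_396
section

/-!
R305 / S0468: family core => secretary core (helper396).
-/

set_option autoImplicit false
open Crest.OnlineMatroid MeasureTheory

namespace Crest.Agent.R305.Red396

variable {k : ℕ}

/-- `A` is a possible final accepted set of the greedy rule along the family `F` on `U`. -/
def IsFinal (U : Finset (Fin k)) (F : Finset (Fin k) → Prop) (A : Finset (Fin k)) : Prop :=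
  F A ∧ ∀ a ∈ U, a ∉ A → ∃ X, X ⊆ A ∧ F X ∧ ¬ F (insert a X)



/-- FAMILY CORE. -/
def FamCore (k : ℕ) (M : Matroid (Fin k)) (c : ENNReal) : Prop :=
  ∃ (Ω : Type) (_ : Fintype Ω) (μ : Ω → ENNReal) (T U : Ω → Finset (Fin k))
    (F : Ω → (Fin k → ℝ) → Finset (Fin k) → Prop),
    (∑ r, μ r = 1) ∧
    (∀ r, ∀ e ∈ U r, e ∉ T r) ∧
    (∀ r w X, F r w X → X ⊆ U r ∧ M.Indep (X : Set (Fin k))) ∧
    (∀ r w, F r w ∅) ∧
    (∀ r w w' X, (∀ e, e ∈ T r ∨ e ∈ X → w e = w' e) → F r w X → F r w' X) ∧
    (∀ r X, MeasurableSet {w : Fin k → ℝ | F r w X}) ∧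
    (∀ w : Fin k → ℝ, (∀ e, 0 ≤ w e) → c * optWeight M w ≤
      ∑ r, μ r * ⨅ A : {A : Finset (Fin k) // IsFinal (U r) (F r w) A},
        ENNReal.ofReal (∑ e ∈ A.1, w e))

open Classical in
/-- one step of the online greedy along a family: state = (accepted set, known weights) -/
noncomputable def step (U : Finset (Fin k)) (F : (Fin k → ℝ) → Finset (Fin k) → Prop)
    (st : Finset (Fin k) × (Fin k → ℝ)) (p : Fin k × ℝ) : Finset (Fin k) × (Fin k → ℝ) :=
  if p.1 ∈ U then
    (if F (Function.update st.2 p.1 p.2) (insert p.1 st.1) then insert p.1 st.1 else st.1,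
      Function.update st.2 p.1 p.2)
  else st

open Classical in
/-- the online rule of a family -/
noncomputable def famRule {Ω : Type} (T U : Ω → Finset (Fin k))
    (F : Ω → (Fin k → ℝ) → Finset (Fin k) → Prop) : SampleRule Ω k where
  decide r s hist e x :=
    let st := hist.foldl (step (U r) (F r)) (∅, glue (T r) s 0)
    decide (e ∈ U r ∧ F r (Function.update st.2 e x) (insert e st.1))

open Classical in
/-- ideal greedy with fully known weights -/
noncomputable def gstep (U : Finset (Fin k)) (F : Finset (Fin k) → Prop)
    (A : Finset (Fin k)) (e : Fin k) : Finset (Fin k) :=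
  if e ∈ U ∧ F (insert e A) then insert e A else A

noncomputable def greedy (U : Finset (Fin k)) (F : Finset (Fin k) → Prop)
    (l : List (Fin k)) : Finset (Fin k) := l.foldl (gstep U F) ∅

section run
variable (T U : Finset (Fin k)) (F : (Fin k → ℝ) → Finset (Fin k) → Prop)

/-- invariants of the real run -/
theorem run_inv (hTU : ∀ e ∈ U, e ∉ T)
    (hloc : ∀ w w' X, (∀ e, e ∈ T ∨ e ∈ X → w e = w' e) → F w X → F w' X)
    (s v : Fin k → ℝ) (l : List (Fin k)) :
    let st := (l.map (fun e => (e, v e))).foldl (step U F) (∅, glue T s 0)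
    st.1 = greedy U (F (glue T s v)) l ∧ (∀ e ∈ st.1, e ∈ U) ∧
      (∀ e, e ∈ T ∨ e ∈ st.1 → st.2 e = glue T s v e) := by
  classical
  induction l using List.reverseRecOn with
  | nil =>
      refine ⟨rfl, by simp, ?_⟩
      intro e he
      rcases he with he | he
      · simp [glue, he]
      · simp at he
  | append_singleton l e ih =>
      simp only [List.map_append, List.map_cons, List.map_nil, List.foldl_append, List.foldl_cons,
        List.foldl_nil] at ih ⊢
      set st := (l.map (fun e => (e, v e))).foldl (step U F) (∅, glue T s 0) with hst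
      obtain ⟨ih1, ih2, ih3⟩ := ih
      have hg : greedy U (F (glue T s v)) (l ++ [e]) =
          gstep U (F (glue T s v)) (greedy U (F (glue T s v)) l) e := by
        simp [greedy, List.foldl_append]
      rw [hg, ← ih1]
      by_cases heU : e ∈ U
      · have heT := hTU e heU
        have hupd : ∀ f, f ∈ T ∨ f ∈ insert e st.1 →
            Function.update st.2 e (v e) f = glue T s v f := by
          intro f hf
          by_cases hfe : f = e
          · subst hfe; simp [glue, heT]
          · rw [Function.update_of_ne hfe]
            apply ih3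
            rcases hf with hf | hf
            · exact Or.inl hf
            · exact Or.inr ((Finset.mem_insert.1 hf).resolve_left hfe)
        have hiff : F (Function.update st.2 e (v e)) (insert e st.1) ↔
            F (glue T s v) (insert e st.1) :=
          ⟨hloc _ _ _ hupd, hloc _ _ _ (fun f hf => (hupd f hf).symm)⟩
        simp only [step, gstep, heU, if_true, true_and, hiff]
        by_cases hF : F (glue T s v) (insert e st.1)
        · simp only [hF, if_true]
          refine ⟨?_, ?_⟩
          · intro f hf
            rcases Finset.mem_insert.1 hf with rfl | hf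
            · exact heU
            · exact ih2 f hf
          · intro f hf; exact hupd f hf
        · simp only [hF, if_false]
          refine ⟨ih2, ?_⟩
          intro f hf
          exact hupd f (hf.imp id (Finset.mem_insert_of_mem))
      · simp only [step, gstep, heU, if_false, false_and]
        exact ⟨trivial, ih2, ih3⟩

end run

section acc
variable {Ω : Type} (T U : Ω → Finset (Fin k)) (F : Ω → (Fin k → ℝ) → Finset (Fin k) → Prop)

theorem acc_aux (hTU : ∀ r, ∀ e ∈ U r, e ∉ T r)
    (hloc : ∀ r w w' X, (∀ e, e ∈ T r ∨ e ∈ X → w e = w' e) → F r w X → F r w' X)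
    (r : Ω) (s v : Fin k → ℝ) (rest : List (Fin k)) : ∀ (l : List (Fin k)),
    greedy (U r) (F r (glue (T r) s v)) l ∪
      sAcceptedAux (famRule T U F) r s v rest (l.map (fun e => (e, v e))) =
    greedy (U r) (F r (glue (T r) s v)) (l ++ rest) := by
  classical
  induction rest with
  | nil => intro l; simp [sAcceptedAux]
  | cons e rest ih =>
      intro l
      have hih := ih (l ++ [e])
      simp only [List.map_append, List.map_cons, List.map_nil, List.append_assoc,
        List.cons_append, List.nil_append] at hih
      rw [← hih]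
      have hcons : sAcceptedAux (famRule T U F) r s v (e :: rest) (l.map (fun e => (e, v e))) =
        (if (famRule T U F).decide r s (l.map (fun e => (e, v e))) e (v e) = true then {e} else ∅) ∪
        sAcceptedAux (famRule T U F) r s v rest (l.map (fun e => (e, v e)) ++ [(e, v e)]) := rfl
      rw [hcons]
      have hinv := run_inv (T r) (U r) (F r) (hTU r) (hloc r) s v l
      simp only at hinv
      obtain ⟨h1, h2, h3⟩ := hinv
      set st := (l.map (fun e => (e, v e))).foldl (step (U r) (F r)) (∅, glue (T r) s 0) with hst
      have hg : greedy (U r) (F r (glue (T r) s v)) (l ++ [e]) =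
          gstep (U r) (F r (glue (T r) s v)) (greedy (U r) (F r (glue (T r) s v)) l) e := by
        simp [greedy, List.foldl_append]
      have hdec : (famRule T U F).decide r s (l.map (fun e => (e, v e))) e (v e) = true ↔
          (e ∈ U r ∧ F r (glue (T r) s v) (insert e st.1)) := by
        simp only [famRule, decide_eq_true_eq, ← hst]
        constructor
        · rintro ⟨heU, hF⟩
          refine ⟨heU, hloc r _ _ _ ?_ hF⟩
          intro f hf
          by_cases hfe : f = e
          · subst hfe; simp [glue, hTU r f heU]
          · rw [Function.update_of_ne hfe]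
            apply h3
            rcases hf with hf | hf
            · exact Or.inl hf
            · exact Or.inr ((Finset.mem_insert.1 hf).resolve_left hfe)
        · rintro ⟨heU, hF⟩
          refine ⟨heU, hloc r _ _ _ ?_ hF⟩
          intro f hf
          symm
          by_cases hfe : f = e
          · subst hfe; simp [glue, hTU r f heU]
          · rw [Function.update_of_ne hfe]
            apply h3
            rcases hf with hf | hf
            · exact Or.inl hf
            · exact Or.inr ((Finset.mem_insert.1 hf).resolve_left hfe)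
      rw [hg, ← h1]
      by_cases hd : e ∈ U r ∧ F r (glue (T r) s v) (insert e st.1)
      · rw [if_pos (hdec.2 hd)]
        simp only [gstep, hd, and_self, if_true]
        ext f
        simp only [Finset.mem_union, Finset.mem_singleton, Finset.mem_insert]
        tauto
      · rw [if_neg (fun h => hd (hdec.1 h))]
        simp only [gstep, hd, if_false]
        simp

theorem acc_eq (hTU : ∀ r, ∀ e ∈ U r, e ∉ T r)
    (hloc : ∀ r w w' X, (∀ e, e ∈ T r ∨ e ∈ X → w e = w' e) → F r w X → F r w' X)
    (r : Ω) (s v : Fin k → ℝ) (l : List (Fin k)) :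
    sAccepted (famRule T U F) r s v l = greedy (U r) (F r (glue (T r) s v)) l := by
  have := acc_aux T U F hTU hloc r s v l []
  simpa [greedy, sAccepted] using this

end acc

theorem greedy_mem (U : Finset (Fin k)) (F : Finset (Fin k) → Prop) (h0 : F ∅)
    (l : List (Fin k)) : F (greedy U F l) := by
  classical
  induction l using List.reverseRecOn with
  | nil => exact h0
  | append_singleton l e ih =>
      simp only [greedy, List.foldl_append, List.foldl_cons, List.foldl_nil] at ih ⊢
      unfold gstep
      split_ifs with h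
      · exact h.2
      · exact ih

theorem greedy_mono (U : Finset (Fin k)) (F : Finset (Fin k) → Prop)
    (l l' : List (Fin k)) : greedy U F l ⊆ greedy U F (l ++ l') := by
  classical
  induction l' using List.reverseRecOn with
  | nil => simp
  | append_singleton l' e ih =>
      refine ih.trans ?_
      rw [← List.append_assoc]
      simp only [greedy, List.foldl_append, List.foldl_cons, List.foldl_nil]
      unfold gstep
      split_ifs with h
      · exact Finset.subset_insert _ _
      · exact subset_rfl

theorem greedy_final (U : Finset (Fin k)) (F : Finset (Fin k) → Prop) (h0 : F ∅)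
    (l : List (Fin k)) (hl : ∀ a ∈ U, a ∈ l) : IsFinal U F (greedy U F l) := by
  classical
  refine ⟨greedy_mem U F h0 l, ?_⟩
  intro a ha hn
  obtain ⟨l₁, l₂, rfl⟩ := List.append_of_mem (hl a ha)
  refine ⟨greedy U F l₁, greedy_mono U F _ _, greedy_mem U F h0 l₁, ?_⟩
  intro hF
  apply hn
  have h1 : greedy U F (l₁ ++ [a]) = insert a (greedy U F l₁) := by
    simp only [greedy, List.foldl_append, List.foldl_cons, List.foldl_nil]
    unfold gstep
    rw [if_pos ⟨ha, hF⟩]
  have h2 := greedy_mono U F (l₁ ++ [a]) l₂
  rw [h1] at h2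
  have h3 : l₁ ++ [a] ++ l₂ = l₁ ++ a :: l₂ := by simp
  rw [h3] at h2
  exact h2 (Finset.mem_insert_self _ _)

theorem measurableSet_greedy (U : Finset (Fin k)) (F : (Fin k → ℝ) → Finset (Fin k) → Prop)
    (hm : ∀ X, MeasurableSet {w : Fin k → ℝ | F w X}) (l : List (Fin k)) :
    ∀ A, MeasurableSet {w : Fin k → ℝ | greedy U (F w) l = A} := by
  classical
  induction l using List.reverseRecOn with
  | nil =>
      intro A
      by_cases h : (∅ : Finset (Fin k)) = A
      · simp [greedy, h]
      · simp [greedy, h]
  | append_singleton l e ih =>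
      intro A
      have : {w : Fin k → ℝ | greedy U (F w) (l ++ [e]) = A} =
          ⋃ B : Finset (Fin k), {w | greedy U (F w) l = B} ∩ {w | gstep U (F w) B e = A} := by
        ext w
        simp [greedy, List.foldl_append]
      rw [this]
      refine MeasurableSet.iUnion fun B => (ih B).inter ?_
      by_cases heU : e ∈ U
      · by_cases h1 : insert e B = A
        · by_cases h2 : B = A
          · have : {w : Fin k → ℝ | gstep U (F w) B e = A} = Set.univ := by
              ext w; simp only [gstep, heU, true_and, Set.mem_ofPred_eq, Set.mem_univ, iff_true]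
              split_ifs <;> assumption
            rw [this]; exact MeasurableSet.univ
          · have : {w : Fin k → ℝ | gstep U (F w) B e = A} = {w | F w (insert e B)} := by
              ext w; simp only [gstep, heU, true_and, Set.mem_ofPred_eq]
              split_ifs with h
              · exact ⟨fun _ => h, fun _ => h1⟩
              · exact ⟨fun h' => absurd h' h2, fun h' => absurd h' h⟩
            rw [this]; exact hm _
        · by_cases h2 : B = A
          · have : {w : Fin k → ℝ | gstep U (F w) B e = A} = {w | F w (insert e B)}ᶜ := by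
              ext w; simp only [gstep, heU, true_and, Set.mem_ofPred_eq, Set.mem_compl_iff]
              split_ifs with h
              · exact ⟨fun h' => absurd h' h1, fun h' => absurd h h'⟩
              · exact ⟨fun _ => h, fun _ => h2⟩
            rw [this]; exact (hm _).compl
          · have : {w : Fin k → ℝ | gstep U (F w) B e = A} = ∅ := by
              ext w; simp only [gstep, heU, true_and, Set.mem_ofPred_eq, Set.mem_empty_iff_false,
                iff_false]
              split_ifs <;> assumption
            rw [this]; exact MeasurableSet.empty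
      · by_cases h2 : B = A
        · simp [gstep, heU, h2]
        · simp [gstep, heU, h2]

theorem secCore_of_famCore (M : Matroid (Fin k)) (c : ENNReal) (h : FamCore k M c) :
    SecCore k M c := by
  classical
  obtain ⟨Ω, hΩ, μ, T, U, F, hμ, hTU, hsub, h0, hloc, hmeas, hval⟩ := h
  have hacc := acc_eq T U F hTU hloc
  refine ⟨Ω, hΩ, μ, famRule T U F, T, hμ, ?_, ?_, ?_, ?_, ?_⟩
  · intro r s v order
    rw [hacc]
    exact (hsub r _ _ (greedy_mem (U r) _ (h0 r _) order)).2
  · intro r s v order e he
    rw [hacc] at he
    exact hTU r e ((hsub r _ _ (greedy_mem (U r) _ (h0 r _) order)).1 he)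
  · intro r s v order
    rw [hacc, hacc, glue_self]
  · intro r order A
    simp_rw [hacc, glue_self]
    exact measurableSet_greedy (U r) (F r) (hmeas r) order A
  · intro w hw
    refine (hval w hw).trans ?_
    refine Finset.sum_le_sum fun r _ => mul_le_mul_right ?_ _
    refine le_iInf fun σ => ?_
    have hfin : IsFinal (U r) (F r w) (greedy (U r) (F r w) (List.ofFn σ)) := by
      refine greedy_final (U r) (F r w) (h0 r w) _ ?_
      intro a _
      rw [List.mem_ofFn]
      exact ⟨σ.symm a, by simp⟩
    rw [hacc, glue_self]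
    exact iInf_le (fun A : {A : Finset (Fin k) // IsFinal (U r) (F r w) A} =>
      ENNReal.ofReal (∑ e ∈ A.1, w e)) ⟨_, hfin⟩

end Crest.Agent.R305.Red396
private theorem rz_9ee6ac465b : type_of% @_root_.Crest.OnlineMatroid.sAcceptedAux.eq_def := @_root_.Crest.OnlineMatroid.sAcceptedAux.eq_def
private theorem rz_9cd07e3d04 : type_of% @_root_.Crest.OnlineMatroid.sAcceptedAux.eq_1 := @_root_.Crest.OnlineMatroid.sAcceptedAux.eq_1
end

-- ▼ part R305/Rows_755

/-!
R305 / S0468: the greedy / online side (helper755).

`RowBasis` describes every possible accepted set of the rule which serves rows greedily, each row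
over its own contracted flat, for every arrival order.  `concl_of_clsRule` turns a rule whose data
depend on the weights only through the class vector `q e = none` (`w e ≤ 0`) or
`q e = some (Int.log Λ (w e))` into the literal conclusion of S0468 (with a general constant).
-/

set_option autoImplicit false
universe u

namespace Crest.Agent.R305.Rows755

open Crest.OnlineMatroid Crest.Agent.R305.Kd447 Crest.Agent.R305.Red396 MeasureTheory

variable {k : ℕ}

/-- feasible sets of the row rule: every row independent over its base -/
structure RowIndep (R : RankFn (Fin k)) (U : Finset (Fin k)) (row : Fin k → Option ℕ)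
    (base : ℕ → Finset (Fin k)) (A : Finset (Fin k)) : Prop where
  sub : A ⊆ U
  row_ne : ∀ a ∈ A, row a ≠ none
  indep : ∀ t, R.rr (base t) (A.filter (fun a => row a = some t)) =
    (A.filter (fun a => row a = some t)).card

/-- possible accepted sets of the row rule: every row is a basis of the online elements of the row
over its base -/
structure RowBasis (R : RankFn (Fin k)) (U : Finset (Fin k)) (row : Fin k → Option ℕ)
    (base : ℕ → Finset (Fin k)) (A : Finset (Fin k)) : Prop where
  sub : A ⊆ U
  row_ne : ∀ a ∈ A, row a ≠ none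
  indep : ∀ t, R.rr (base t) (A.filter (fun a => row a = some t)) =
    (A.filter (fun a => row a = some t)).card
  span : ∀ u ∈ U, ∀ t, row u = some t → u ∈ R.cl (base t ∪ A.filter (fun a => row a = some t))

section Det

variable (R : RankFn (Fin k)) {U : Finset (Fin k)} {row : Fin k → Option ℕ}
    {base : ℕ → Finset (Fin k)}

theorem rowIndep_empty : RowIndep R U row base ∅ :=
  ⟨by simp, by simp, by simp⟩

/-- rows of a feasible set are jointly independent -/
theorem RowIndep.r_eq_card {R : RankFn (Fin k)} {X : Finset (Fin k)}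
    (h : RowIndep R U row base X)
    (chain : ∀ a ∈ U, ∀ b ∈ U, ∀ t t', row a = some t → row b = some t' → t < t' →
      b ∈ R.cl (base t)) : R.r X = X.card := by
  classical
  -- the part of `X` in the rows `≥ t`
  set up : ℕ → Finset (Fin k) := fun t => X.filter (fun a => ∃ s, row a = some s ∧ t ≤ s) with hup
  have key : ∀ n t, (∀ a ∈ X, ∀ s, row a = some s → s < t + n) →
      R.r (up t) = (up t).card := by
    intro n
    induction n with
    | zero =>
      intro t ht
      have : up t = ∅ := by
        rw [hup]
        simp only [Finset.filter_eq_empty_iff]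
        rintro a ha ⟨s, hs, hts⟩
        have := ht a ha s hs
        omega
      rw [this, R.r_empty]; rfl
    | succ n ih =>
      intro t ht
      have ih' := ih (t + 1) (fun a ha s hs => by have := ht a ha s hs; omega)
      set Xt := X.filter (fun a => row a = some t) with hXt
      have hsplit : up t = up (t + 1) ∪ Xt := by
        ext a
        simp only [hup, hXt, Finset.mem_filter, Finset.mem_union]
        constructor
        · rintro ⟨haX, s, hs, hts⟩
          rcases Nat.eq_or_lt_of_le hts with h1 | h1
          · right; subst h1; exact ⟨haX, hs⟩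
          · left; exact ⟨haX, s, hs, h1⟩
        · rintro (⟨haX, s, hs, hts⟩ | ⟨haX, hs⟩)
          · exact ⟨haX, s, hs, by omega⟩
          · exact ⟨haX, t, hs, le_refl _⟩
      have hdisj : Disjoint (up (t + 1)) Xt := by
        rw [Finset.disjoint_left]
        intro a ha1 ha2
        simp only [hup, hXt, Finset.mem_filter] at ha1 ha2
        obtain ⟨_, s, hs, hts⟩ := ha1
        rw [ha2.2] at hs
        have := Option.some.inj hs
        omega
      rw [hsplit, Finset.card_union_of_disjoint hdisj, ← ih', ← R.r_add_rr]
      congr 1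
      rcases Finset.eq_empty_or_nonempty Xt with he | hne
      · rw [he]; simp
      · obtain ⟨a, ha⟩ := hne
        have ha' := Finset.mem_filter.1 ha
        have hsub : up (t + 1) ⊆ R.cl (base t) := by
          intro b hb
          simp only [hup, Finset.mem_filter] at hb
          obtain ⟨hbX, s, hs, hts⟩ := hb
          exact chain a (h.sub ha'.1) b (h.sub hbX) t s ha'.2 hs hts
        apply le_antisymm (R.rr_le_card _ _)
        rw [← h.indep t]
        have h1 : R.rr (base t ∪ up (t + 1)) Xt = R.rr (base t) Xt := by
          have e1 : R.cl (base t ∪ up (t + 1)) = R.cl (base t) := by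
            apply Finset.Subset.antisymm
            · rw [R.cl_subset_iff]
              exact Finset.union_subset (R.subset_cl _) hsub
            · exact R.cl_mono Finset.subset_union_left
          rw [← R.rr_cl_left, e1, R.rr_cl_left]
        rw [← hXt, ← h1]
        exact R.rr_anti Finset.subset_union_right _
  obtain ⟨N, hN⟩ : ∃ N, ∀ a ∈ X, ∀ s, row a = some s → s < N := by
    refine ⟨(X.sup fun a => (row a).getD 0) + 1, fun a ha s hs => ?_⟩
    have := Finset.le_sup (f := fun a => (row a).getD 0) ha
    simp only [hs, Option.getD_some] at this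
    omega
  have h0 := key N 0 (by simpa using hN)
  have : up 0 = X := by
    ext a
    simp only [hup, Finset.mem_filter, Nat.zero_le, and_true, and_iff_left_iff_imp]
    intro ha
    exact Option.ne_none_iff_exists'.1 (h.row_ne a ha)
  rwa [this] at h0

/-- the final sets of the greedy rule are bases of the rows -/
theorem rowBasis_of_isFinal {A : Finset (Fin k)}
    (hA : IsFinal (U.filter (fun u => row u ≠ none)) (RowIndep R U row base) A) :
    RowBasis R U row base A := by
  classical
  obtain ⟨h, hf⟩ := hA
  refine ⟨h.sub, h.row_ne, h.indep, ?_⟩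
  intro u hu t hut
  by_cases huA : u ∈ A
  · apply R.subset_cl
    exact Finset.mem_union_right _ (Finset.mem_filter.2 ⟨huA, hut⟩)
  · obtain ⟨X, hXA, hX, hXu⟩ := hf u (Finset.mem_filter.2 ⟨hu, by rw [hut]; simp⟩) huA
    by_contra hcl
    apply hXu
    refine ⟨Finset.insert_subset hu hX.sub, ?_, ?_⟩
    · intro a ha
      rcases Finset.mem_insert.1 ha with rfl | ha
      · rw [hut]; simp
      · exact hX.row_ne a ha
    · intro s
      by_cases hst : s = t
      · subst hst
        have huX : u ∉ X := fun h' => huA (hXA h')
        rw [Finset.filter_insert, if_pos hut]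
        have hnot : u ∉ X.filter (fun a => row a = some s) := fun h' =>
          huX (Finset.mem_filter.1 h').1
        rw [Finset.card_insert_of_notMem hnot, ← hX.indep s]
        have hcl' : u ∉ R.cl (base s ∪ X.filter (fun a => row a = some s)) := by
          intro h'
          apply hcl
          refine R.cl_mono ?_ h'
          exact Finset.union_subset_union_right (Finset.filter_subset_filter _ hXA)
        rw [R.notMem_cl] at hcl'
        have e1 : base s ∪ insert u (X.filter (fun a => row a = some s)) =
            insert u (base s ∪ X.filter (fun a => row a = some s)) := by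
          rw [Finset.union_insert]
        have e2 := R.r_add_rr (base s) (insert u (X.filter (fun a => row a = some s)))
        have e3 := R.r_add_rr (base s) (X.filter (fun a => row a = some s))
        rw [e1] at e2
        omega
      · rw [Finset.filter_insert, if_neg]
        · exact hX.indep s
        · rw [hut]; intro h'; exact hst (Option.some.inj h').symm



theorem RowBasis.filter_subset {R : RankFn (Fin k)} {A : Finset (Fin k)}
    (h : RowBasis R U row base A) (t : ℕ) :
    A.filter (fun a => row a = some t) ⊆ U.filter (fun a => row a = some t) :=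
  Finset.filter_subset_filter _ h.sub

end Det

/-! ### weights and class vectors -/

/-- class vector of a weight vector -/
noncomputable def qv (Λ : ℕ) (w : Fin k → ℝ) : Fin k → Option ℤ :=
  fun e => if 0 < w e then some (Int.log Λ (w e)) else none

/-- value of a class -/
noncomputable def val (Λ : ℕ) (o : Option ℤ) : ℝ := o.elim 0 (fun n => (Λ : ℝ) ^ n)

@[simp] theorem val_none (Λ : ℕ) : val Λ none = 0 := rfl

@[simp] theorem val_some (Λ : ℕ) (n : ℤ) : val Λ (some n) = (Λ : ℝ) ^ n := rfl


theorem val_qv_le {Λ : ℕ} (hΛ : 1 < Λ) {w : Fin k → ℝ} (hw : ∀ e, 0 ≤ w e) (e : Fin k) :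
    val Λ (qv Λ w e) ≤ w e := by
  unfold qv
  split_ifs with h
  · exact Int.zpow_log_le_self hΛ h
  · simpa using hw e

theorem le_mul_val_qv {Λ : ℕ} (hΛ : 1 < Λ) (w : Fin k → ℝ) (e : Fin k) :
    w e ≤ Λ * val Λ (qv Λ w e) := by
  unfold qv
  have h0 : (0 : ℝ) < (Λ : ℝ) := by exact_mod_cast (by omega : 0 < Λ)
  split_ifs with h
  · have := (Int.lt_zpow_succ_log_self hΛ (w e)).le
    rw [zpow_add_one₀ h0.ne'] at this
    simpa [mul_comm] using this
  · simpa using not_lt.1 h

theorem qv_eq_none_iff {Λ : ℕ} {w : Fin k → ℝ} {e : Fin k} : qv Λ w e = none ↔ w e ≤ 0 := by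
  unfold qv
  split_ifs with h
  · simp [h]
  · simpa using h

theorem measurableSet_qv {Λ : ℕ} (hΛ : 1 < Λ) (P : (Fin k → Option ℤ) → Prop) :
    MeasurableSet {w : Fin k → ℝ | P (qv Λ w)} := by
  have : {w : Fin k → ℝ | P (qv Λ w)} =
      ⋃ q : (Fin k → Option ℤ), {w | qv Λ w = q} ∩ {_w | P q} := by
    ext w; simp
  rw [this]
  refine MeasurableSet.iUnion fun q => MeasurableSet.inter ?_ (MeasurableSet.const _)
  have h2 : {w : Fin k → ℝ | qv Λ w = q} = ⋂ e, {w | qv Λ w e = q e} := by
    ext w
    simp only [Set.mem_ofPred_eq, Set.mem_iInter]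
    exact funext_iff
  rw [h2]
  refine MeasurableSet.iInter fun e => ?_
  have hm : Measurable (fun w : Fin k → ℝ => w e) := measurable_pi_apply e
  have hpos : MeasurableSet {w : Fin k → ℝ | 0 < w e} := measurableSet_lt measurable_const hm
  cases hq : q e with
  | none =>
    have : {w : Fin k → ℝ | qv Λ w e = none} = {w | 0 < w e}ᶜ := by
      ext w
      simp only [Set.mem_ofPred_eq, Set.mem_compl_iff, not_lt]
      exact qv_eq_none_iff
    rw [this]
    exact hpos.compl
  | some n =>
    have : {w : Fin k → ℝ | qv Λ w e = some n} =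
        {w | 0 < w e} ∩ ({w | (Λ : ℝ) ^ n ≤ w e} ∩ {w | w e < (Λ : ℝ) ^ (n + 1)}) := by
      ext w
      simp only [Set.mem_ofPred_eq, Set.mem_inter_iff]
      unfold qv
      by_cases h : 0 < w e
      · simp only [h, if_true, Option.some.injEq, true_and]
        rw [Int.zpow_le_iff_le_log hΛ h, Int.lt_zpow_iff_log_lt hΛ h]
        omega
      · simp [h]
    rw [this]
    exact hpos.inter ((measurableSet_le measurable_const hm).inter
      (measurableSet_lt hm measurable_const))

/-! ### the rule -/

/-- the data of a row rule driven by class vectors -/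
structure ClsRule (k : ℕ) (M : Matroid (Fin k)) where
  Ω : Type
  fin : Fintype Ω
  μ : Ω → ℝ
  μ_nonneg : ∀ r, 0 ≤ μ r
  μ_sum : ∑ r, μ r = 1
  /-- sampled elements: their sample weight is used -/
  T : Ω → Finset (Fin k)
  /-- online elements: their value is used -/
  U : Ω → Finset (Fin k)
  disj : ∀ r, ∀ e ∈ U r, e ∉ T r
  row : Ω → (Fin k → Option ℤ) → Fin k → Option ℕ
  base : Ω → (Fin k → Option ℤ) → ℕ → Finset (Fin k)
  row_loc : ∀ r q q' a, (∀ e, e ∈ T r ∨ e = a → q e = q' e) → row r q a = row r q' a
  base_loc : ∀ r q q' t, (∀ e ∈ T r, q e = q' e) → base r q t = base r q' t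
  chain : ∀ r q, ∀ a ∈ U r, ∀ b ∈ U r, ∀ t t', row r q a = some t → row r q b = some t' →
    t < t' → b ∈ (ofMatroid M).cl (base r q t)

attribute [instance] ClsRule.fin

theorem famCore_of_clsRule {M : Matroid (Fin k)} (O : ClsRule k M) {Λ : ℕ} (hΛ : 1 < Λ)
    {c : ℝ} (hc : 0 ≤ c)
    (hval : ∀ q : Fin k → Option ℤ, ∀ I : Finset (Fin k), M.Indep (I : Set (Fin k)) →
      (∀ e ∈ I, q e ≠ none) → ∃ lb : O.Ω → ℝ,
        (∀ r A, RowBasis (ofMatroid M) (O.U r) (O.row r q) (O.base r q) A →
          lb r ≤ ∑ e ∈ A, val Λ (q e)) ∧
        c * ∑ e ∈ I, val Λ (q e) ≤ ∑ r, O.μ r * lb r) :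
    FamCore k M (ENNReal.ofReal (c / Λ)) := by
  classical
  have hΛ0 : (0 : ℝ) < (Λ : ℝ) := by exact_mod_cast (by omega : 0 < Λ)
  -- the family; an element without a row is never accepted
  set F : O.Ω → (Fin k → ℝ) → Finset (Fin k) → Prop := fun r w X =>
    RowIndep (ofMatroid M) (O.U r) (O.row r (qv Λ w)) (O.base r (qv Λ w)) X with hF
  refine ⟨O.Ω, O.fin, fun r => ENNReal.ofReal (O.μ r), O.T, O.U, F, ?_, O.disj, ?_, ?_, ?_, ?_, ?_⟩
  · rw [← ENNReal.ofReal_sum_of_nonneg (fun r _ => O.μ_nonneg r), O.μ_sum, ENNReal.ofReal_one]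
  · intro r w X h
    refine ⟨h.sub, ?_⟩
    rw [indep_iff_r]
    exact h.r_eq_card (O.chain r (qv Λ w))
  · intro r w
    exact rowIndep_empty _
  · intro r w w' X hw h
    have hq : ∀ e, (e ∈ O.T r ∨ e ∈ X) → qv Λ w e = qv Λ w' e := by
      intro e he
      simp only [qv, hw e he]
    have hrow : ∀ a ∈ X, O.row r (qv Λ w) a = O.row r (qv Λ w') a := by
      intro a ha
      refine O.row_loc r _ _ a ?_
      rintro e (he | rfl)
      · exact hq e (Or.inl he)
      · exact hq e (Or.inr ha)
    have hbase : ∀ t, O.base r (qv Λ w) t = O.base r (qv Λ w') t :=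
      fun t => O.base_loc r _ _ t fun e he => hq e (Or.inl he)
    have hfil : ∀ t, X.filter (fun a => O.row r (qv Λ w) a = some t) =
        X.filter (fun a => O.row r (qv Λ w') a = some t) := by
      intro t
      refine Finset.filter_congr fun a ha => ?_
      rw [hrow a ha]
    refine ⟨h.sub, ?_, ?_⟩
    · intro a ha
      rw [← hrow a ha]
      exact h.row_ne a ha
    · intro t
      rw [← hfil t, ← hbase t]
      exact h.indep t
  · intro r X
    exact measurableSet_qv hΛ (fun q =>
      RowIndep (ofMatroid M) (O.U r) (O.row r q) (O.base r q) X)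
  · intro w hw
    unfold optWeight
    rw [ENNReal.mul_iSup]
    refine iSup_le fun I => ?_
    by_cases hI : I ∈ {I : Finset (Fin k) | M.Indep (I : Set (Fin k))}
    swap
    · simp [hI]
    simp only [hI, iSup_pos]
    have hIind : M.Indep (I : Set (Fin k)) := hI
    -- drop the elements of weight zero
    set I' := I.filter (fun e => qv Λ w e ≠ none) with hI'
    have hI'ind : M.Indep (I' : Set (Fin k)) :=
      hIind.subset (by exact_mod_cast Finset.filter_subset _ _)
    obtain ⟨lb, hlb, hsum⟩ := hval (qv Λ w) I' hI'ind (fun e he => (Finset.mem_filter.1 he).2)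
    have hsumI : ∑ e ∈ I, w e ≤ Λ * ∑ e ∈ I', val Λ (qv Λ w e) := by
      rw [Finset.mul_sum, hI', Finset.sum_filter]
      refine Finset.sum_le_sum fun e _ => ?_
      by_cases he : qv Λ w e = none
      · rw [if_neg (not_not.2 he)]
        exact qv_eq_none_iff.1 he
      · rw [if_pos he]
        exact le_mul_val_qv hΛ w e
    calc ENNReal.ofReal (c / Λ) * ENNReal.ofReal (∑ e ∈ I, w e)
        = ENNReal.ofReal (c / Λ * ∑ e ∈ I, w e) := by
          rw [ENNReal.ofReal_mul (by positivity)]
      _ ≤ ENNReal.ofReal (∑ r, O.μ r * max (lb r) 0) := by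
          refine ENNReal.ofReal_le_ofReal ?_
          calc c / Λ * ∑ e ∈ I, w e ≤ c / Λ * (Λ * ∑ e ∈ I', val Λ (qv Λ w e)) := by
                gcongr
            _ = c * ∑ e ∈ I', val Λ (qv Λ w e) := by
                field_simp
            _ ≤ ∑ r, O.μ r * lb r := hsum
            _ ≤ ∑ r, O.μ r * max (lb r) 0 := by
                refine Finset.sum_le_sum fun r _ => ?_
                exact mul_le_mul_of_nonneg_left (le_max_left _ _) (O.μ_nonneg r)
      _ = ∑ r, ENNReal.ofReal (O.μ r) * ENNReal.ofReal (max (lb r) 0) := by
          rw [ENNReal.ofReal_sum_of_nonneg]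
          · refine Finset.sum_congr rfl fun r _ => ?_
            rw [ENNReal.ofReal_mul (O.μ_nonneg r)]
          · intro r _
            exact mul_nonneg (O.μ_nonneg r) (le_max_right _ _)
      _ ≤ ∑ r, ENNReal.ofReal (O.μ r) * ⨅ A : {A : Finset (Fin k) // IsFinal (O.U r) (F r w) A},
            ENNReal.ofReal (∑ e ∈ A.1, w e) := by
          refine Finset.sum_le_sum fun r _ => mul_le_mul_right ?_ _
          refine le_iInf fun A => ?_
          refine ENNReal.ofReal_le_ofReal ?_
          have hA : RowBasis (ofMatroid M) (O.U r) (O.row r (qv Λ w))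
              (O.base r (qv Λ w)) A.1 := by
            refine rowBasis_of_isFinal _ ⟨A.2.1, fun a ha hn => ?_⟩
            exact A.2.2 a (Finset.mem_filter.1 ha).1 hn
          have h1 := hlb r A.1 hA
          have h2 : ∑ e ∈ A.1, val Λ (qv Λ w e) ≤ ∑ e ∈ A.1, w e :=
            Finset.sum_le_sum fun e _ => val_qv_le hΛ hw e
          refine max_le (h1.trans h2) ?_
          exact Finset.sum_nonneg fun e _ => hw e

theorem concl_of_clsRule {M : Matroid (Fin k)} (O : ClsRule k M) {Λ : ℕ} (hΛ : 1 < Λ)
    {c : ℝ} (hc : 0 ≤ c)
    (hval : ∀ q : Fin k → Option ℤ, ∀ I : Finset (Fin k), M.Indep (I : Set (Fin k)) →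
      (∀ e ∈ I, q e ≠ none) → ∃ lb : O.Ω → ℝ,
        (∀ r A, RowBasis (ofMatroid M) (O.U r) (O.row r q) (O.base r q) A →
          lb r ≤ ∑ e ∈ A, val Λ (q e)) ∧
        c * ∑ e ∈ I, val Λ (q e) ≤ ∑ r, O.μ r * lb r) :
    Concl.{u} k M (ENNReal.ofReal (c / Λ)) :=
  concl_of_secCore M _ ENNReal.ofReal_ne_top
    (secCore_of_famCore M _ (famCore_of_clsRule O hΛ hc hval))

end Crest.Agent.R305.Rows755
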