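import Crest.Agent.R305.TopB_137
import Crest.Agent.R305.Dep_310
import Crest.Agent.R305.Kd_447
import Crest.Agent.R305.TopDef_137
import Crest.Agent.R305.Fcr_310
import Crest.Agent.R305.Rows_755

-- ▼ part R305/TopC_137
section

/-!
# R305 top assembly, P5 (helper137): the per-class expected bound
-/

set_option autoImplicit false

namespace Crest.Agent.R305.TopDef137

open Finset Dep310 Kd447 Fcl310 Fcr310 Top137

variable {α : Type*} [Fintype α] [DecidableEq α] (I : Inst α)

/-- expectation over the raw samples `Z A B` -/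
noncomputable def EZ (x p : ℝ) (F : Finset α → Finset α → Finset α → ℝ) : ℝ :=
  ∑ Z, w (fun _ => x) Z * ∑ A, ∑ B, w (fun _ => p) A * w (fun _ => p) B * F Z A B

theorem EZ_add (x p : ℝ) (F G : Finset α → Finset α → Finset α → ℝ) :
    EZ x p (fun Z A B => F Z A B + G Z A B) = EZ x p F + EZ x p G := by
  unfold EZ
  rw [← Finset.sum_add_distrib]
  refine Finset.sum_congr rfl fun Z _ => ?_
  rw [← mul_add, ← Finset.sum_add_distrib]
  congr 1
  refine Finset.sum_congr rfl fun A _ => ?_
  rw [← Finset.sum_add_distrib]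
  exact Finset.sum_congr rfl fun B _ => by ring

theorem EZ_const_mul (x p c : ℝ) (F : Finset α → Finset α → Finset α → ℝ) :
    EZ x p (fun Z A B => c * F Z A B) = c * EZ x p F := by
  unfold EZ
  rw [Finset.mul_sum]
  refine Finset.sum_congr rfl fun Z _ => ?_
  have h : ∑ A, ∑ B, w (fun _ : α => p) A * w (fun _ => p) B * (c * F Z A B) =
      c * ∑ A, ∑ B, w (fun _ : α => p) A * w (fun _ => p) B * F Z A B := by
    rw [Finset.mul_sum]
    refine Finset.sum_congr rfl fun A _ => ?_
    rw [Finset.mul_sum]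
    exact Finset.sum_congr rfl fun B _ => by ring
  rw [h]
  ring

theorem EZ_neg (x p : ℝ) (F : Finset α → Finset α → Finset α → ℝ) :
    EZ x p (fun Z A B => - F Z A B) = - EZ x p F := by
  have := EZ_const_mul x p (-1) F
  simpa using this

theorem EZ_sub (x p : ℝ) (F G : Finset α → Finset α → Finset α → ℝ) :
    EZ x p (fun Z A B => F Z A B - G Z A B) = EZ x p F - EZ x p G := by
  have := EZ_add x p F (fun Z A B => - G Z A B)
  rw [EZ_neg] at this
  simpa [sub_eq_add_neg] using this

theorem EZ_zero (x p : ℝ) : EZ (α := α) x p (fun _ _ _ => 0) = 0 := by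
  unfold EZ; simp

theorem EZ_sum {ι : Type*} (s : Finset ι) (x p : ℝ)
    (F : ι → Finset α → Finset α → Finset α → ℝ) :
    EZ x p (fun Z A B => ∑ i ∈ s, F i Z A B) = ∑ i ∈ s, EZ x p (F i) := by
  classical
  induction s using Finset.induction_on with
  | empty => simp [EZ_zero]
  | insert a s ha ih =>
    simp only [Finset.sum_insert ha]
    rw [EZ_add, ih]

theorem EZ_const (x p c : ℝ) : EZ (α := α) x p (fun _ _ _ => c) = c := by
  unfold EZ
  have h1 : ∑ A : Finset α, ∑ B : Finset α, w (fun _ => p) A * w (fun _ => p) B * c = c := by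
    have : ∀ A : Finset α, ∑ B : Finset α, w (fun _ => p) A * w (fun _ => p) B * c =
        w (fun _ => p) A * c := by
      intro A
      have : ∀ B : Finset α, w (fun _ => p) A * w (fun _ => p) B * c =
          w (fun _ => p) B * (w (fun _ => p) A * c) := fun B => by ring
      simp only [this]
      rw [← Finset.sum_mul, sum_w, one_mul]
    simp only [this]
    rw [← Finset.sum_mul, sum_w, one_mul]
  simp only [h1]
  rw [← Finset.sum_mul, sum_w, one_mul]

theorem EZ_mono {x p : ℝ} (hx0 : 0 ≤ x) (hx1 : x ≤ 1) (hp0 : 0 ≤ p) (hp1 : p ≤ 1)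
    {F G : Finset α → Finset α → Finset α → ℝ} (h : ∀ Z A B, F Z A B ≤ G Z A B) :
    EZ x p F ≤ EZ x p G := by
  unfold EZ
  refine Finset.sum_le_sum fun Z _ => mul_le_mul_of_nonneg_left ?_
    (w_nonneg (fun _ => hx0) (fun _ => hx1) Z)
  refine Finset.sum_le_sum fun A _ => Finset.sum_le_sum fun B _ => ?_
  exact mul_le_mul_of_nonneg_left (h Z A B)
    (mul_nonneg (w_nonneg (fun _ => hp0) (fun _ => hp1) A)
      (w_nonneg (fun _ => hp0) (fun _ => hp1) B))

theorem card_bad_le (T Z A B : Finset α) (n : ℕ) :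
    (bad I T Z A B n).card ≤ ((cand I T).filter fun e => n < I.cls e).card :=
  card_le_card (filter_subset_filter _ inter_subset_left)

/-- **P5**: the per-class expected bound -/
theorem per_class {k : ℕ} (hk : 2 ≤ k) {x p : ℝ} (hx0 : 0 ≤ x) (hx1 : x ≤ 1) (hp0 : 0 ≤ p)
    (hp1 : p ≤ 1) (T : Finset α) (n : ℕ) (η m : ℝ) (hm : ℕ → Finset α → Finset α → Finset α → ℝ)
    (hhm : ∀ i ∈ range 3, EZ x p (hm i) ≤ p * (η * (En I T n).card + m * p * (On I T n).card)) :
    ((1 - x) * (p * (1 - p) / 2) - 3 * (m * p ^ 2)) * (On I T n).card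
      - 3 * (p * η) * (En I T n).card
      - 3 * (((cand I T).filter fun e => n < I.cls e).card : ℝ) ≤
      EZ x p (fun Z A B => ∑ i ∈ range 3,
        (((good I k T Z A B i n).card : ℝ) - hm i Z A B - ((bad I T Z A B n).card : ℝ))) := by
  have h1 := good_expect I hk hx0 hx1 hp0 hp1 T n
  change _ ≤ EZ x p (fun Z A B => ∑ i ∈ range 3, ((good I k T Z A B i n).card : ℝ)) at h1
  have h2 : EZ x p (fun Z A B => ∑ i ∈ range 3, hm i Z A B) ≤
      3 * (p * (η * (En I T n).card + m * p * (On I T n).card)) := by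
    rw [EZ_sum (range 3) x p hm]
    refine (Finset.sum_le_sum hhm).trans ?_
    rw [Finset.sum_const, card_range, nsmul_eq_mul]
    norm_num
  have h3 : EZ x p (fun Z A B => ∑ _i ∈ range 3, ((bad I T Z A B n).card : ℝ)) ≤
      3 * (((cand I T).filter fun e => n < I.cls e).card : ℝ) := by
    refine (EZ_mono hx0 hx1 hp0 hp1 (G := fun _ _ _ =>
      3 * (((cand I T).filter fun e => n < I.cls e).card : ℝ)) fun Z A B => ?_).trans ?_
    · rw [Finset.sum_const, card_range, nsmul_eq_mul]
      have := card_bad_le I T Z A B n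
      have h4 : ((bad I T Z A B n).card : ℝ) ≤
          (((cand I T).filter fun e => n < I.cls e).card : ℝ) := by exact_mod_cast this
      push_cast
      linarith
    · rw [EZ_const]
  have h4 : (fun Z A B => ∑ i ∈ range 3,
        (((good I k T Z A B i n).card : ℝ) - hm i Z A B - ((bad I T Z A B n).card : ℝ))) =
      fun Z A B => (∑ i ∈ range 3, ((good I k T Z A B i n).card : ℝ) -
        ∑ i ∈ range 3, hm i Z A B) - ∑ _i ∈ range 3, ((bad I T Z A B n).card : ℝ) := by
    funext Z A B
    rw [Finset.sum_sub_distrib, Finset.sum_sub_distrib]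
  rw [h4, EZ_sub, EZ_sub]
  nlinarith [h1, h2, h3]

end Crest.Agent.R305.TopDef137
end

-- ▼ part R305/Coin_404
section

/-!
# R305: coins (noise and size of the classes, expectations only)

`T` is a random set with the product weight `w p` of `Dep_310`; `pos : α → ℕ` is injective
(small = heavy). A condition `C e (below pos T e)` is *predictable*. One-element swap `e ∈ T ↔ e ∉ T`,
counting of the exposed elements of `T` in a prefix, Abel summation, geometric sums over classes.
-/

set_option autoImplicit false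

namespace Crest.Agent.R305.Coin404

open Finset Crest.Agent.R305.Dep310 Crest.Agent.R305.Kd447

/-! ### one-element swap -/

section swap

variable {α : Type*} [Fintype α] [DecidableEq α]

/-- toggle the element `e` -/
def tog (e : α) (T : Finset α) : Finset α := if e ∈ T then T.erase e else insert e T

omit [Fintype α] in
theorem mem_tog {e a : α} {T : Finset α} : a ∈ tog e T ↔ (a = e ∧ e ∉ T) ∨ (a ≠ e ∧ a ∈ T) := by
  unfold tog
  by_cases h : e ∈ T
  · simp only [h, if_true, mem_erase, not_true_eq_false, and_false, false_or]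
  · simp only [h, if_false, mem_insert, not_false_eq_true, and_true]
    by_cases hae : a = e
    · simp [hae]
    · simp [hae]

omit [Fintype α] in
theorem tog_tog (e : α) (T : Finset α) : tog e (tog e T) = T := by
  ext a
  simp only [mem_tog]
  by_cases hae : a = e
  · subst hae; simp
  · simp [hae]

/-- the weight without the factor of `e` -/
noncomputable def w' (p : α → ℝ) (e : α) (T : Finset α) : ℝ :=
  ∏ a ∈ univ.erase e, if a ∈ T then p a else 1 - p a

theorem w_eq (p : α → ℝ) (e : α) (T : Finset α) :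
    w p T = (if e ∈ T then p e else 1 - p e) * w' p e T := by
  unfold w w'
  rw [Finset.mul_prod_erase univ (fun a => if a ∈ T then p a else 1 - p a) (mem_univ e)]

theorem w'_tog (p : α → ℝ) (e : α) (T : Finset α) : w' p e (tog e T) = w' p e T := by
  unfold w'
  refine Finset.prod_congr rfl fun a ha => ?_
  have hae : a ≠ e := (mem_erase.1 ha).1
  simp [mem_tog, hae]

/-- sum over all sets, toggled at `e` -/
theorem sum_tog (e : α) (F : Finset α → ℝ) : ∑ T, F (tog e T) = ∑ T, F T := by
  have hinv : Function.Involutive (tog e) := tog_tog e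
  exact Fintype.sum_equiv hinv.toPerm _ _ fun T => rfl

variable (p : α → ℝ) (e : α) (G : Finset α → ℝ) (hG : ∀ T, G (tog e T) = G T)
include hG

theorem sum_aux : ∑ T, w' p e T * (if e ∈ T then G T else 0) =
    ∑ T, w' p e T * (if e ∈ T then 0 else G T) := by
  rw [← sum_tog e]
  refine Finset.sum_congr rfl fun T _ => ?_
  rw [w'_tog, hG]
  have : (e ∈ tog e T) ↔ e ∉ T := by simp [mem_tog]
  by_cases h : e ∈ T
  · simp [this, h]
  · simp [this, h]

theorem sum_aux2 : ∑ T, w' p e T * (if e ∈ T then G T else 0) = ∑ T, w p T * G T := by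
  have h1 : ∀ T, w p T * G T = p e * (w' p e T * (if e ∈ T then G T else 0)) +
      (1 - p e) * (w' p e T * (if e ∈ T then 0 else G T)) := by
    intro T
    rw [w_eq p e T]
    split_ifs <;> ring
  simp only [h1, Finset.sum_add_distrib, ← Finset.mul_sum]
  rw [← sum_aux p e G hG]
  ring

/-- the coin of `e` is independent of everything which does not depend on `e` -/
theorem sum_mem : ∑ T, w p T * (if e ∈ T then G T else 0) = p e * ∑ T, w p T * G T := by
  rw [← sum_aux2 p e G hG, Finset.mul_sum]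
  refine Finset.sum_congr rfl fun T _ => ?_
  rw [w_eq p e T]
  split_ifs <;> ring

theorem sum_not_mem :
    ∑ T, w p T * (if e ∈ T then 0 else G T) = (1 - p e) * ∑ T, w p T * G T := by
  rw [← sum_aux2 p e G hG, sum_aux p e G hG, Finset.mul_sum]
  refine Finset.sum_congr rfl fun T _ => ?_
  rw [w_eq p e T]
  split_ifs <;> ring

/-- **swap** `e ∉ T ↔ e ∈ T` -/
theorem swap_one : p e * ∑ T, w p T * (if e ∈ T then 0 else G T) =
    (1 - p e) * ∑ T, w p T * (if e ∈ T then G T else 0) := by
  rw [sum_mem p e G hG, sum_not_mem p e G hG]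
  ring

end swap

/-! ### predictable families -/

section pred

variable {α : Type*} [DecidableEq α]

/-- the elements of `T` heavier than `e` -/
def below (pos : α → ℕ) (T : Finset α) (e : α) : Finset α := T.filter fun a => pos a < pos e

omit [DecidableEq α] in
theorem mem_below {pos : α → ℕ} {T : Finset α} {e a : α} :
    a ∈ below pos T e ↔ a ∈ T ∧ pos a < pos e := by
  simp [below]

theorem below_tog (pos : α → ℕ) (e : α) (T : Finset α) :
    below pos (tog e T) e = below pos T e := by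
  ext a
  simp only [mem_below, mem_tog]
  constructor
  · rintro ⟨h | h, hlt⟩
    · exact absurd hlt (by simp [h.1])
    · exact ⟨h.2, hlt⟩
  · rintro ⟨h, hlt⟩
    exact ⟨Or.inr ⟨fun hae => by simp [hae] at hlt, h⟩, hlt⟩

open Classical in
/-- total value of the elements of `U \ T` with the predictable condition `C` -/
noncomputable def outVal (pos : α → ℕ) (C : α → Finset α → Prop) (f : α → ℝ) (U T : Finset α) :
    ℝ :=
  ∑ e ∈ U, if e ∉ T ∧ C e (below pos T e) then f e else 0

open Classical in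
/-- total value of the elements of `U ∩ T` with the predictable condition `C` -/
noncomputable def inVal (pos : α → ℕ) (C : α → Finset α → Prop) (f : α → ℝ) (U T : Finset α) :
    ℝ :=
  ∑ e ∈ U, if e ∈ T ∧ C e (below pos T e) then f e else 0

open Classical in
theorem inVal_eq (pos : α → ℕ) (C : α → Finset α → Prop) (f : α → ℝ) (U T : Finset α) :
    inVal pos C f U T = ∑ e ∈ U.filter (fun e => e ∈ T ∧ C e (below pos T e)), f e := by
  unfold inVal
  rw [Finset.sum_filter]

open Classical in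
theorem outVal_eq (pos : α → ℕ) (C : α → Finset α → Prop) (f : α → ℝ) (U T : Finset α) :
    outVal pos C f U T = ∑ e ∈ U.filter (fun e => e ∉ T ∧ C e (below pos T e)), f e := by
  unfold outVal
  rw [Finset.sum_filter]

variable [Fintype α] (pos : α → ℕ)

/-- **predictable coins** with a constant rate `τ` -/
theorem coin_swap (τ : ℝ) (hτ : τ ≠ 0) (C : α → Finset α → Prop) (f : α → ℝ) (U : Finset α) :
    ∑ T, w (fun _ => τ) T * outVal pos C f U T =
      ((1 - τ) / τ) * ∑ T, w (fun _ => τ) T * inVal pos C f U T := by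
  classical
  unfold outVal inVal
  simp only [Finset.mul_sum]
  rw [Finset.sum_comm, Finset.sum_comm (s := univ (α := Finset α))]
  refine Finset.sum_congr rfl fun e _ => ?_
  have h := swap_one (fun _ : α => τ) e (fun T => if C e (below pos T e) then f e else 0)
    (fun T => by simp only [below_tog])
  have h1 : ∀ T : Finset α, w (fun _ => τ) T * (if e ∉ T ∧ C e (below pos T e) then f e else 0)
      = w (fun _ => τ) T *
        (if e ∈ T then 0 else (if C e (below pos T e) then f e else 0)) := by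
    intro T
    by_cases he : e ∈ T <;> simp [he]
  have h2 : ∀ T : Finset α, (1 - τ) / τ *
      (w (fun _ => τ) T * (if e ∈ T ∧ C e (below pos T e) then f e else 0))
      = ((1 - τ) / τ) * (w (fun _ => τ) T *
        (if e ∈ T then (if C e (below pos T e) then f e else 0) else 0)) := by
    intro T
    by_cases he : e ∈ T <;> simp [he]
  simp only [h1, h2]
  rw [← Finset.mul_sum]
  field_simp
  linarith [h]


open Classical in
/-- predictable coins with element rates, outside `T` -/
theorem coin_out (p : α → ℝ) (C : α → Finset α → Prop) (f : α → ℝ) (U : Finset α) :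
    ∑ T, w p T * outVal pos C f U T = ∑ T, w p T *
      (∑ e ∈ U, if C e (below pos T e) then (1 - p e) * f e else 0) := by
  unfold outVal
  simp only [Finset.mul_sum]
  rw [Finset.sum_comm, Finset.sum_comm (s := univ (α := Finset α))]
  refine Finset.sum_congr rfl fun e _ => ?_
  have h := sum_not_mem p e (fun T => if C e (below pos T e) then f e else 0)
    (fun T => by simp only [below_tog])
  have h1 : ∀ T : Finset α, w p T * (if e ∉ T ∧ C e (below pos T e) then f e else 0)
      = w p T *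
        (if e ∈ T then 0 else (if C e (below pos T e) then f e else 0)) := by
    intro T
    by_cases he : e ∈ T <;> simp [he]
  simp only [h1]
  rw [h, Finset.mul_sum]
  refine Finset.sum_congr rfl fun T _ => ?_
  split_ifs <;> ring

end pred

/-! ### Abel summation -/

section abel

variable {α : Type*} [DecidableEq α] {pos : α → ℕ} (hpos : Function.Injective pos)
include hpos

theorem abel_aux (v : α → ℝ) (hv : ∀ x y, pos x < pos y → v y ≤ v x) (A B s : Finset α)
    (h : ∀ P ⊆ s, (∀ x ∈ P, ∀ y ∈ s, pos y < pos x → y ∈ P) → (A ∩ P).card ≤ (B ∩ P).card)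
    (c : ℝ) (hc : ∀ x ∈ s, c ≤ v x) :
    c * ((B ∩ s).card - (A ∩ s).card : ℝ) ≤ ∑ x ∈ B ∩ s, v x - ∑ x ∈ A ∩ s, v x := by
  induction s using Finset.induction_on_max_value (f := pos) generalizing c with
  | empty => simp
  | insert a s has ha' ih =>
    have ha : ∀ x ∈ s, pos x < pos a := fun x hx =>
      lt_of_le_of_ne (ha' x hx) fun h => has (hpos h ▸ hx)
    have h' : ∀ P ⊆ s, (∀ x ∈ P, ∀ y ∈ s, pos y < pos x → y ∈ P) →
        (A ∩ P).card ≤ (B ∩ P).card := by
      intro P hPs hP
      refine h P (hPs.trans (Finset.subset_insert _ _)) ?_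
      intro x hx y hy hyx
      rcases Finset.mem_insert.1 hy with rfl | hy
      · exact absurd hyx (not_lt.2 (ha x (hPs hx)).le)
      · exact hP x hx y hy hyx
    have ih1 := ih h' (v a) fun x hx => hv x a (ha x hx)
    have hcard : (A ∩ insert a s).card ≤ (B ∩ insert a s).card :=
      h _ subset_rfl fun x _ y hy _ => hy
    have hcard' : (0 : ℝ) ≤ ((B ∩ insert a s).card - (A ∩ insert a s).card : ℝ) := by
      have : ((A ∩ insert a s).card : ℝ) ≤ ((B ∩ insert a s).card : ℝ) := by exact_mod_cast hcard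
      linarith
    have key : ∀ D : Finset α, ∑ x ∈ D ∩ insert a s, v x =
        ∑ x ∈ D ∩ s, v x + (if a ∈ D then v a else 0) ∧
        ((D ∩ insert a s).card : ℝ) = ((D ∩ s).card : ℝ) + (if a ∈ D then 1 else 0) := by
      intro D
      have hn : a ∉ D ∩ s := fun h => has (mem_inter.1 h).2
      by_cases haD : a ∈ D
      · rw [Finset.inter_insert_of_mem haD, Finset.sum_insert hn, Finset.card_insert_of_notMem hn]
        simp only [haD, if_true]
        push_cast
        exact ⟨by ring, by ring⟩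
      · rw [Finset.inter_insert_of_notMem haD]
        simp [haD]
    rw [(key A).1, (key B).1]
    have hstep : v a * ((B ∩ insert a s).card - (A ∩ insert a s).card : ℝ) ≤
        (∑ x ∈ B ∩ s, v x + (if a ∈ B then v a else 0)) -
          (∑ x ∈ A ∩ s, v x + (if a ∈ A then v a else 0)) := by
      rw [(key A).2, (key B).2]
      split_ifs <;> linarith
    have hca : c ≤ v a := hc a (mem_insert_self _ _)
    nlinarith [mul_le_mul_of_nonneg_right hca hcard']

/-- **Abel summation**: if every prefix contains at most as many elements of `A` as of `B`, then the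
value of `A` is at most the value of `B` -/
theorem abel [Fintype α] (v : α → ℝ) (hv0 : ∀ x, 0 ≤ v x)
    (hv : ∀ x y, pos x < pos y → v y ≤ v x) (A B : Finset α)
    (h : ∀ P : Finset α, (∀ x ∈ P, ∀ y, pos y < pos x → y ∈ P) → (A ∩ P).card ≤ (B ∩ P).card) :
    ∑ x ∈ A, v x ≤ ∑ x ∈ B, v x := by
  have := abel_aux hpos v hv A B univ
    (fun P _ hP => h P fun x hx y hy => hP x hx y (mem_univ y) hy) 0 fun x _ => hv0 x
  simp only [zero_mul, inter_univ] at this
  linarith

end abel

/-! ### the greedy basis -/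

section greedy

variable {α : Type*} [DecidableEq α] [Fintype α] (R : RankFn α) (pos : α → ℕ)

/-- the greedy basis of `S` -/
def grd (S : Finset α) : Finset α := S.filter fun e => e ∉ R.cl (below pos S e)


variable {R pos}

theorem mem_grd {S : Finset α} {e : α} : e ∈ grd R pos S ↔ e ∈ S ∧ e ∉ R.cl (below pos S e) := by
  simp [grd]


theorem grd_subset (S : Finset α) : grd R pos S ⊆ S := Finset.filter_subset _ _

variable (hpos : Function.Injective pos)
include hpos

/-- the size of the greedy basis is the rank -/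
theorem card_grd (S : Finset α) : (grd R pos S).card = R.r S := by
  unfold grd
  induction S using Finset.induction_on_max_value (f := pos) with
  | empty => simp [R.r_empty]
  | insert a s has ha' ih =>
    have ha : ∀ x ∈ s, pos x < pos a := fun x hx =>
      lt_of_le_of_ne (ha' x hx) fun h => has (hpos h ▸ hx)
    have h1 : below pos (insert a s) a = s := by
      ext x
      simp only [mem_below, mem_insert]
      constructor
      · rintro ⟨h | h, hlt⟩
        · exact absurd hlt (by simp [h])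
        · exact h
      · intro h
        exact ⟨Or.inr h, ha x h⟩
    have h2 : ∀ e ∈ s, below pos (insert a s) e = below pos s e := by
      intro e he
      ext x
      simp only [mem_below, mem_insert]
      constructor
      · rintro ⟨h | h, hlt⟩
        · exact absurd (h ▸ hlt) (not_lt.2 (ha e he).le)
        · exact ⟨h, hlt⟩
      · rintro ⟨h, hlt⟩
        exact ⟨Or.inr h, hlt⟩
    have h3 : (s.filter fun e => e ∉ R.cl (below pos (insert a s) e)) =
        s.filter fun e => e ∉ R.cl (below pos s e) := by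
      refine Finset.filter_congr fun e he => ?_
      rw [h2 e he]
    rw [Finset.filter_insert, h1, h3]
    by_cases hC : a ∈ R.cl s
    · rw [if_neg (not_not.2 hC), R.mem_cl.1 hC, ih]
    · rw [if_pos hC, R.notMem_cl.1 hC, Finset.card_insert_of_notMem, ih]
      intro h
      exact has (mem_filter.1 h).1

/-- the greedy basis is independent -/
theorem r_grd (S : Finset α) : R.r (grd R pos S) = (grd R pos S).card := by
  refine le_antisymm (R.r_le_card _) ?_
  rw [card_grd hpos S]
  unfold grd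
  induction S using Finset.induction_on_max_value (f := pos) with
  | empty => simp [R.r_empty]
  | insert a s has ha' ih =>
    have ha : ∀ x ∈ s, pos x < pos a := fun x hx =>
      lt_of_le_of_ne (ha' x hx) fun h => has (hpos h ▸ hx)
    have h1 : below pos (insert a s) a = s := by
      ext x
      simp only [mem_below, mem_insert]
      constructor
      · rintro ⟨h | h, hlt⟩
        · exact absurd hlt (by simp [h])
        · exact h
      · intro h
        exact ⟨Or.inr h, ha x h⟩
    have h2 : ∀ e ∈ s, below pos (insert a s) e = below pos s e := by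
      intro e he
      ext x
      simp only [mem_below, mem_insert]
      constructor
      · rintro ⟨h | h, hlt⟩
        · exact absurd (h ▸ hlt) (not_lt.2 (ha e he).le)
        · exact ⟨h, hlt⟩
      · rintro ⟨h, hlt⟩
        exact ⟨Or.inr h, hlt⟩
    have h3 : (s.filter fun e => e ∉ R.cl (below pos (insert a s) e)) =
        s.filter fun e => e ∉ R.cl (below pos s e) := by
      refine Finset.filter_congr fun e he => ?_
      rw [h2 e he]
    rw [Finset.filter_insert, h1, h3]
    set G := s.filter fun e => e ∉ R.cl (below pos s e) with hG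
    have hGs : G ⊆ s := Finset.filter_subset _ _
    by_cases hC : a ∈ R.cl s
    · rw [if_neg (not_not.2 hC), R.mem_cl.1 hC]
      exact ih
    · rw [if_pos hC, R.notMem_cl.1 hC]
      have hCG : a ∉ R.cl G := fun h => hC (R.cl_mono hGs h)
      rw [R.notMem_cl.1 hCG]
      omega


omit hpos in
/-- the greedy basis in a prefix -/
theorem grd_inter (S P : Finset α) (hP : ∀ x ∈ P, ∀ y ∈ S, pos y < pos x → y ∈ P) :
    grd R pos S ∩ P = grd R pos (S ∩ P) := by
  have key : ∀ e ∈ P, below pos (S ∩ P) e = below pos S e := by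
    intro e he
    ext x
    simp only [mem_below, mem_inter]
    constructor
    · rintro ⟨⟨h, -⟩, h2⟩; exact ⟨h, h2⟩
    · rintro ⟨h, h2⟩; exact ⟨⟨h, hP e he x h h2⟩, h2⟩
  ext e
  simp only [mem_inter, mem_grd]
  constructor
  · rintro ⟨⟨h1, h2⟩, h3⟩
    rw [key e h3]
    exact ⟨⟨h1, h3⟩, h2⟩
  · rintro ⟨⟨h1, h3⟩, h2⟩
    rw [key e h3] at h2
    exact ⟨⟨h1, h2⟩, h3⟩

/-- **(L3b)** the number of greedy elements in a prefix is the rank of the prefix -/
theorem card_grd_inter (S P : Finset α) (hP : ∀ x ∈ P, ∀ y ∈ S, pos y < pos x → y ∈ P) :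
    (grd R pos S ∩ P).card = R.r (S ∩ P) := by
  rw [grd_inter S P hP, card_grd hpos]


/-- **the greedy basis of `T` is worth at most the greedy basis of the ground set** -/
theorem grd_le_opt (v : α → ℝ) (hv0 : ∀ x, 0 ≤ v x) (hv : ∀ x y, pos x < pos y → v y ≤ v x)
    (T : Finset α) : ∑ e ∈ grd R pos T, v e ≤ ∑ e ∈ grd R pos univ, v e := by
  refine abel hpos v hv0 hv _ _ fun P hP => ?_
  rw [card_grd_inter hpos T P fun x hx y _ => hP x hx y,
    card_grd_inter hpos univ P fun x hx y _ => hP x hx y]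
  exact R.mono (inter_subset_inter_right (subset_univ _))

/-- **greedy optimality** -/
theorem indep_le_opt (v : α → ℝ) (hv0 : ∀ x, 0 ≤ v x) (hv : ∀ x y, pos x < pos y → v y ≤ v x)
    (I : Finset α) (hI : R.r I = I.card) : ∑ e ∈ I, v e ≤ ∑ e ∈ grd R pos univ, v e := by
  refine abel hpos v hv0 hv _ _ fun P hP => ?_
  rw [card_grd_inter hpos univ P fun x hx y _ => hP x hx y]
  have h1 := R.r_union_le_card (I ∩ P) (I \ P)
  have h2 : I ∩ P ∪ I \ P = I := by
    ext x; simp only [mem_union, mem_inter, mem_sdiff]; tauto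
  have h3 := Finset.card_inter_add_card_sdiff I P
  rw [h2, hI] at h1
  have h4 : R.r (I ∩ P) ≤ R.r (univ ∩ P) := R.mono (inter_subset_inter_right (subset_univ _))
  omega

end greedy

/-! ### expectations -/

section value

variable {α : Type*} [Fintype α] [DecidableEq α] {R : RankFn α} {pos : α → ℕ}




variable (hpos : Function.Injective pos)
include hpos



omit hpos in
/-- **(L3d)** the expected value of a fixed set outside the sample -/
theorem sum_sdiff (τ : ℝ) (v : α → ℝ) (O : Finset α) :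
    ∑ T, w (fun _ => τ) T * ∑ e ∈ O \ T, v e = (1 - τ) * ∑ e ∈ O, v e := by
  classical
  have h := coin_out (fun _ => 0) (fun _ : α => τ) (fun _ _ => True) v O
  have h1 : ∀ T : Finset α, ∑ e ∈ O \ T, v e = outVal (fun _ => 0) (fun _ _ => True) v O T := by
    intro T
    rw [outVal_eq]
    refine Finset.sum_congr ?_ fun _ _ => rfl
    ext e
    simp
  simp only [h1, h, if_true]
  rw [← Finset.sum_mul, sum_w, one_mul, Finset.mul_sum]


end value

end Crest.Agent.R305.Coin404
end

-- ▼ part R305/Coin2_404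
section

/-!
# R305: the lemmas of `Coin_404` in the names of `TopDef_137` (valid set `Vd`)
-/

set_option autoImplicit false

namespace Crest.Agent.R305.Coin2404

open Finset Dep310 Kd447 Coin404 TopDef137

variable {α : Type*} [Fintype α] [DecidableEq α]

omit [Fintype α] [DecidableEq α] in
theorem below_eq (pos : α → ℕ) (S : Finset α) (e : α) :
    TopDef137.below pos S e = Coin404.below pos S e := rfl

theorem grd_eq (M : RankFn α) (pos : α → ℕ) (S : Finset α) :
    TopDef137.grd M pos S = Coin404.grd M pos S := rfl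

/-! ### Abel summation on a subset -/

theorem abel_on {pos : α → ℕ} (hpos : Function.Injective pos) (V : Finset α) (v : α → ℝ)
    (hv0 : ∀ x ∈ V, 0 ≤ v x) (hv : ∀ x ∈ V, ∀ y ∈ V, pos x < pos y → v y ≤ v x)
    (A B : Finset α) (hA : A ⊆ V) (hB : B ⊆ V)
    (h : ∀ P : Finset α, (∀ x ∈ P, ∀ y, pos y < pos x → y ∈ P) → (A ∩ P).card ≤ (B ∩ P).card) :
    ∑ x ∈ A, v x ≤ ∑ x ∈ B, v x := by
  classical
  -- `v` extended by the least value of the earlier elements of `V`
  have hne : ∀ x : α, (insert (∑ y ∈ V, v y) ((V.filter fun y => pos y ≤ pos x).image v)).Nonempty :=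
    fun x => ⟨_, mem_insert_self _ _⟩
  let u : α → ℝ := fun x =>
    (insert (∑ y ∈ V, v y) ((V.filter fun y => pos y ≤ pos x).image v)).min' (hne x)
  have hle : ∀ y ∈ V, v y ≤ ∑ y ∈ V, v y := fun y hy =>
    Finset.single_le_sum hv0 hy
  have hu : ∀ x ∈ V, u x = v x := by
    intro x hx
    refine le_antisymm (Finset.min'_le _ _ ?_) ((Finset.le_min'_iff _ _).2 ?_)
    · exact mem_insert_of_mem (mem_image_of_mem _ (mem_filter.2 ⟨hx, le_rfl⟩))
    · intro z hz
      rcases mem_insert.1 hz with rfl | hz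
      · exact hle x hx
      · obtain ⟨y, hy, rfl⟩ := mem_image.1 hz
        rw [mem_filter] at hy
        rcases hy.2.lt_or_eq with hlt | heq
        · exact hv y hy.1 x hx hlt
        · rw [hpos heq]
  have hu0 : ∀ x, 0 ≤ u x := by
    intro x
    refine (Finset.le_min'_iff _ _).2 ?_
    intro z hz
    rcases mem_insert.1 hz with rfl | hz
    · exact Finset.sum_nonneg hv0
    · obtain ⟨y, hy, rfl⟩ := mem_image.1 hz
      exact hv0 y (mem_filter.1 hy).1
  have huv : ∀ x y, pos x < pos y → u y ≤ u x := by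
    intro x y hxy
    refine Finset.min'_subset _ ?_
    refine Finset.insert_subset_insert _ (Finset.image_subset_image ?_)
    intro z hz
    rw [mem_filter] at hz ⊢
    exact ⟨hz.1, hz.2.trans hxy.le⟩
  have := Coin404.abel hpos u hu0 huv A B h
  rwa [Finset.sum_congr rfl fun x hx => hu x (hA hx),
    Finset.sum_congr rfl fun x hx => hu x (hB hx)] at this

/-! ### the instance -/

variable (I : Inst α)

theorem opt_subset : opt I ⊆ I.Vd := Coin404.grd_subset _

theorem cand_subset (T : Finset α) : cand I T ⊆ I.Vd := Finset.filter_subset _ _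

theorem mem_cand {T : Finset α} {e : α} :
    e ∈ cand I T ↔ e ∈ I.Vd ∧ e ∉ T ∧
      e ∉ I.M.cl (TopDef137.below I.pos (T ∩ I.Vd) e) := by
  simp [cand]



/-- greedy optimality: independent valid sets -/
theorem indep_le_opt (v : α → ℝ) (hv0 : ∀ x ∈ I.Vd, 0 ≤ v x)
    (hv : ∀ x ∈ I.Vd, ∀ y ∈ I.Vd, I.pos x < I.pos y → v y ≤ v x)
    (J : Finset α) (hJV : J ⊆ I.Vd) (hJ : I.M.r J = J.card) :
    ∑ e ∈ J, v e ≤ ∑ e ∈ opt I, v e := by
  refine abel_on I.inj I.Vd v hv0 hv _ _ hJV (opt_subset I) fun P hP => ?_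
  have h0 : (opt I ∩ P).card = I.M.r (I.Vd ∩ P) :=
    Coin404.card_grd_inter I.inj I.Vd P fun x hx y _ => hP x hx y
  rw [h0]
  have h1 := I.M.r_union_le_card (J ∩ P) (J \ P)
  have h2 : J ∩ P ∪ J \ P = J := by
    ext x; simp only [mem_union, mem_inter, mem_sdiff]; tauto
  have h3 := Finset.card_inter_add_card_sdiff J P
  rw [h2, hJ] at h1
  have h4 : I.M.r (J ∩ P) ≤ I.M.r (I.Vd ∩ P) := I.M.mono (inter_subset_inter_right hJV)
  omega

/-- the greedy basis of the valid sample is worth at most the optimum -/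
theorem grd_le_opt (v : α → ℝ) (hv0 : ∀ x ∈ I.Vd, 0 ≤ v x)
    (hv : ∀ x ∈ I.Vd, ∀ y ∈ I.Vd, I.pos x < I.pos y → v y ≤ v x) (T : Finset α) :
    ∑ e ∈ TopDef137.grd I.M I.pos (T ∩ I.Vd), v e ≤ ∑ e ∈ opt I, v e := by
  refine indep_le_opt I v hv0 hv _ ?_ (Coin404.r_grd I.inj _)
  exact (Coin404.grd_subset _).trans inter_subset_right

/-- the predictable condition of the candidates -/
def Cv (e : α) (X : Finset α) : Prop := e ∉ I.M.cl (X ∩ I.Vd)

omit [Fintype α] in
theorem below_inter (pos : α → ℕ) (T V : Finset α) (e : α) :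
    Coin404.below pos (T ∩ V) e = Coin404.below pos T e ∩ V := by
  ext x
  simp only [Coin404.mem_below, mem_inter]
  tauto

theorem sum_cand (f : α → ℝ) (U T : Finset α) :
    ∑ e ∈ cand I T ∩ U, f e = Coin404.outVal I.pos (Cv I) f (U ∩ I.Vd) T := by
  classical
  rw [Coin404.outVal_eq]
  refine Finset.sum_congr ?_ fun _ _ => rfl
  ext e
  rw [mem_filter, mem_inter, mem_inter, mem_cand, below_eq, below_inter]
  unfold Cv
  tauto

theorem sum_grd (f : α → ℝ) (U T : Finset α) :
    ∑ e ∈ TopDef137.grd I.M I.pos (T ∩ I.Vd) ∩ U, f e =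
      Coin404.inVal I.pos (Cv I) f (U ∩ I.Vd) T := by
  classical
  rw [Coin404.inVal_eq]
  refine Finset.sum_congr ?_ fun _ _ => rfl
  ext e
  rw [mem_filter, mem_inter, mem_inter, grd_eq, Coin404.mem_grd, below_inter, mem_inter]
  unfold Cv
  tauto

/-- **(L3a)**: candidates against the greedy basis of the sample -/
theorem cand_swap (τ : ℝ) (hτ : τ ≠ 0) (f : α → ℝ) (U : Finset α) :
    ∑ T, w (fun _ => τ) T * ∑ e ∈ cand I T ∩ U, f e = ((1 - τ) / τ) *
      ∑ T, w (fun _ => τ) T * ∑ e ∈ TopDef137.grd I.M I.pos (T ∩ I.Vd) ∩ U, f e := by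
  simp only [sum_cand, sum_grd]
  exact Coin404.coin_swap I.pos τ hτ _ f _

/-- **(L3c)**: the expected value of the candidates -/
theorem cand_le_opt (τ : ℝ) (hτ0 : 0 < τ) (hτ1 : τ ≤ 1) (v : α → ℝ) (hv0 : ∀ x ∈ I.Vd, 0 ≤ v x)
    (hv : ∀ x ∈ I.Vd, ∀ y ∈ I.Vd, I.pos x < I.pos y → v y ≤ v x) :
    ∑ T, w (fun _ => τ) T * ∑ e ∈ cand I T, v e ≤ ((1 - τ) / τ) * ∑ e ∈ opt I, v e := by
  have h := cand_swap I τ hτ0.ne' v univ
  simp only [inter_univ] at h
  rw [h]
  refine mul_le_mul_of_nonneg_left ?_ (div_nonneg (by linarith) hτ0.le)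
  calc ∑ T, w (fun _ => τ) T * ∑ e ∈ TopDef137.grd I.M I.pos (T ∩ I.Vd), v e
      ≤ ∑ T, w (fun _ => τ) T * ∑ e ∈ opt I, v e := by
        refine Finset.sum_le_sum fun T _ =>
          mul_le_mul_of_nonneg_left (grd_le_opt I v hv0 hv T) ?_
        exact w_nonneg (fun _ => hτ0.le) (fun _ => hτ1) T
    _ = ∑ e ∈ opt I, v e := by rw [← Finset.sum_mul, sum_w, one_mul]

/-- **(L3d)**: the expected value of the optimal elements off the sample -/
theorem opt_sdiff (τ : ℝ) (v : α → ℝ) :
    ∑ T, w (fun _ => τ) T * ∑ e ∈ opt I \ T, v e = (1 - τ) * ∑ e ∈ opt I, v e :=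
  Coin404.sum_sdiff τ v (opt I)

omit [Fintype α] [DecidableEq α] in
/-- sum over the classes -/
theorem sum_class (cls : α → ℕ) (u : ℕ → ℝ) (N : Finset ℕ) (S : Finset α)
    (hN : ∀ e ∈ S, cls e ∈ N) :
    ∑ n ∈ N, u n * ((S.filter fun e => cls e = n).card : ℝ) = ∑ e ∈ S, u (cls e) := by
  rw [← Finset.sum_fiberwise_of_maps_to hN]
  refine Finset.sum_congr rfl fun n _ => ?_
  rw [Finset.sum_congr rfl (g := fun _ => u n) fun e he => by rw [(mem_filter.1 he).2]]
  rw [Finset.sum_const, nsmul_eq_mul, mul_comm]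

/-- **(c)**: class sum of the optimal elements off the sample -/
theorem On_sum (τ : ℝ) (u : ℕ → ℝ) (N : Finset ℕ) (hN : ∀ e ∈ I.Vd, I.cls e ∈ N) :
    ∑ T, w (fun _ => τ) T * ∑ n ∈ N, u n * ((On I T n).card : ℝ) =
      (1 - τ) * ∑ e ∈ opt I, u (I.cls e) := by
  rw [← opt_sdiff I τ fun e => u (I.cls e)]
  refine Finset.sum_congr rfl fun T _ => ?_
  congr 1
  exact sum_class I.cls u N _ fun e he => hN e (opt_subset I (mem_sdiff.1 he).1)

theorem En_sum (u : ℕ → ℝ) (N : Finset ℕ) (hN : ∀ e ∈ I.Vd, I.cls e ∈ N) (T : Finset α) :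
    ∑ n ∈ N, u n * ((En I T n).card : ℝ) = ∑ e ∈ cand I T, u (I.cls e) :=
  sum_class I.cls u N _ fun e he => hN e (cand_subset I T he)

/-- geometric sum -/
theorem geom_lt (Λ : ℝ) (hΛ : 1 < Λ) (N : ℕ) (m : ℕ) :
    ∑ n ∈ (range N).filter (· < m), Λ ^ n ≤ Λ ^ m / (Λ - 1) := by
  have h0 : (0 : ℝ) < Λ := by linarith
  calc ∑ n ∈ (range N).filter (· < m), Λ ^ n ≤ ∑ n ∈ range m, Λ ^ n := by
        refine Finset.sum_le_sum_of_subset_of_nonneg ?_ fun n _ _ => (pow_pos h0 n).le
        intro n hn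
        simp only [mem_filter, mem_range] at hn ⊢
        exact hn.2
    _ = (Λ ^ m - 1) / (Λ - 1) := geom_sum_eq hΛ.ne' m
    _ ≤ Λ ^ m / (Λ - 1) := by
        refine div_le_div_of_nonneg_right ?_ (by linarith)
        linarith

omit [Fintype α] [DecidableEq α] in
/-- the heavier classes of a set, with geometric weights -/
theorem heavier_sum (Λ : ℝ) (hΛ : 1 < Λ) (N : ℕ) (cls : α → ℕ) (S : Finset α) :
    ∑ n ∈ range N, Λ ^ n * ((S.filter fun e => n < cls e).card : ℝ) ≤
      (∑ e ∈ S, Λ ^ cls e) / (Λ - 1) := by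
  have h1 : ∀ n : ℕ, Λ ^ n * ((S.filter fun e => n < cls e).card : ℝ) =
      ∑ e ∈ S, if n < cls e then Λ ^ n else 0 := by
    intro n
    rw [Finset.card_filter]
    push_cast
    rw [Finset.mul_sum]
    refine Finset.sum_congr rfl fun e _ => ?_
    split_ifs <;> simp
  simp only [h1]
  rw [Finset.sum_comm, Finset.sum_div]
  refine Finset.sum_le_sum fun e _ => ?_
  rw [← Finset.sum_filter]
  exact geom_lt Λ hΛ N (cls e)

end Crest.Agent.R305.Coin2404
end

-- ▼ part R305/TopD_137
section

/-!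
# R305 top assembly (helper137): total over the classes for a fixed class vector
-/

set_option autoImplicit false

namespace Crest.Agent.R305.TopDef137

open Finset Dep310 Kd447 Fcl310 Fcr310 Top137 Coin2404

variable {α : Type*} [Fintype α] [DecidableEq α] (I : Inst α)

/-- the lower bound of the value of one outcome -/
noncomputable def lbv (Λ : ℝ) (N k : ℕ) (T Z A B : Finset α) (i : ℕ) : ℝ :=
  ∑ n ∈ range N, Λ ^ n * (((good I k T Z A B i n).card : ℝ) - ((harmed I k T Z A B i n).card : ℝ)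
    - ((bad I T Z A B n).card : ℝ))

/-- **TOTAL** for a fixed class vector -/
theorem total {N : ℕ} (hN : ∀ e ∈ I.Vd, I.cls e < N) {k : ℕ} (hk : 2 ≤ k) {x p τ Λ η m : ℝ}
    (hx0 : 0 ≤ x) (hx1 : x ≤ 1) (hp0 : 0 ≤ p) (hp1 : p ≤ 1) (hτ0 : 0 < τ) (hτ1 : τ ≤ 1)
    (hΛ : 1 < Λ) (hη : 0 ≤ η)
    (hP2 : ∀ T n, ∀ i ∈ range 3, EZ x p (fun Z A B => ((harmed I k T Z A B i n).card : ℝ)) ≤
      p * (η * (En I T n).card + m * p * (On I T n).card)) :
    ((1 - τ) * ((1 - x) * (p * (1 - p) / 2) - 3 * (m * p ^ 2)) -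
        (3 * (p * η) + 3 / (Λ - 1)) * ((1 - τ) / τ)) * ∑ e ∈ opt I, Λ ^ I.cls e ≤
      ∑ T, w (fun _ => τ) T * EZ x p (fun Z A B => ∑ i ∈ range 3, lbv I Λ N k T Z A B i) := by
  have hΛ0 : (0 : ℝ) < Λ := by linarith
  have hN' : ∀ e ∈ I.Vd, I.cls e ∈ range N := fun e he => mem_range.2 (hN e he)
  have hvd0 : ∀ e ∈ I.Vd, (0 : ℝ) ≤ Λ ^ I.cls e := fun e _ => (pow_pos hΛ0 _).le
  have hva : ∀ a ∈ I.Vd, ∀ b ∈ I.Vd, I.pos a < I.pos b → Λ ^ I.cls b ≤ Λ ^ I.cls a :=
    fun a ha b hb hab => pow_le_pow_right₀ hΛ.le (I.anti a ha b hb hab)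
  set c1 : ℝ := (1 - x) * (p * (1 - p) / 2) - 3 * (m * p ^ 2) with hc1
  -- per sample `T`
  have step : ∀ T : Finset α,
      c1 * (∑ n ∈ range N, Λ ^ n * ((On I T n).card : ℝ)) -
        (3 * (p * η) + 3 / (Λ - 1)) * ∑ e ∈ cand I T, Λ ^ I.cls e ≤
      EZ x p (fun Z A B => ∑ i ∈ range 3, lbv I Λ N k T Z A B i) := by
    intro T
    have h1 : (fun Z A B => ∑ i ∈ range 3, lbv I Λ N k T Z A B i) =
        fun Z A B => ∑ n ∈ range N, Λ ^ n * ∑ i ∈ range 3,
          (((good I k T Z A B i n).card : ℝ) - ((harmed I k T Z A B i n).card : ℝ)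
            - ((bad I T Z A B n).card : ℝ)) := by
      funext Z A B
      unfold lbv
      rw [Finset.sum_comm]
      exact Finset.sum_congr rfl fun n _ => by rw [Finset.mul_sum]
    rw [h1, EZ_sum (range N) x p (fun n Z A B => Λ ^ n * ∑ i ∈ range 3,
          (((good I k T Z A B i n).card : ℝ) - ((harmed I k T Z A B i n).card : ℝ)
            - ((bad I T Z A B n).card : ℝ)))]
    have h2 : ∀ n ∈ range N, Λ ^ n * (c1 * (On I T n).card - 3 * (p * η) * (En I T n).card
        - 3 * (((cand I T).filter fun e => n < I.cls e).card : ℝ)) ≤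
        EZ x p (fun Z A B => Λ ^ n * ∑ i ∈ range 3,
          (((good I k T Z A B i n).card : ℝ) - ((harmed I k T Z A B i n).card : ℝ)
            - ((bad I T Z A B n).card : ℝ))) := by
      intro n _
      rw [EZ_const_mul]
      refine mul_le_mul_of_nonneg_left ?_ (pow_pos hΛ0 _).le
      exact per_class I hk hx0 hx1 hp0 hp1 T n η m
        (fun i Z A B => ((harmed I k T Z A B i n).card : ℝ)) (hP2 T n)
    refine le_trans ?_ (Finset.sum_le_sum h2)
    have h3 : ∑ n ∈ range N, Λ ^ n * (c1 * (On I T n).card - 3 * (p * η) * (En I T n).card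
        - 3 * (((cand I T).filter fun e => n < I.cls e).card : ℝ)) =
        c1 * (∑ n ∈ range N, Λ ^ n * ((On I T n).card : ℝ)) -
          3 * (p * η) * (∑ n ∈ range N, Λ ^ n * ((En I T n).card : ℝ)) -
          3 * ∑ n ∈ range N, Λ ^ n * (((cand I T).filter fun e => n < I.cls e).card : ℝ) := by
      rw [Finset.mul_sum, Finset.mul_sum, Finset.mul_sum, ← Finset.sum_sub_distrib,
        ← Finset.sum_sub_distrib]
      exact Finset.sum_congr rfl fun n _ => by ring
    rw [h3, En_sum I (fun n => Λ ^ n) (range N) hN' T]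
    have h4 := heavier_sum Λ hΛ N I.cls (cand I T)
    have h5 : (∑ e ∈ cand I T, Λ ^ I.cls e) / (Λ - 1) =
        1 / (Λ - 1) * ∑ e ∈ cand I T, Λ ^ I.cls e := by ring
    rw [h5] at h4
    have h6 : 3 / (Λ - 1) = 3 * (1 / (Λ - 1)) := by ring
    rw [h6]
    linarith
  have h7 := Finset.sum_le_sum fun T (_ : T ∈ (univ : Finset (Finset α))) =>
    mul_le_mul_of_nonneg_left (step T)
      (w_nonneg (fun _ => hτ0.le) (fun _ => hτ1) T : 0 ≤ w (fun _ : α => τ) T)
  refine le_trans ?_ h7
  have h8 : ∑ T, w (fun _ : α => τ) T *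
      (c1 * (∑ n ∈ range N, Λ ^ n * ((On I T n).card : ℝ)) -
        (3 * (p * η) + 3 / (Λ - 1)) * ∑ e ∈ cand I T, Λ ^ I.cls e) =
      c1 * (∑ T, w (fun _ : α => τ) T * ∑ n ∈ range N, Λ ^ n * ((On I T n).card : ℝ)) -
        (3 * (p * η) + 3 / (Λ - 1)) *
          ∑ T, w (fun _ : α => τ) T * ∑ e ∈ cand I T, Λ ^ I.cls e := by
    rw [Finset.mul_sum, Finset.mul_sum, ← Finset.sum_sub_distrib]
    exact Finset.sum_congr rfl fun T _ => by ring
  rw [h8, On_sum I τ (fun n => Λ ^ n) (range N) hN']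
  have h9 := cand_le_opt I τ hτ0 hτ1 (fun e => Λ ^ I.cls e) hvd0 hva
  have h10 : 0 ≤ 3 * (p * η) + 3 / (Λ - 1) := by
    have := div_nonneg (by norm_num : (0 : ℝ) ≤ 3) (by linarith : 0 ≤ Λ - 1)
    positivity
  have h11 := mul_le_mul_of_nonneg_left h9 h10
  linarith

/-- the constants of the captain table -/
theorem total_const {N : ℕ} (hN : ∀ e ∈ I.Vd, I.cls e < N) {η : ℝ} (hη0 : 0 ≤ η)
    (hη : η ≤ 1 / 100)
    (hP2 : ∀ T n, ∀ i ∈ range 3, EZ (1 / 2) ((1 / 2) ^ 25)
        (fun Z A B => ((harmed I (2 ^ 17) T Z A B i n).card : ℝ)) ≤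
      (1 / 2) ^ 25 * (η * (En I T n).card + 2 ^ 19 * (1 / 2) ^ 25 * (On I T n).card)) :
    (1 / 2 : ℝ) ^ 30 * ∑ e ∈ opt I, ((2 : ℝ) ^ 40) ^ I.cls e ≤
      ∑ T, w (fun _ => (1 / 2 : ℝ)) T * EZ (1 / 2) ((1 / 2) ^ 25)
        (fun Z A B => ∑ i ∈ range 3, lbv I (2 ^ 40) N (2 ^ 17) T Z A B i) := by
  have h := total I hN (k := 2 ^ 17) (by norm_num) (x := 1 / 2) (p := (1 / 2) ^ 25) (τ := 1 / 2)
    (Λ := 2 ^ 40) (η := η) (m := 2 ^ 19) (by norm_num) (by norm_num) (by norm_num) (by norm_num)
    (by norm_num) (by norm_num) (by norm_num) hη0 hP2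
  refine le_trans (mul_le_mul_of_nonneg_right ?_ ?_) h
  · have h1 : ((1 / 2 : ℝ) ^ 25 * η) ≤ (1 / 2) ^ 25 * (1 / 100) :=
      mul_le_mul_of_nonneg_left hη (by norm_num)
    have h2 : (1 / 2 : ℝ) ^ 30 ≤ (1 - 1 / 2) * ((1 - 1 / 2) * ((1 / 2) ^ 25 * (1 - (1 / 2) ^ 25) / 2)
        - 3 * (2 ^ 19 * ((1 / 2) ^ 25) ^ 2)) -
        (3 * ((1 / 2) ^ 25 * (1 / 100)) + 3 / (2 ^ 40 - 1)) * ((1 - 1 / 2) / (1 / 2)) := by
      norm_num
    linarith
  · exact Finset.sum_nonneg fun e _ => by positivity

end Crest.Agent.R305.TopDef137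
end

-- ▼ part R305/Rule_764
section

/-!
# R305 / S0468: the deterministic rule layer (helper764)

For label sets `T Z A` (raw samples) and a level vector `q : Fin k → Option ℤ` (`none` = discarded)
this file defines the rows and the bases of the rule of doc 1793, proves that they only depend on the
levels of the sampled elements (and on the level of the element itself), the chain property, and the
independence of the start level used in the definition (shift invariance), i.e. the GLOBAL FORM with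
one fixed `rankData` of helper310.
-/

set_option autoImplicit false
set_option linter.unusedSectionVars false

namespace Crest.Agent.R305.Rule764

open Finset Kd447 Fcl310 Fcr310

variable {k : ℕ}

/-! ### the order: level first, then index -/

/-- `a` comes before `b` (heavier; `none` last; ties by index) -/
def bef (q : Fin k → Option ℤ) (a b : Fin k) : Prop :=
  match q a, q b with
  | some x, some y => y < x ∨ (x = y ∧ a < b)
  | some _, none => True
  | none, some _ => False
  | none, none => a < b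

theorem bef_congr {q q' : Fin k → Option ℤ} {a b : Fin k} (ha : q a = q' a) (hb : q b = q' b) :
    bef q a b ↔ bef q' a b := by
  unfold bef; rw [ha, hb]

theorem bef_irrefl (q : Fin k → Option ℤ) (a : Fin k) : ¬ bef q a a := by
  unfold bef
  cases h : q a <;> simp

theorem bef_trans {q : Fin k → Option ℤ} {a b c : Fin k} (h1 : bef q a b) (h2 : bef q b c) :
    bef q a c := by
  unfold bef at *
  cases ha : q a <;> cases hb : q b <;> cases hc : q c <;> simp only [ha, hb, hc] at * <;>
    first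
    | trivial
    | exact h1.elim
    | exact h2.elim
    | exact h1.trans h2
    | (rcases h1 with h1 | ⟨h1, h1'⟩ <;> rcases h2 with h2 | ⟨h2, h2'⟩
       · left; omega
       · left; omega
       · left; omega
       · right; exact ⟨by omega, h1'.trans h2'⟩)

theorem bef_total {q : Fin k → Option ℤ} {a b : Fin k} (h : a ≠ b) : bef q a b ∨ bef q b a := by
  unfold bef
  cases ha : q a <;> cases hb : q b
  · exact lt_or_gt_of_ne h
  · right; trivial
  · left; trivial
  · rename_i x y
    simp only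
    rcases lt_or_gt_of_ne h with h' | h' <;> rcases lt_trichotomy x y with h1 | h1 | h1
    · right; left; exact h1
    · left; right; exact ⟨h1, h'⟩
    · left; left; exact h1
    · right; left; exact h1
    · right; right; exact ⟨h1.symm, h'⟩
    · left; left; exact h1

open Classical in
/-- position: number of elements before `a` (heavy = small) -/
noncomputable def pos (q : Fin k → Option ℤ) (a : Fin k) : ℕ :=
  (univ.filter (fun b => bef q b a)).card

theorem pos_lt_of_bef {q : Fin k → Option ℤ} {a b : Fin k} (h : bef q a b) : pos q a < pos q b := by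
  classical
  unfold pos
  apply card_lt_card
  rw [ssubset_iff_of_subset]
  · exact ⟨a, by simpa using h, by simpa using bef_irrefl q a⟩
  · intro c hc
    simp only [mem_filter, mem_univ, true_and] at hc ⊢
    exact bef_trans hc h

theorem pos_lt_iff {q : Fin k → Option ℤ} {a b : Fin k} : pos q a < pos q b ↔ bef q a b := by
  constructor
  · intro h
    by_cases hab : a = b
    · subst hab; omega
    · rcases bef_total (q := q) hab with h1 | h1
      · exact h1
      · have := pos_lt_of_bef h1; omega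
  · exact pos_lt_of_bef

theorem pos_inj (q : Fin k → Option ℤ) : Function.Injective (pos q) := by
  intro a b h
  by_contra hab
  rcases bef_total (q := q) hab with h1 | h1 <;>
  · have := pos_lt_of_bef h1; omega

/-- levels are antitone along `pos` -/
theorem pos_antitone {q : Fin k → Option ℤ} {a b : Fin k} (h : pos q a < pos q b) {y : ℤ}
    (hb : q b = some y) : ∃ x, q a = some x ∧ y ≤ x := by
  rw [pos_lt_iff] at h
  unfold bef at h
  rw [hb] at h
  cases ha : q a with
  | none => rw [ha] at h; exact h.elim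
  | some x =>
    rw [ha] at h
    refine ⟨x, rfl, ?_⟩
    simp only at h
    omega


section defs

variable (M : RankFn (Fin k)) (κ : ℕ) (T Z A : Finset (Fin k)) (q : Fin k → Option ℤ)

/-- the elements of `T` heavier than `e` -/
noncomputable def below (e : Fin k) : Finset (Fin k) := T.filter (fun a => pos q a < pos q e)

theorem mem_below {a e : Fin k} : a ∈ below T q e ↔ a ∈ T ∧ pos q a < pos q e := by
  simp only [below, mem_filter]

/-- candidates -/
def fresh (e : Fin k) : Prop := e ∉ T ∧ q e ≠ none ∧ e ∉ M.cl (below T q e)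

open Classical in
/-- the fresh elements of `S` of level `ℓ` -/
noncomputable def lev (S : Finset (Fin k)) (ℓ : ℤ) : Finset (Fin k) :=
  S.filter (fun z => fresh M T q z ∧ q z = some ℓ)

theorem mem_lev {S : Finset (Fin k)} {ℓ : ℤ} {z : Fin k} :
    z ∈ lev M T q S ℓ ↔ z ∈ S ∧ fresh M T q z ∧ q z = some ℓ := by
  simp only [lev, mem_filter]

/-- greedy basis of the fresh elements of `Z` of level `ℓ` -/
noncomputable def Zp (ℓ : ℤ) : Finset (Fin k) :=
  (lev M T q Z ℓ).filter (fun z => z ∉ M.cl ((lev M T q Z ℓ).filter (fun z' => pos q z' < pos q z)))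

theorem mem_Zp {ℓ : ℤ} {z : Fin k} : z ∈ Zp M T Z q ℓ ↔
    z ∈ lev M T q Z ℓ ∧ z ∉ M.cl ((lev M T q Z ℓ).filter (fun z' => pos q z' < pos q z)) := by
  simp only [Zp, mem_filter]

/-- the dense closure of level `ℓ` -/
noncomputable def cz (ℓ : ℤ) (F : Finset (Fin k)) : Finset (Fin k) := M.kc κ (Zp M T Z q ℓ) F

open Classical in
/-- effective part of the sample `A` -/
noncomputable def Aeff : Finset (Fin k) := A.filter (fun a => a ∉ Z ∧ fresh M T q a)

theorem mem_Aeff {a : Fin k} : a ∈ Aeff M T Z A q ↔ a ∈ A ∧ a ∉ Z ∧ fresh M T q a := by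
  simp only [Aeff, mem_filter]

/-- flat generated by the levels `s, …, s + n - 1` -/
noncomputable def flatS (s : ℤ) : ℕ → Finset (Fin k) → Finset (Fin k)
  | 0, _ => M.cl ∅
  | n + 1, S => M.cl (cz M κ T Z q (s + n) (flatS s n S) ∪ S.filter (fun a => q a = some (s + n)))

/-- `e` is absorbed by `S` -/
def inK (s : ℤ) (S : Finset (Fin k)) (e : Fin k) : Prop :=
  ∃ ℓ : ℤ, q e = some ℓ ∧ e ∈ cz M κ T Z q ℓ (flatS M κ T Z q s (ℓ - s).toNat S)

open Classical in
/-- the chain of samples `A ∩ S_t` -/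
noncomputable def As (s : ℤ) : ℕ → Finset (Fin k)
  | 0 => Aeff M T Z A q
  | j + 1 => (As s j).filter (fun a => inK M κ T Z q s (As s j) a)

theorem mem_As_succ {s : ℤ} {j : ℕ} {a : Fin k} : a ∈ As M κ T Z A q s (j + 1) ↔
    a ∈ As M κ T Z A q s j ∧ inK M κ T Z q s (As M κ T Z A q s j) a := by
  simp only [As, mem_filter]

/-- exit time -/
def exit (s : ℤ) (e : Fin k) (t : ℕ) : Prop :=
  (∀ j < t, inK M κ T Z q s (As M κ T Z A q s j) e) ∧ ¬ inK M κ T Z q s (As M κ T Z A q s t) e

theorem exit_unique {s : ℤ} {e : Fin k} {t t' : ℕ} (h : exit M κ T Z A q s e t)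
    (h' : exit M κ T Z A q s e t') : t = t' := by
  rcases lt_trichotomy t t' with h1 | h1 | h1
  · exact absurd (h'.1 t h1) h.2
  · exact h1
  · exact absurd (h.1 t' h1) h'.2

/-- `e` is served in row `t` -/
def served (L ρ : ℕ) (s : ℤ) (e : Fin k) (t : ℕ) : Prop :=
  fresh M T q e ∧ exit M κ T Z A q s e t ∧ t % L = ρ

open Classical in
/-- row with start level `s` -/
noncomputable def rowS (L ρ : ℕ) (s : ℤ) (e : Fin k) : Option ℕ :=
  if h : ∃ t, served M κ T Z A q L ρ s e t then some h.choose else none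

theorem rowS_eq_some {L ρ : ℕ} {s : ℤ} {e : Fin k} {t : ℕ} :
    rowS M κ T Z A q L ρ s e = some t ↔ served M κ T Z A q L ρ s e t := by
  unfold rowS
  constructor
  · intro h
    split at h
    · rename_i h1
      have h2 := h1.choose_spec
      have h3 : h1.choose = t := by simpa using h
      rwa [h3] at h2
    · simp at h
  · intro h
    have h1 : ∃ t, served M κ T Z A q L ρ s e t := ⟨t, h⟩
    rw [dif_pos h1]
    have h2 := h1.choose_spec
    rw [exit_unique M κ T Z A q h2.2.1 h.2.1]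

/-- bound for the known levels -/
def bd (S : Finset (Fin k)) : ℕ := ∑ e ∈ S, ((q e).getD 0).natAbs

/-- start level of the rule -/
def start : ℤ := -(bd q (T ∪ Z ∪ A) : ℤ)

/-- number of levels of the rule -/
def num : ℕ := 2 * bd q (T ∪ Z ∪ A) + 1

/-- THE ROWS of the rule -/
noncomputable def row (L ρ : ℕ) (e : Fin k) : Option ℕ :=
  rowS M κ T Z A q L ρ (start T Z A q) e

/-- THE BASES of the rule -/
noncomputable def base (L : ℕ) (t : ℕ) : Finset (Fin k) :=
  flatS M κ T Z q (start T Z A q) (num T Z A q) (As M κ T Z A q (start T Z A q) (t + L - 1))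

end defs

/-! ### locality -/

section local_

variable (M : RankFn (Fin k)) (κ : ℕ) (T Z A : Finset (Fin k)) {q q' : Fin k → Option ℤ}

theorem below_congr {e : Fin k} (hT : ∀ a ∈ T, q a = q' a) (he : q e = q' e) :
    below T q e = below T q' e := by
  ext a
  rw [mem_below, mem_below, pos_lt_iff, pos_lt_iff]
  exact and_congr_right fun ha => bef_congr (hT a ha) he

theorem fresh_congr {e : Fin k} (hT : ∀ a ∈ T, q a = q' a) (he : q e = q' e) :
    fresh M T q e ↔ fresh M T q' e := by
  unfold fresh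
  rw [below_congr T hT he, he]

theorem lev_congr {S : Finset (Fin k)} {ℓ : ℤ} (hT : ∀ a ∈ T, q a = q' a)
    (hS : ∀ a ∈ S, q a = q' a) : lev M T q S ℓ = lev M T q' S ℓ := by
  ext a
  rw [mem_lev, mem_lev]
  refine and_congr_right fun ha => ?_
  rw [fresh_congr M T hT (hS a ha), hS a ha]

theorem Zp_congr {ℓ : ℤ} (hT : ∀ a ∈ T, q a = q' a) (hZ : ∀ a ∈ Z, q a = q' a) :
    Zp M T Z q ℓ = Zp M T Z q' ℓ := by
  have h0 := lev_congr M T (ℓ := ℓ) hT hZ
  ext a
  rw [mem_Zp, mem_Zp, h0]
  refine and_congr_right fun ha => ?_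
  have h1 : (lev M T q' Z ℓ).filter (fun z' => pos q z' < pos q a) =
      (lev M T q' Z ℓ).filter (fun z' => pos q' z' < pos q' a) := by
    ext b
    rw [mem_filter, mem_filter, pos_lt_iff, pos_lt_iff]
    refine and_congr_right fun hb => bef_congr (hZ b ?_) (hZ a ?_)
    · exact ((mem_lev M T q').1 hb).1
    · exact ((mem_lev M T q').1 ha).1
  rw [h1]

theorem cz_congr {ℓ : ℤ} {F : Finset (Fin k)} (hT : ∀ a ∈ T, q a = q' a)
    (hZ : ∀ a ∈ Z, q a = q' a) : cz M κ T Z q ℓ F = cz M κ T Z q' ℓ F := by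
  unfold cz
  rw [Zp_congr M T Z hT hZ]

theorem Aeff_congr (hT : ∀ a ∈ T, q a = q' a) (hA : ∀ a ∈ A, q a = q' a) :
    Aeff M T Z A q = Aeff M T Z A q' := by
  ext a
  rw [mem_Aeff, mem_Aeff]
  refine and_congr_right fun ha => ?_
  rw [fresh_congr M T hT (hA a ha)]

theorem flatS_congr {s : ℤ} {S : Finset (Fin k)} (hT : ∀ a ∈ T, q a = q' a)
    (hZ : ∀ a ∈ Z, q a = q' a) (hS : ∀ a ∈ S, q a = q' a) (n : ℕ) :
    flatS M κ T Z q s n S = flatS M κ T Z q' s n S := by
  induction n with
  | zero => rfl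
  | succ n ih =>
    rw [flatS, flatS, ih, cz_congr M κ T Z hT hZ]
    congr 2
    apply filter_congr
    intro a ha
    rw [hS a ha]

theorem inK_congr {s : ℤ} {S : Finset (Fin k)} {e : Fin k} (hT : ∀ a ∈ T, q a = q' a)
    (hZ : ∀ a ∈ Z, q a = q' a) (hS : ∀ a ∈ S, q a = q' a) (he : q e = q' e) :
    inK M κ T Z q s S e ↔ inK M κ T Z q' s S e := by
  unfold inK
  rw [he]
  constructor
  · rintro ⟨ℓ, h1, h2⟩
    exact ⟨ℓ, h1, by rwa [cz_congr M κ T Z hT hZ, flatS_congr M κ T Z hT hZ hS] at h2⟩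
  · rintro ⟨ℓ, h1, h2⟩
    exact ⟨ℓ, h1, by rwa [cz_congr M κ T Z hT hZ, flatS_congr M κ T Z hT hZ hS]⟩

theorem As_subset_Aeff (q : Fin k → Option ℤ) (s : ℤ) (j : ℕ) :
    As M κ T Z A q s j ⊆ Aeff M T Z A q := by
  induction j with
  | zero => exact Subset.refl _
  | succ j ih =>
    intro a ha
    exact ih ((mem_As_succ M κ T Z A q).1 ha).1


theorem Aeff_subset (q : Fin k → Option ℤ) : Aeff M T Z A q ⊆ A :=
  fun _ ha => ((mem_Aeff M T Z A q).1 ha).1

theorem As_subset (q : Fin k → Option ℤ) (s : ℤ) (j : ℕ) : As M κ T Z A q s j ⊆ A :=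
  (As_subset_Aeff M κ T Z A q s j).trans (Aeff_subset M T Z A q)

theorem As_congr {s : ℤ} (hT : ∀ a ∈ T, q a = q' a)
    (hZ : ∀ a ∈ Z, q a = q' a) (hA : ∀ a ∈ A, q a = q' a) (j : ℕ) :
    As M κ T Z A q s j = As M κ T Z A q' s j := by
  induction j with
  | zero => exact Aeff_congr M T Z A hT hA
  | succ j ih =>
    ext a
    rw [mem_As_succ, mem_As_succ, ← ih]
    refine and_congr_right fun ha => ?_
    have h1 := As_subset M κ T Z A q s j
    exact inK_congr M κ T Z hT hZ (fun b hb => hA b (h1 hb)) (hA a (h1 ha))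

theorem served_congr {L ρ : ℕ} {s : ℤ} {e : Fin k} {t : ℕ} (hT : ∀ a ∈ T, q a = q' a)
    (hZ : ∀ a ∈ Z, q a = q' a) (hA : ∀ a ∈ A, q a = q' a) (he : q e = q' e) :
    served M κ T Z A q L ρ s e t ↔ served M κ T Z A q' L ρ s e t := by
  have h1 : ∀ j, inK M κ T Z q s (As M κ T Z A q s j) e ↔
      inK M κ T Z q' s (As M κ T Z A q' s j) e := by
    intro j
    rw [← As_congr M κ T Z A hT hZ hA j]
    exact inK_congr M κ T Z hT hZ (fun b hb => hA b (As_subset M κ T Z A q s j hb)) he
  unfold served exit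
  rw [fresh_congr M T hT he]
  simp only [h1]

theorem start_congr (hT : ∀ a ∈ T, q a = q' a)
    (hZ : ∀ a ∈ Z, q a = q' a) (hA : ∀ a ∈ A, q a = q' a) : start T Z A q = start T Z A q' := by
  unfold start bd
  congr 2
  apply sum_congr rfl
  intro e he
  rcases mem_union.1 he with he | he
  · rcases mem_union.1 he with he | he
    · rw [hT e he]
    · rw [hZ e he]
  · rw [hA e he]

theorem num_congr (hT : ∀ a ∈ T, q a = q' a)
    (hZ : ∀ a ∈ Z, q a = q' a) (hA : ∀ a ∈ A, q a = q' a) : num T Z A q = num T Z A q' := by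
  unfold num bd
  congr 2
  apply sum_congr rfl
  intro e he
  rcases mem_union.1 he with he | he
  · rcases mem_union.1 he with he | he
    · rw [hT e he]
    · rw [hZ e he]
  · rw [hA e he]

/-- (R2a) ROW LOCALITY -/
theorem row_loc {L ρ : ℕ} {e : Fin k} (h : ∀ a, a ∈ T ∪ Z ∪ A ∨ a = e → q a = q' a) :
    row M κ T Z A q L ρ e = row M κ T Z A q' L ρ e := by
  have hT : ∀ a ∈ T, q a = q' a := fun a ha => h a (Or.inl (by simp [ha]))
  have hZ : ∀ a ∈ Z, q a = q' a := fun a ha => h a (Or.inl (by simp [ha]))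
  have hA : ∀ a ∈ A, q a = q' a := fun a ha => h a (Or.inl (by simp [ha]))
  have he : q e = q' e := h e (Or.inr rfl)
  unfold row
  rw [← start_congr T Z A hT hZ hA]
  ext t
  rw [rowS_eq_some, rowS_eq_some]
  exact served_congr M κ T Z A hT hZ hA he

/-- (R2b) BASE LOCALITY -/
theorem base_loc {L t : ℕ} (h : ∀ a ∈ T ∪ Z ∪ A, q a = q' a) :
    base M κ T Z A q L t = base M κ T Z A q' L t := by
  have hT : ∀ a ∈ T, q a = q' a := fun a ha => h a (by simp [ha])
  have hZ : ∀ a ∈ Z, q a = q' a := fun a ha => h a (by simp [ha])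
  have hA : ∀ a ∈ A, q a = q' a := fun a ha => h a (by simp [ha])
  unfold base
  rw [← start_congr T Z A hT hZ hA, ← num_congr T Z A hT hZ hA, ← As_congr M κ T Z A hT hZ hA]
  exact flatS_congr M κ T Z hT hZ (fun b hb => hA b (As_subset M κ T Z A q _ _ hb)) _

end local_

/-! ### shift invariance -/

section shift

variable (M : RankFn (Fin k)) (κ : ℕ) (T Z A : Finset (Fin k)) (q : Fin k → Option ℤ)


/-- known levels are at least `s` -/
def Low (S : Finset (Fin k)) (s : ℤ) : Prop := ∀ a ∈ S, ∀ x, q a = some x → s ≤ x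

/-- known levels are below `u` -/
def Upp (S : Finset (Fin k)) (u : ℤ) : Prop := ∀ a ∈ S, ∀ x, q a = some x → x < u

variable {q}

theorem Zp_empty_of_low {s ℓ : ℤ} (h : Low q Z s) (hℓ : ℓ < s) : Zp M T Z q ℓ = ∅ := by
  rw [eq_empty_iff_forall_notMem]
  intro z hz
  have h1 := (mem_lev M T q).1 ((mem_Zp M T Z q).1 hz).1
  have := h z h1.1 ℓ h1.2.2
  omega

theorem Zp_empty_of_upp {u ℓ : ℤ} (h : Upp q Z u) (hℓ : u ≤ ℓ) : Zp M T Z q ℓ = ∅ := by
  rw [eq_empty_iff_forall_notMem]
  intro z hz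
  have h1 := (mem_lev M T q).1 ((mem_Zp M T Z q).1 hz).1
  have := h z h1.1 ℓ h1.2.2
  omega

theorem flatS_succ (s : ℤ) (n : ℕ) (S : Finset (Fin k)) : flatS M κ T Z q s (n + 1) S =
    M.cl (cz M κ T Z q (s + n) (flatS M κ T Z q s n S) ∪
      S.filter (fun a => q a = some (s + n))) := rfl

theorem flatS_flat (s : ℤ) (n : ℕ) (S : Finset (Fin k)) :
    M.cl (flatS M κ T Z q s n S) = flatS M κ T Z q s n S := by
  cases n with
  | zero => exact M.cl_cl ∅
  | succ n => exact M.cl_cl _

/-- the flat does not depend on the start level, as long as all known levels are above -/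
theorem flatS_shift {s' s : ℤ} (hs : s' ≤ s) {S : Finset (Fin k)} (hZ : Low q Z s)
    (hS : Low q S s) (n : ℕ) :
    flatS M κ T Z q s' n S = flatS M κ T Z q s (s' + n - s).toNat S := by
  induction n with
  | zero =>
    have : (s' + ((0 : ℕ) : ℤ) - s).toNat = 0 := by
      rw [Int.toNat_eq_zero]; push_cast; omega
    rw [this]; rfl
  | succ n ih =>
    by_cases hlt : s' + n < s
    · have e1 : (s' + (n : ℤ) - s).toNat = 0 := by rw [Int.toNat_eq_zero]; omega
      have e2 : (s' + ((n + 1 : ℕ) : ℤ) - s).toNat = 0 := by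
        rw [Int.toNat_eq_zero]; push_cast; omega
      rw [e1] at ih
      rw [e2, flatS_succ, ih]
      have h1 : cz M κ T Z q (s' + n) (flatS M κ T Z q s 0 S) = M.cl ∅ := by
        unfold cz
        rw [Zp_empty_of_low M T Z hZ hlt, M.kc_empty_Z]
        exact M.cl_cl ∅
      have h2 : S.filter (fun a => q a = some (s' + n)) = ∅ := by
        rw [filter_eq_empty_iff]
        intro a ha hq
        have := hS a ha _ hq
        omega
      rw [h1, h2, union_empty, M.cl_cl]
      rfl
    · have e1 : (s' + ((n + 1 : ℕ) : ℤ) - s).toNat = (s' + (n : ℤ) - s).toNat + 1 := by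
        push_cast; omega
      have e2 : s + ((s' + (n : ℤ) - s).toNat : ℤ) = s' + n := by omega
      rw [e1, flatS_succ, flatS_succ, ih, e2]

/-- same flat for two start levels below all known levels -/
theorem flatS_level {s₁ s₂ : ℤ} {S : Finset (Fin k)} (hZ₁ : Low q Z s₁) (hS₁ : Low q S s₁)
    (hZ₂ : Low q Z s₂) (hS₂ : Low q S s₂) (ℓ : ℤ) :
    flatS M κ T Z q s₁ (ℓ - s₁).toNat S = flatS M κ T Z q s₂ (ℓ - s₂).toNat S := by
  have h1 := flatS_shift M κ T Z (min_le_left s₁ s₂) hZ₁ hS₁ (ℓ - min s₁ s₂).toNat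
  have h2 := flatS_shift M κ T Z (min_le_right s₁ s₂) hZ₂ hS₂ (ℓ - min s₁ s₂).toNat
  have e1 : (min s₁ s₂ + ((ℓ - min s₁ s₂).toNat : ℤ) - s₁).toNat = (ℓ - s₁).toNat := by omega
  have e2 : (min s₁ s₂ + ((ℓ - min s₁ s₂).toNat : ℤ) - s₂).toNat = (ℓ - s₂).toNat := by omega
  rw [e1] at h1
  rw [e2] at h2
  rw [← h1, ← h2]

theorem inK_shift {s₁ s₂ : ℤ} {S : Finset (Fin k)} (hZ₁ : Low q Z s₁) (hS₁ : Low q S s₁)
    (hZ₂ : Low q Z s₂) (hS₂ : Low q S s₂) (e : Fin k) :
    inK M κ T Z q s₁ S e ↔ inK M κ T Z q s₂ S e := by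
  unfold inK
  constructor
  · rintro ⟨ℓ, h1, h2⟩
    exact ⟨ℓ, h1, by rwa [flatS_level M κ T Z hZ₁ hS₁ hZ₂ hS₂] at h2⟩
  · rintro ⟨ℓ, h1, h2⟩
    exact ⟨ℓ, h1, by rwa [flatS_level M κ T Z hZ₁ hS₁ hZ₂ hS₂]⟩

theorem As_shift {s₁ s₂ : ℤ} (hZ₁ : Low q Z s₁) (hA₁ : Low q A s₁)
    (hZ₂ : Low q Z s₂) (hA₂ : Low q A s₂) (j : ℕ) :
    As M κ T Z A q s₁ j = As M κ T Z A q s₂ j := by
  induction j with
  | zero => rfl
  | succ j ih =>
    ext a
    rw [mem_As_succ, mem_As_succ, ← ih]
    refine and_congr_right fun ha => ?_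
    have h1 := As_subset M κ T Z A q s₁ j
    exact inK_shift M κ T Z hZ₁ (fun b hb => hA₁ b (h1 hb)) hZ₂ (fun b hb => hA₂ b (h1 hb)) a

theorem served_shift {L ρ : ℕ} {s₁ s₂ : ℤ} (hZ₁ : Low q Z s₁) (hA₁ : Low q A s₁)
    (hZ₂ : Low q Z s₂) (hA₂ : Low q A s₂) (e : Fin k) (t : ℕ) :
    served M κ T Z A q L ρ s₁ e t ↔ served M κ T Z A q L ρ s₂ e t := by
  have h1 : ∀ j, inK M κ T Z q s₁ (As M κ T Z A q s₁ j) e ↔
      inK M κ T Z q s₂ (As M κ T Z A q s₂ j) e := by
    intro j
    rw [← As_shift M κ T Z A hZ₁ hA₁ hZ₂ hA₂ j]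
    have h1 := As_subset M κ T Z A q s₁ j
    exact inK_shift M κ T Z hZ₁ (fun b hb => hA₁ b (h1 hb)) hZ₂ (fun b hb => hA₂ b (h1 hb)) e
  unfold served exit
  simp only [h1]

/-- above the known levels the flat is stable -/
theorem flatS_stable {s u : ℤ} {S : Finset (Fin k)} (hZ : Upp q Z u) (hS : Upp q S u) {n m : ℕ}
    (hn : u ≤ s + n) (hm : n ≤ m) : flatS M κ T Z q s m S = flatS M κ T Z q s n S := by
  induction m, hm using Nat.le_induction with
  | base => rfl
  | succ m hm ih =>
    have hu : u ≤ s + m := by omega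
    rw [flatS_succ, ih]
    have h2 : S.filter (fun a => q a = some (s + m)) = ∅ := by
      rw [filter_eq_empty_iff]
      intro a ha hq
      have := hS a ha _ hq
      omega
    rw [h2, union_empty]
    unfold cz
    rw [Zp_empty_of_upp M T Z hZ hu, M.kc_empty_Z, M.cl_cl, flatS_flat]

/-- base flats for two start levels -/
theorem flatS_top {s₁ s₂ u : ℤ} {S : Finset (Fin k)} (hZ₁ : Low q Z s₁) (hS₁ : Low q S s₁)
    (hZ₂ : Low q Z s₂) (hS₂ : Low q S s₂) (hZ : Upp q Z u) (hS : Upp q S u) {n₁ n₂ : ℕ}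
    (h1 : u ≤ s₁ + n₁) (h2 : u ≤ s₂ + n₂) :
    flatS M κ T Z q s₁ n₁ S = flatS M κ T Z q s₂ n₂ S := by
  set ℓ : ℤ := max (max (s₁ + n₁) (s₂ + n₂)) (max s₁ s₂) with hℓ
  have h3 := flatS_level M κ T Z hZ₁ hS₁ hZ₂ hS₂ ℓ
  have h4 : flatS M κ T Z q s₁ (ℓ - s₁).toNat S = flatS M κ T Z q s₁ n₁ S :=
    flatS_stable M κ T Z hZ hS h1 (by omega)
  have h5 : flatS M κ T Z q s₂ (ℓ - s₂).toNat S = flatS M κ T Z q s₂ n₂ S :=
    flatS_stable M κ T Z hZ hS h2 (by omega)
  rw [← h4, h3, h5]

theorem natAbs_le_bd {S : Finset (Fin k)} {a : Fin k} (ha : a ∈ S) {x : ℤ} (hx : q a = some x) :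
    x.natAbs ≤ bd q S := by
  unfold bd
  have := single_le_sum (f := fun e => ((q e).getD 0).natAbs) (fun _ _ => Nat.zero_le _) ha
  simpa [hx] using this

theorem low_start {S : Finset (Fin k)} (h : S ⊆ T ∪ Z ∪ A) : Low q S (start T Z A q) := by
  intro a ha x hx
  have := natAbs_le_bd (h ha) hx
  unfold start
  omega

theorem upp_start {S : Finset (Fin k)} (h : S ⊆ T ∪ Z ∪ A) :
    Upp q S (start T Z A q + num T Z A q) := by
  intro a ha x hx
  have := natAbs_le_bd (h ha) hx
  unfold start num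
  push_cast
  omega

end shift

end Crest.Agent.R305.Rule764
private theorem rz_20ec122406 : type_of% @_root_.Crest.Agent.R305.Rule764.As.eq_def := @_root_.Crest.Agent.R305.Rule764.As.eq_def -- L171
private theorem rz_648c927888 : type_of% @_root_.Crest.Agent.R305.Rule764.As.eq_1 := @_root_.Crest.Agent.R305.Rule764.As.eq_1 -- L171
private theorem rz_33cf8a4708 : type_of% @_root_.Crest.Agent.R305.Rule764.flatS.eq_def := @_root_.Crest.Agent.R305.Rule764.flatS.eq_def -- L161
private theorem rz_f4db032514 : type_of% @_root_.Crest.Agent.R305.Rule764.flatS.eq_1 := @_root_.Crest.Agent.R305.Rule764.flatS.eq_1 -- L161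
end

-- ▼ part R305/Rule2_764

/-!
# R305 / S0468: the rule layer, chain property and GLOBAL FORM (helper764)
-/

set_option autoImplicit false
set_option linter.unusedSectionVars false
set_option linter.unusedVariables false

namespace Crest.Agent.R305.Rule764

open Finset Kd447 Fcl310 Fcr310 Rows755

variable {k : ℕ}

section mono

variable (M : RankFn (Fin k)) (κ : ℕ) (T Z A : Finset (Fin k)) (q : Fin k → Option ℤ)


theorem subset_cz (ℓ : ℤ) (F : Finset (Fin k)) : F ⊆ cz M κ T Z q ℓ F := M.subset_kc _ _ _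


theorem cz_subset_flatS (s : ℤ) (n : ℕ) (S : Finset (Fin k)) :
    cz M κ T Z q (s + n) (flatS M κ T Z q s n S) ⊆ flatS M κ T Z q s (n + 1) S := by
  rw [flatS_succ]
  exact subset_union_left.trans (M.subset_cl _)

theorem flatS_le (s : ℤ) {n m : ℕ} (h : n ≤ m) (S : Finset (Fin k)) :
    flatS M κ T Z q s n S ⊆ flatS M κ T Z q s m S := by
  induction m, h using Nat.le_induction with
  | base => exact Subset.refl _
  | succ m _ ih =>
    exact ih.trans ((subset_cz M κ T Z q _ _).trans (cz_subset_flatS M κ T Z q s m S))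

variable {q}

/-- absorbed elements are in the top flat -/
theorem mem_flatS_of_inK {s u : ℤ} {S : Finset (Fin k)} (hZ : Low q Z s) (hS : Low q S s)
    (hZ' : Upp q Z u) (hS' : Upp q S u) {n : ℕ} (hn : u ≤ s + n) {e : Fin k}
    (he : inK M κ T Z q s S e) : e ∈ flatS M κ T Z q s n S := by
  obtain ⟨ℓ, hℓ, _⟩ := id he
  -- a common start level below `ℓ`
  have hZ1 : Low q Z (min s ℓ) := fun a ha x hx => (min_le_left _ _).trans (hZ a ha x hx)
  have hS1 : Low q S (min s ℓ) := fun a ha x hx => (min_le_left _ _).trans (hS a ha x hx)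
  rw [inK_shift M κ T Z hZ hS hZ1 hS1] at he
  obtain ⟨ℓ', hℓ', he'⟩ := he
  have hll : ℓ' = ℓ := by rw [hℓ] at hℓ'; exact (Option.some.inj hℓ').symm
  subst hll
  have e1 : min s ℓ' + ((ℓ' - min s ℓ').toNat : ℤ) = ℓ' := by omega
  have h1 := cz_subset_flatS M κ T Z q (min s ℓ') (ℓ' - min s ℓ').toNat S
  rw [e1] at h1
  have h2 := h1 he'
  have h3 : u ≤ min s ℓ' + (((ℓ' - min s ℓ').toNat + 1 + (u - min s ℓ').toNat : ℕ) : ℤ) := by
    push_cast; omega
  rw [flatS_top M κ T Z hZ hS hZ1 hS1 hZ' hS' hn h3]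
  exact flatS_le M κ T Z q _ (by omega) S h2

/-- (R) CHAIN PROPERTY -/
theorem chain {L ρ t t' : ℕ} {b : Fin k} (hb : row M κ T Z A q L ρ b = some t')
    (ht : t % L = ρ) (hlt : t < t') : b ∈ base M κ T Z A q L t := by
  unfold row at hb
  rw [rowS_eq_some] at hb
  obtain ⟨_, h2, h3⟩ := hb
  have hle : t + L ≤ t' := by
    have h4 : t ≡ t' [MOD L] := by rw [Nat.ModEq, ht, h3]
    have h5 := (Nat.modEq_iff_dvd' hlt.le).1 h4
    have h6 := Nat.le_of_dvd (by omega) h5
    omega
  have h7 : t + L - 1 < t' := by omega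
  have h8 := h2.1 _ h7
  have hA := As_subset M κ T Z A q (start T Z A q) (t + L - 1)
  have hA' : As M κ T Z A q (start T Z A q) (t + L - 1) ⊆ T ∪ Z ∪ A :=
    hA.trans subset_union_right
  have hZ' : Z ⊆ T ∪ Z ∪ A := subset_union_right.trans subset_union_left
  exact mem_flatS_of_inK M κ T Z (low_start T Z A hZ') (low_start T Z A hA')
    (upp_start T Z A hZ') (upp_start T Z A hA') (by simp [start, num]) h8

theorem chain' {L ρ t t' : ℕ} {a b : Fin k} (ha : row M κ T Z A q L ρ a = some t)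
    (hb : row M κ T Z A q L ρ b = some t') (hlt : t < t') : b ∈ base M κ T Z A q L t := by
  refine chain M κ T Z A hb ?_ hlt
  unfold row at ha
  rw [rowS_eq_some] at ha
  exact ha.2.2

end mono

/-! ### the rule -/

/-- the rule as an instance of the plug of helper755 -/
noncomputable def mkRule (M : Matroid (Fin k)) (κ L : ℕ) (Ω : Type) [Fintype Ω] (μ : Ω → ℝ)
    (h0 : ∀ r, 0 ≤ μ r) (h1 : ∑ r, μ r = 1) (T Z A B : Ω → Finset (Fin k)) (ρ : Ω → ℕ) :
    ClsRule k M where
  Ω := Ω
  fin := inferInstance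
  μ := μ
  μ_nonneg := h0
  μ_sum := h1
  T r := T r ∪ Z r ∪ A r
  U r := B r \ (T r ∪ Z r ∪ A r)
  disj r e he := (mem_sdiff.1 he).2
  row r q e := row (ofMatroid M) κ (T r) (Z r) (A r) q L (ρ r) e
  base r q t := base (ofMatroid M) κ (T r) (Z r) (A r) q L t
  row_loc r q q' a h := row_loc (ofMatroid M) κ (T r) (Z r) (A r) h
  base_loc r q q' t h := base_loc (ofMatroid M) κ (T r) (Z r) (A r) h
  chain r q a _ b _ t t' ha hb hlt :=
    (ofMatroid M).subset_cl _ (chain' (ofMatroid M) κ (T r) (Z r) (A r) ha hb hlt)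

/-! ### global form -/

section global

variable (M : RankFn (Fin k)) (κ : ℕ) (T Z A B : Finset (Fin k)) (q : Fin k → Option ℤ)

/-- global start level -/
def gs : ℤ := -(bd q univ : ℤ)

/-- global number of classes -/
def gn : ℕ := 2 * bd q univ + 1

/-- the class of an element -/
def gcls (e : Fin k) : ℕ := ((q e).getD (gs q) - gs q).toNat

variable {q}

theorem gs_le {e : Fin k} {x : ℤ} (h : q e = some x) : gs q ≤ x := by
  have := natAbs_le_bd (mem_univ e) h
  unfold gs; omega

theorem lt_gn {e : Fin k} {x : ℤ} (h : q e = some x) : x < gs q + gn q := by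
  have := natAbs_le_bd (mem_univ e) h
  unfold gs gn; push_cast; omega

theorem gcls_some {e : Fin k} {x : ℤ} (h : q e = some x) : gs q + (gcls q e : ℤ) = x := by
  have := gs_le h
  unfold gcls; rw [h]; simp only [Option.getD_some]; omega

theorem gcls_eq_iff {e : Fin k} {x : ℤ} (h : q e = some x) (n : ℕ) :
    gcls q e = n ↔ x = gs q + n := by
  have := gcls_some h
  omega

theorem gcls_lt (e : Fin k) : gcls q e < gn q := by
  cases h : q e with
  | none => unfold gcls gn; rw [h]; simp
  | some x =>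
    have h1 := gcls_some h
    have h2 := lt_gn h
    omega

variable (q)

/-- the instance of `TopDef137` of a level vector -/
noncomputable def inst : TopDef137.Inst (Fin k) where
  M := M
  pos := pos q
  inj := pos_inj q
  cls := gcls q
  Vd := univ.filter fun e => q e ≠ none
  anti a ha b hb h := by
    simp only [mem_filter, mem_univ, true_and, ne_eq, Option.ne_none_iff_exists'] at ha hb
    obtain ⟨y, hy⟩ := hb
    obtain ⟨x, hx, hxy⟩ := pos_antitone h hy
    have h1 := gcls_some hx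
    have h2 := gcls_some hy
    omega

@[simp] theorem inst_M : (inst M q).M = M := rfl
@[simp] theorem inst_pos : (inst M q).pos = pos q := rfl
@[simp] theorem inst_cls : (inst M q).cls = gcls q := rfl
theorem mem_Vd {e : Fin k} : e ∈ (inst M q).Vd ↔ q e ≠ none := by simp [inst]

variable {q}

/-- value of a level in terms of the class -/
theorem val_gcls {Λ : ℕ} (hΛ : 0 < Λ) {e : Fin k} (he : q e ≠ none) :
    val Λ (q e) = (Λ : ℝ) ^ (gs q) * (Λ : ℝ) ^ (gcls q e) := by
  obtain ⟨x, hx⟩ := Option.ne_none_iff_exists'.1 he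
  have h0 : (Λ : ℝ) ≠ 0 := by exact_mod_cast hΛ.ne'
  rw [hx, val_some, ← zpow_natCast, ← zpow_add₀ h0, gcls_some hx]

variable (q)

theorem below_inter {e : Fin k} (he : q e ≠ none) :
    TopDef137.below (pos q) (T ∩ (inst M q).Vd) e = below T q e := by
  ext a
  simp only [TopDef137.below, below, mem_filter, mem_inter, mem_Vd]
  constructor
  · rintro ⟨⟨h1, _⟩, h2⟩; exact ⟨h1, h2⟩
  · rintro ⟨h1, h2⟩
    obtain ⟨y, hy⟩ := Option.ne_none_iff_exists'.1 he
    obtain ⟨x, hx, _⟩ := pos_antitone h2 hy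
    exact ⟨⟨h1, by rw [hx]; simp⟩, h2⟩

/-- (G1) candidates -/
theorem mem_cand {e : Fin k} : e ∈ TopDef137.cand (inst M q) T ↔ fresh M T q e := by
  unfold TopDef137.cand fresh
  rw [mem_filter, mem_Vd]
  constructor
  · rintro ⟨h1, h2, h3⟩
    exact ⟨h2, h1, by rwa [inst_pos, below_inter M T q h1] at h3⟩
  · rintro ⟨h2, h1, h3⟩
    exact ⟨h1, h2, by rwa [inst_pos, below_inter M T q h1]⟩

theorem inter_En (n : ℕ) : Z ∩ TopDef137.En (inst M q) T n = lev M T q Z (gs q + n) := by
  ext e
  simp only [TopDef137.En, mem_inter, mem_filter, mem_cand, mem_lev, inst_cls]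
  refine and_congr_right fun _ => and_congr_right fun h => ?_
  obtain ⟨x, hx⟩ := Option.ne_none_iff_exists'.1 h.2.1
  rw [gcls_eq_iff hx, hx]
  simp

/-- (G2) the samples of the dense closures -/
theorem Zs_eq (n : ℕ) : TopDef137.Zs (inst M q) T Z n = Zp M T Z q (gs q + n) := by
  unfold TopDef137.Zs TopDef137.grd
  rw [inter_En]
  rfl

/-- (G3) the effective samples -/
theorem As_eq : TopDef137.As (inst M q) T Z A = Aeff M T Z A q := by
  ext e
  simp only [TopDef137.As, mem_inter, mem_sdiff, mem_cand, mem_Aeff]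
  tauto

/-- (G4) the flats -/
theorem flat_eq {S : Finset (Fin k)} (hS : ∀ e ∈ S, q e ≠ none) (n : ℕ) :
    flat (TopDef137.dat (inst M q) κ T Z) n S = flatS M κ T Z q (gs q) n S := by
  induction n with
  | zero => rfl
  | succ n ih =>
    rw [flat_succ, flatS_succ, ih]
    have h1 : (TopDef137.dat (inst M q) κ T Z).c n (flatS M κ T Z q (gs q) n S) =
        cz M κ T Z q (gs q + n) (flatS M κ T Z q (gs q) n S) := by
      show M.kc κ (TopDef137.Zs (inst M q) T Z n) _ = _
      rw [Zs_eq]; rfl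
    have h2 : (S.filter fun a => (TopDef137.dat (inst M q) κ T Z).cls a = n) =
        S.filter fun a => q a = some (gs q + n) := by
      apply filter_congr
      intro a ha
      obtain ⟨x, hx⟩ := Option.ne_none_iff_exists'.1 (hS a ha)
      show gcls q a = n ↔ _
      rw [gcls_eq_iff hx, hx]
      simp
    rw [h1, h2]
    rfl

theorem mem_c_iff {S : Finset (Fin k)} (hS : ∀ e ∈ S, q e ≠ none) {e : Fin k} (he : q e ≠ none) :
    e ∈ (TopDef137.dat (inst M q) κ T Z).c ((TopDef137.dat (inst M q) κ T Z).cls e)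
      (flat (TopDef137.dat (inst M q) κ T Z) ((TopDef137.dat (inst M q) κ T Z).cls e) S) ↔
    inK M κ T Z q (gs q) S e := by
  obtain ⟨x, hx⟩ := Option.ne_none_iff_exists'.1 he
  rw [flat_eq M κ T Z q hS]
  show e ∈ M.kc κ (TopDef137.Zs (inst M q) T Z (gcls q e)) (flatS M κ T Z q (gs q) (gcls q e) S) ↔ _
  rw [Zs_eq, gcls_some hx]
  have h1 : (x - gs q).toNat = gcls q e := by have := gcls_some hx; omega
  unfold inK cz
  constructor
  · intro h
    exact ⟨x, hx, by rwa [h1]⟩
  · rintro ⟨ℓ, hℓ, h⟩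
    have : ℓ = x := by rw [hx] at hℓ; exact (Option.some.inj hℓ).symm
    subst this
    rwa [h1] at h

theorem Aeff_ne {e : Fin k} (he : e ∈ Aeff M T Z A q) : q e ≠ none :=
  ((mem_Aeff M T Z A q).1 he).2.2.2.1

theorem As_ne {s : ℤ} {j : ℕ} {e : Fin k} (he : e ∈ As M κ T Z A q s j) : q e ≠ none :=
  Aeff_ne M T Z A q (As_subset_Aeff M κ T Z A q s j he)

/-- (G5) the samples of the chain -/
theorem inter_St (t : ℕ) :
    TopDef137.As (inst M q) T Z A ∩
      St (TopDef137.dat (inst M q) κ T Z) (TopDef137.As (inst M q) T Z A) t =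
    As M κ T Z A q (gs q) t := by
  induction t with
  | zero => rw [St_zero, inter_univ, As_eq]; rfl
  | succ t ih =>
    ext e
    rw [mem_inter, mem_St_succ, mem_As_succ, ← ih, mem_inter]
    constructor
    · rintro ⟨h1, h2, h3⟩
      refine ⟨⟨h1, h2⟩, ?_⟩
      have he : q e ≠ none := by rw [As_eq] at h1; exact Aeff_ne M T Z A q h1
      rw [ih, ← mem_c_iff M κ T Z q (fun _ h => As_ne M κ T Z A q h) he, ← ih]
      exact h3
    · rintro ⟨⟨h1, h2⟩, h3⟩
      refine ⟨h1, h2, ?_⟩
      have he : q e ≠ none := by rw [As_eq] at h1; exact Aeff_ne M T Z A q h1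
      rw [ih, ← mem_c_iff M κ T Z q (fun _ h => As_ne M κ T Z A q h) he, ← ih] at h3
      exact h3

/-- (G5') the flats of the chain -/
theorem fl_eq (t n : ℕ) :
    fl (TopDef137.dat (inst M q) κ T Z) (TopDef137.As (inst M q) T Z A) t n =
      flatS M κ T Z q (gs q) n (As M κ T Z A q (gs q) t) := by
  unfold fl
  rw [inter_St, flat_eq M κ T Z q (fun _ h => As_ne M κ T Z A q h)]

theorem mem_St {e : Fin k} (he : q e ≠ none) (t : ℕ) :
    e ∈ St (TopDef137.dat (inst M q) κ T Z) (TopDef137.As (inst M q) T Z A) t ↔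
      ∀ j < t, inK M κ T Z q (gs q) (As M κ T Z A q (gs q) j) e := by
  induction t with
  | zero => simp [St_zero]
  | succ t ih =>
    rw [mem_St_succ, ih]
    have h1 := mem_c_iff M κ T Z q (S := As M κ T Z A q (gs q) t)
      (fun _ h => As_ne M κ T Z A q h) he
    unfold fl
    rw [inter_St, h1]
    constructor
    · rintro ⟨h2, h3⟩ j hj
      rcases Nat.lt_succ_iff_lt_or_eq.1 hj with h4 | h4
      · exact h2 j h4
      · subst h4; exact h3
    · intro h
      exact ⟨fun j hj => h j (by omega), h t (by omega)⟩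

/-- (G6) exit times -/
theorem mem_Row {e : Fin k} (he : q e ≠ none) (t : ℕ) :
    e ∈ TopDef137.Row (inst M q) κ T Z A t ↔ exit M κ T Z A q (gs q) e t := by
  unfold TopDef137.Row exit
  rw [mem_Dt, mem_St M κ T Z A q he]
  have h1 := mem_c_iff M κ T Z q (S := As M κ T Z A q (gs q) t)
    (fun _ h => As_ne M κ T Z A q h) he
  unfold fl
  rw [inter_St, h1]

theorem low_gs (S : Finset (Fin k)) : Low q S (gs q) := fun _ _ _ hx => gs_le hx

theorem upp_gn (S : Finset (Fin k)) : Upp q S (gs q + gn q) := fun _ _ _ hx => lt_gn hx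

/-- (G7) ROWS, global form -/
theorem row_eq_some {L ρ : ℕ} {e : Fin k} {t : ℕ} :
    row M κ T Z A q L ρ e = some t ↔
      e ∈ TopDef137.cand (inst M q) T ∧ e ∈ TopDef137.Row (inst M q) κ T Z A t ∧ t % L = ρ := by
  unfold row
  rw [rowS_eq_some]
  have hZ' : Z ⊆ T ∪ Z ∪ A := subset_union_right.trans subset_union_left
  rw [served_shift M κ T Z A (low_start T Z A hZ') (low_start T Z A subset_union_right)
    (low_gs q Z) (low_gs q A)]
  unfold served
  rw [mem_cand]
  constructor
  · rintro ⟨h1, h2, h3⟩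
    exact ⟨h1, (mem_Row M κ T Z A q h1.2.1 t).2 h2, h3⟩
  · rintro ⟨h1, h2, h3⟩
    exact ⟨h1, (mem_Row M κ T Z A q h1.2.1 t).1 h2, h3⟩

/-- (G8) BASES, global form -/
theorem base_eq (L t : ℕ) {N : ℕ} (hN : gn q ≤ N) :
    base M κ T Z A q L t =
      fl (TopDef137.dat (inst M q) κ T Z) (TopDef137.As (inst M q) T Z A) (t + L - 1) N := by
  rw [fl_eq]
  unfold base
  have hZ' : Z ⊆ T ∪ Z ∪ A := subset_union_right.trans subset_union_left
  have h1 := As_shift M κ T Z A (low_start T Z A hZ')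
    (low_start T Z A (S := A) subset_union_right) (low_gs q Z) (low_gs q A) (t + L - 1)
  rw [h1]
  have hA := As_subset M κ T Z A q (gs q) (t + L - 1)
  have hA' : As M κ T Z A q (gs q) (t + L - 1) ⊆ T ∪ Z ∪ A := hA.trans subset_union_right
  rw [flatS_top M κ T Z (low_start T Z A hZ') (low_start T Z A hA') (low_gs q Z) (low_gs q _)
    (upp_start T Z A hZ') (upp_start T Z A hA') (n₁ := num T Z A q)
    (n₂ := (start T Z A q + num T Z A q - gs q).toNat) (le_refl _) (by omega)]
  -- both are above all levels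
  have h2 := flatS_stable M κ T Z (s := gs q) (u := gs q + gn q)
    (S := As M κ T Z A q (gs q) (t + L - 1)) (upp_gn q Z) (upp_gn q _) (n := gn q) (m := N)
    (le_refl _) hN
  rw [h2]
  exact flatS_top M κ T Z (low_gs q Z) (low_gs q _) (low_gs q Z) (low_gs q _)
    (u := min (start T Z A q + num T Z A q) (gs q + gn q))
    (fun a ha x hx => lt_min (upp_start T Z A hZ' a ha x hx) (lt_gn hx))
    (fun a ha x hx => lt_min (upp_start T Z A hA' a ha x hx) (lt_gn hx))
    (by omega) (by omega)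

/-- (G9) transfer of row bases: everything that the analysis needs from an accepted set -/
theorem rowBasis_global {L ρ : ℕ} {Acc : Finset (Fin k)} {N : ℕ} (hN : gn q ≤ N)
    (h : RowBasis M (B \ (T ∪ Z ∪ A)) (row M κ T Z A q L ρ) (base M κ T Z A q L) Acc) :
    Acc ⊆ TopDef137.Hs (inst M q) T Z A B ∧
    (∀ a ∈ Acc, ∃ t, t % L = ρ ∧ a ∈ TopDef137.Row (inst M q) κ T Z A t) ∧
    (∀ t, t % L = ρ →
      M.rr (fl (TopDef137.dat (inst M q) κ T Z) (TopDef137.As (inst M q) T Z A) (t + L - 1) N)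
        (Acc ∩ TopDef137.Row (inst M q) κ T Z A t) =
          (Acc ∩ TopDef137.Row (inst M q) κ T Z A t).card) ∧
    (∀ t, t % L = ρ →
      TopDef137.Hs (inst M q) T Z A B ∩ TopDef137.Row (inst M q) κ T Z A t ⊆
        M.cl (fl (TopDef137.dat (inst M q) κ T Z) (TopDef137.As (inst M q) T Z A) (t + L - 1) N ∪
          (Acc ∩ TopDef137.Row (inst M q) κ T Z A t))) := by
  have key : ∀ a ∈ Acc, ∃ t, a ∈ TopDef137.cand (inst M q) T ∧
      a ∈ TopDef137.Row (inst M q) κ T Z A t ∧ t % L = ρ := by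
    intro a ha
    obtain ⟨t, ht⟩ := Option.ne_none_iff_exists'.1 (h.row_ne a ha)
    exact ⟨t, (row_eq_some M κ T Z A q).1 ht⟩
  have hfil : ∀ t, t % L = ρ → Acc.filter (fun a => row M κ T Z A q L ρ a = some t) =
      Acc ∩ TopDef137.Row (inst M q) κ T Z A t := by
    intro t ht
    ext a
    rw [mem_filter, mem_inter, row_eq_some M κ T Z A q]
    constructor
    · rintro ⟨h1, _, h3, _⟩; exact ⟨h1, h3⟩
    · rintro ⟨h1, h3⟩
      obtain ⟨_, h4, _, _⟩ := key a h1
      exact ⟨h1, h4, h3, ht⟩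
  refine ⟨?_, ?_, ?_, ?_⟩
  · intro a ha
    obtain ⟨_, h4, _, _⟩ := key a ha
    have h5 := h.sub ha
    simp only [mem_sdiff, mem_union, not_or] at h5
    simp only [TopDef137.Hs, mem_sdiff, mem_inter]
    exact ⟨⟨h5.1, h4, h5.2.1.2⟩, h5.2.2⟩
  · intro a ha
    obtain ⟨t, _, h5, h6⟩ := key a ha
    exact ⟨t, h6, h5⟩
  · intro t ht
    have h1 := h.indep t
    rwa [hfil t ht, base_eq M κ T Z A q L t hN] at h1
  · intro t ht u hu
    rw [mem_inter] at hu
    obtain ⟨hu1, hu2⟩ := hu
    simp only [TopDef137.Hs, mem_sdiff, mem_inter] at hu1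
    have hT : u ∉ T := ((mem_cand M T q).1 hu1.1.2.1).1
    have h1 := h.span u (by
      simp only [mem_sdiff, mem_union, not_or]
      exact ⟨hu1.1.1, ⟨hT, hu1.1.2.2⟩, hu1.2⟩) t
      ((row_eq_some M κ T Z A q).2 ⟨hu1.1.2.1, hu2, ht⟩)
    rwa [hfil t ht, base_eq M κ T Z A q L t hN] at h1

end global

end Crest.Agent.R305.Rule764
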