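import Crest.Agent.R305.Row3_655
import Crest.Agent.R305.TopDef_137
import Crest.Agent.R305.Rows_755
import Crest.Agent.R305.Rule2_764_Mg
import Crest.Agent.R305.Fcl_310
import Crest.Agent.R305.Dep_310
import Crest.Agent.R305.Kd_447
import Crest.Agent.R305.Fcr_310
import Crest.Agent.R305.TopB_137

-- ▼ part R305/P3_655
section

/-!
# R305: (P3) of the top assembly, deterministic row accounting in the names of `TopDef_137`
-/

set_option autoImplicit false

namespace Crest.Agent.R305.P3_655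

open Finset Dep310 Kd447 Kd447.RankFn Fcl310 Fcr310 TopDef137 Row2_655 Row3_655

variable {α : Type*} [Fintype α] [DecidableEq α] (I : Inst α)

theorem Zs_subset_En (T Z : Finset α) (n : ℕ) : Zs I T Z n ⊆ Z ∩ En I T n := by
  unfold Zs grd
  exact filter_subset _ _

theorem mem_Zs {T Z : Finset α} {n : ℕ} {a : α} (h : a ∈ Zs I T Z n) :
    a ∈ Z ∧ a ∈ cand I T ∧ I.cls a = n := by
  have := Zs_subset_En I T Z n h
  rw [mem_inter, En, mem_filter] at this
  exact ⟨this.1, this.2.1, this.2.2⟩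

/-- heavier online elements and heavier generators are inside `bad` -/
theorem card_heavy_le (T Z A B : Finset α) (n N : ℕ) :
    ((Hs I T Z A B).filter fun a => n < I.cls a).card +
      ((Ico (n + 1) N).biUnion (Zs I T Z) ∪ (As I T Z A).filter fun a => n < I.cls a).card ≤
      (bad I T Z A B n).card := by
  rw [← card_union_of_disjoint]
  · refine card_le_card ?_
    intro a ha
    rw [mem_union, mem_union, mem_filter, mem_filter, mem_biUnion] at ha
    rw [bad, mem_filter, mem_inter, mem_union, mem_union]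
    rcases ha with ⟨h1, h2⟩ | ⟨j, hj, h1⟩ | ⟨h1, h2⟩
    · rw [Hs, mem_sdiff, mem_inter, mem_sdiff] at h1
      exact ⟨⟨h1.1.2.1, Or.inr h1.1.1⟩, h2⟩
    · obtain ⟨h3, h4, h5⟩ := mem_Zs I h1
      rw [mem_Ico] at hj
      exact ⟨⟨h4, Or.inl (Or.inl h3)⟩, by omega⟩
    · rw [As, mem_inter, mem_sdiff] at h1
      exact ⟨⟨h1.2.1, Or.inl (Or.inr h1.1)⟩, h2⟩
  · rw [disjoint_left]
    intro a ha hb
    rw [mem_filter, Hs, mem_sdiff, mem_inter, mem_sdiff] at ha
    rw [mem_union, mem_biUnion, mem_filter] at hb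
    rcases hb with ⟨j, hj, h1⟩ | ⟨h1, h2⟩
    · exact ha.1.1.2.2 (mem_Zs I h1).1
    · rw [As, mem_inter] at h1
      exact ha.1.2 h1.1

/-- **(P3)** deterministic row accounting -/
theorem good_le {k N : ℕ} (hk : 0 < k) (hN : ∀ a, I.cls a < N) (T Z A B Acc : Finset α) (i n : ℕ)
    (hAcc : Acc ⊆ Hs I T Z A B)
    (hind : ∀ t, t % 3 = i →
      I.M.rr (fl (dat I k T Z) (As I T Z A) (t + 2) N) (Acc ∩ Row I k T Z A t) =
        (Acc ∩ Row I k T Z A t).card)
    (hmax : ∀ t, t % 3 = i → Hs I T Z A B ∩ Row I k T Z A t ⊆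
      I.M.cl (fl (dat I k T Z) (As I T Z A) (t + 2) N ∪ (Acc ∩ Row I k T Z A t))) :
    (good I k T Z A B i n).card ≤ (Acc.filter fun a => I.cls a = n).card +
      (harmed I k T Z A B i n).card + (bad I T Z A B n).card := by
  classical
  by_cases hi : i < 3
  swap
  · -- no row
    have : good I k T Z A B i n = ∅ := by
      rw [good, filter_eq_empty_iff]
      rintro h _ ⟨t, ht, _⟩
      have := Nat.mod_lt t (show 0 < 3 by norm_num)
      omega
    rw [this]
    simp
  by_cases hnN : n < N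
  swap
  · have : good I k T Z A B i n = ∅ := by
      rw [good, filter_eq_empty_iff]
      intro h hh
      rw [mem_inter, On, mem_filter] at hh
      have := hN h
      omega
    rw [this]
    simp
  -- horizon
  obtain ⟨S, hS⟩ : ∃ S : ℕ, ∀ h ∈ good I k T Z A B i n, ∀ t, h ∈ Row I k T Z A t → t < 3 * S := by
    have h1 : ∀ h : α, ∃ s : ℕ, ∀ t, h ∈ Row I k T Z A t → t < s := by
      intro h
      by_cases hex : ∃ t, h ∈ Row I k T Z A t
      · obtain ⟨t, ht⟩ := hex
        refine ⟨t + 1, fun s hs => ?_⟩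
        have := exit_unique _ ht hs
        omega
      · exact ⟨0, fun t ht => (hex ⟨t, ht⟩).elim⟩
    choose f hf using h1
    refine ⟨(univ : Finset α).sup f, fun h _ t ht => ?_⟩
    have h2 := hf h t ht
    have h3 : f h ≤ (univ : Finset α).sup f := le_sup (mem_univ h)
    omega
  have key := acc_total I.M (dat I k T Z) (fun X => rfl) (n := n) (m := N) hnN
    (Zs I T Z) (fun j F _ => (I.M.kc_eq_cl hk (Zs I T Z j) F).subset)
    (fun F => c_closed I.M I.cls k (Zs I T Z) n F)
    (As I T Z A) (Hs I T Z A B) (Hs I T Z A B) Acc (Subset.refl _) hAcc i S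
    (fun j _ => hind (i + 3 * j) (by omega)) (fun j _ => hmax (i + 3 * j) (by omega))
  -- the served elements
  have hserved : (good I k T Z A B i n \ harmed I k T Z A B i n).card ≤
      ∑ j ∈ range S, I.M.rr ((dat I k T Z).c n (gl (dat I k T Z) (As I T Z A) (Hs I T Z A B)
        (i + 3 * j) n)) ((Hs I T Z A B ∩ Dt (dat I k T Z) (As I T Z A) (i + 3 * j)).filter
          fun a => (dat I k T Z).cls a = n) := by
    have h1 : ∀ j ∈ range S, ((Nt I k T Z A B (i + 3 * j) n).filter fun h =>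
        h ∉ I.M.cl (Kt I k T Z A B (i + 3 * j) n ∪ (Nt I k T Z A B (i + 3 * j) n).erase h)).card ≤
        I.M.rr ((dat I k T Z).c n (gl (dat I k T Z) (As I T Z A) (Hs I T Z A B)
        (i + 3 * j) n)) ((Hs I T Z A B ∩ Dt (dat I k T Z) (As I T Z A) (i + 3 * j)).filter
          fun a => (dat I k T Z).cls a = n) := by
      intro j _
      refine good_card_le I.M ?_
      intro a ha
      rw [Nt, mem_inter, mem_inter, On, mem_filter] at ha
      rw [mem_filter, mem_inter]
      exact ⟨⟨ha.1.1, ha.2⟩, ha.1.2.2⟩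
    refine le_trans ?_ (sum_le_sum h1)
    refine le_trans (card_le_card ?_) card_biUnion_le
    intro h hh
    rw [mem_sdiff] at hh
    obtain ⟨hg, hh⟩ := hh
    have hg' := hg
    rw [good, mem_filter] at hg'
    obtain ⟨h2, t, ht, hR, hK⟩ := hg'
    have ht3 := hS h hg t hR
    have e : i + 3 * (t / 3) = t := by
      have := Nat.mod_add_div t 3
      omega
    rw [mem_biUnion]
    refine ⟨t / 3, mem_range.2 (by omega), ?_⟩
    rw [e, mem_filter]
    refine ⟨?_, ?_⟩
    · rw [Nt, mem_inter]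
      exact ⟨h2, hR⟩
    · intro hcl
      apply hh
      rw [harmed, mem_filter]
      exact ⟨hg, t, ht, hR, hcl⟩
  have h3 : (good I k T Z A B i n).card ≤ (good I k T Z A B i n \ harmed I k T Z A B i n).card +
      (harmed I k T Z A B i n).card := by
    have := card_le_card_sdiff_add_card (s := good I k T Z A B i n) (t := harmed I k T Z A B i n)
    omega
  have h4 := card_heavy_le I T Z A B n N
  have h5 : ((Acc.filter fun a => (dat I k T Z).cls a = n).card +
      ((Hs I T Z A B).filter fun a => n < (dat I k T Z).cls a).card +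
      ((Ico (n + 1) N).biUnion (Zs I T Z) ∪
        (As I T Z A).filter fun a => n < (dat I k T Z).cls a).card) ≤
      (Acc.filter fun a => I.cls a = n).card + (bad I T Z A B n).card := by
    have : ∀ a, (dat I k T Z).cls a = I.cls a := fun a => rfl
    simp only [this]
    omega
  omega


end Crest.Agent.R305.P3_655
end

-- ▼ part R305/Fin_755
section

/-!
R305 / S0468: last step (helper755): monotonicity of the conclusion in the constant, numerals.
-/

set_option autoImplicit false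
universe u

namespace Crest.Agent.R305.Fin755

open Crest.OnlineMatroid Crest.Agent.R305.Kd447 Crest.Agent.R305.Red396 Crest.Agent.R305.Rows755
  MeasureTheory

variable {k : ℕ}

theorem concl_mono {M : Matroid (Fin k)} {c c' : ENNReal} (h : c' ≤ c) (H : Concl.{u} k M c) :
    Concl.{u} k M c' := by
  obtain ⟨ΩR, i, μR, R, hp, hI, hval⟩ := H
  refine ⟨ΩR, i, μR, R, hp, hI, ?_⟩
  intro Ω _ P _ S V hS hV hpos hind hlaw hfin
  refine le_trans ?_ (hval Ω P S V hS hV hpos hind hlaw hfin)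
  gcongr

theorem half_pow_le {n : ℕ} {x : ℝ} (h : (1 / 2 : ℝ) ^ n ≤ x) :
    (2 : ENNReal)⁻¹ ^ n ≤ ENNReal.ofReal x := by
  have h1 : (2 : ENNReal)⁻¹ = ENNReal.ofReal (1 / 2) := by
    rw [one_div, ENNReal.ofReal_inv_of_pos (by norm_num)]
    norm_num
  rw [h1, ← ENNReal.ofReal_pow (by norm_num)]
  exact ENNReal.ofReal_le_ofReal h

/-- the statement S0468 for one matroid follows from a `ClsRule` with a value guarantee `c`,
`(1/2)^310 ≤ c / Λ` -/
theorem concl_of_value {M : Matroid (Fin k)} (O : ClsRule k M) {Λ : ℕ} (hΛ : 1 < Λ)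
    {c : ℝ} (hc : 0 ≤ c) {n : ℕ} (hcΛ : (1 / 2 : ℝ) ^ n ≤ c / Λ)
    (hval : ∀ q : Fin k → Option ℤ, ∀ I : Finset (Fin k), M.Indep (I : Set (Fin k)) →
      (∀ e ∈ I, q e ≠ none) → ∃ lb : O.Ω → ℝ,
        (∀ r A, RowBasis (ofMatroid M) (O.U r) (O.row r q) (O.base r q) A →
          lb r ≤ ∑ e ∈ A, val Λ (q e)) ∧
        c * ∑ e ∈ I, val Λ (q e) ≤ ∑ r, O.μ r * lb r) :
    Concl.{u} k M ((2 : ENNReal)⁻¹ ^ n) :=
  concl_mono (half_pow_le hcΛ) (concl_of_clsRule O hΛ hc hval)

end Crest.Agent.R305.Fin755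
end

-- ▼ part R305/TopE_137
section

/-!
# R305 top assembly (helper137): the final glue
-/

set_option autoImplicit false
universe u

namespace Crest.Agent.R305.TopE137

open Finset Crest.OnlineMatroid Dep310 Kd447 Fcl310 Fcr310 TopDef137 Rows755 Red396 Rule764

variable {k : ℕ}

/-- the seed space -/
abbrev Seed (k : ℕ) : Type :=
  Finset (Fin k) × Finset (Fin k) × Finset (Fin k) × Finset (Fin k) × Fin 3

/-- the weight of a seed -/
noncomputable def mu (τ x p : ℝ) (r : Seed k) : ℝ :=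
  w (fun _ => τ) r.1 * (w (fun _ => x) r.2.1 * (w (fun _ => p) r.2.2.1 * w (fun _ => p) r.2.2.2.1)) *
    (1 / 3)

theorem sum_mu (τ x p : ℝ) (f : Seed k → ℝ) :
    ∑ r, mu τ x p r * f r = (1 / 3) * ∑ T, w (fun _ => τ) T *
      EZ x p (fun Z A B => ∑ i : Fin 3, f (T, Z, A, B, i)) := by
  rw [Fintype.sum_prod_type, Finset.mul_sum]
  refine Finset.sum_congr rfl fun T _ => ?_
  rw [Fintype.sum_prod_type]
  unfold EZ
  rw [Finset.mul_sum, Finset.mul_sum]
  refine Finset.sum_congr rfl fun Z _ => ?_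
  rw [Fintype.sum_prod_type, Finset.mul_sum, Finset.mul_sum, Finset.mul_sum]
  refine Finset.sum_congr rfl fun A _ => ?_
  rw [Fintype.sum_prod_type, Finset.mul_sum, Finset.mul_sum, Finset.mul_sum]
  refine Finset.sum_congr rfl fun B _ => ?_
  rw [Finset.mul_sum, Finset.mul_sum, Finset.mul_sum, Finset.mul_sum]
  refine Finset.sum_congr rfl fun i _ => ?_
  unfold mu
  ring

theorem mu_nonneg {τ x p : ℝ} (hτ0 : 0 ≤ τ) (hτ1 : τ ≤ 1) (hx0 : 0 ≤ x) (hx1 : x ≤ 1)
    (hp0 : 0 ≤ p) (hp1 : p ≤ 1) (r : Seed k) : 0 ≤ mu τ x p r := by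
  unfold mu
  have h1 := w_nonneg (fun _ => hτ0) (fun _ => hτ1) r.1
  have h2 := w_nonneg (fun _ => hx0) (fun _ => hx1) r.2.1
  have h3 := w_nonneg (fun _ => hp0) (fun _ => hp1) r.2.2.1
  have h4 := w_nonneg (fun _ => hp0) (fun _ => hp1) r.2.2.2.1
  positivity

theorem mu_sum (τ x p : ℝ) : ∑ r : Seed k, mu τ x p r = 1 := by
  have h := sum_mu (k := k) τ x p (fun _ => 1)
  simp only [mul_one] at h
  rw [h]
  have h1 : EZ x p (fun _ _ _ : Finset (Fin k) => ∑ _i : Fin 3, (1 : ℝ)) = 3 := by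
    rw [EZ_const]
    norm_num
  rw [h1]
  rw [← Finset.sum_mul, sum_w]
  norm_num

/-- the rule -/
noncomputable def theRule (M : Matroid (Fin k)) : ClsRule k M :=
  mkRule M (2 ^ 17) 3 (Seed k) (mu (1 / 2) (1 / 2) ((1 / 2) ^ 25))
    (mu_nonneg (by norm_num) (by norm_num) (by norm_num) (by norm_num) (by norm_num) (by norm_num))
    (mu_sum _ _ _) (fun r => r.1) (fun r => r.2.1) (fun r => r.2.2.1) (fun r => r.2.2.2.1)
    (fun r => (r.2.2.2.2 : ℕ))

theorem val_sum (q : Fin k → Option ℤ) {Λ : ℕ} (hΛ : 0 < Λ) (S : Finset (Fin k))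
    (hS : ∀ e ∈ S, q e ≠ none) :
    ∑ e ∈ S, val Λ (q e) = (Λ : ℝ) ^ (gs q) * ∑ e ∈ S, (Λ : ℝ) ^ (gcls q e) := by
  rw [Finset.mul_sum]
  exact Finset.sum_congr rfl fun e he => val_gcls hΛ (hS e he)

theorem Hs_subset_Vd (I : Inst (Fin k)) (T Z A B : Finset (Fin k)) : Hs I T Z A B ⊆ I.Vd := by
  intro e he
  unfold Hs cand at he
  rw [mem_sdiff, mem_inter, mem_sdiff, mem_filter] at he
  exact he.1.2.1.1

/-- lower bound for one outcome -/
theorem lb_le (M : Matroid (Fin k)) (q : Fin k → Option ℤ) {Λ : ℕ} (hΛ : 0 < Λ)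
    (T Z A B Acc : Finset (Fin k)) (i : Fin 3)
    (h : RowBasis (ofMatroid M) (B \ (T ∪ Z ∪ A)) (row (ofMatroid M) (2 ^ 17) T Z A q 3 i)
      (base (ofMatroid M) (2 ^ 17) T Z A q 3) Acc) :
    (Λ : ℝ) ^ (gs q) * lbv (inst (ofMatroid M) q) Λ (gn q) (2 ^ 17) T Z A B i ≤
      ∑ e ∈ Acc, val Λ (q e) := by
  obtain ⟨h1, -, h3, h4⟩ := rowBasis_global (hN := le_rfl) (h := h)
  have h5 : ∀ e ∈ Acc, q e ≠ none := fun e he =>
    (mem_Vd (M := ofMatroid M) (q := q)).1 (Hs_subset_Vd _ T Z A B (h1 he))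
  have hΛ' : (0 : ℝ) < Λ := by exact_mod_cast hΛ
  rw [val_sum q hΛ Acc h5]
  refine mul_le_mul_of_nonneg_left ?_ (zpow_pos hΛ' _).le
  have h6 := Coin2404.sum_class (gcls q) (fun n => (Λ : ℝ) ^ n) (range (gn q)) Acc
    (fun e _ => mem_range.2 (gcls_lt e))
  rw [← h6]
  unfold lbv
  refine Finset.sum_le_sum fun n _ => mul_le_mul_of_nonneg_left ?_ (pow_pos hΛ' _).le
  have h7 := P3_655.good_le (inst (ofMatroid M) q) (k := 2 ^ 17) (N := gn q) (by norm_num)
    (fun a => gcls_lt a) T Z A B Acc i n h1 (fun t ht => h3 t ht) (fun t ht => h4 t ht)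
  have h8 : ((good (inst (ofMatroid M) q) (2 ^ 17) T Z A B i n).card : ℝ) ≤
      ((Acc.filter fun a => gcls q a = n).card : ℝ) +
      ((harmed (inst (ofMatroid M) q) (2 ^ 17) T Z A B i n).card : ℝ) +
      ((bad (inst (ofMatroid M) q) T Z A B n).card : ℝ) := by
    exact_mod_cast h7
  linarith

/-- **VALUE**, modulo P2 -/
theorem core_of_P2 (M : Matroid (Fin k)) {η : ℝ} (hη0 : 0 ≤ η) (hη : η ≤ 1 / 100)
    (hP2 : ∀ (I : Inst (Fin k)) T n, ∀ i ∈ range 3, EZ (1 / 2) ((1 / 2) ^ 25)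
        (fun Z A B => ((harmed I (2 ^ 17) T Z A B i n).card : ℝ)) ≤
      (1 / 2) ^ 25 * (η * (En I T n).card + 2 ^ 19 * (1 / 2) ^ 25 * (On I T n).card)) :
    Concl.{u} k M ((2 : ENNReal)⁻¹ ^ 310) := by
  refine Fin755.concl_of_value (theRule M) (Λ := 2 ^ 40) (by norm_num) (c := (1 / 2) ^ 32)
    (by norm_num) ?_ ?_
  · have h1 : (1 / 2 : ℝ) ^ 310 ≤ (1 / 2) ^ 72 :=
      pow_le_pow_of_le_one (by norm_num) (by norm_num) (by norm_num)
    refine h1.trans ?_
    norm_num
  · intro q J hJ hJq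
    set I := inst (ofMatroid M) q with hI
    refine ⟨fun r => ((2 ^ 40 : ℕ) : ℝ) ^ (gs q) *
      lbv I ((2 ^ 40 : ℕ) : ℝ) (gn q) (2 ^ 17) r.1 r.2.1 r.2.2.1 r.2.2.2.1 r.2.2.2.2, ?_, ?_⟩
    · rintro ⟨T, Z, A, B, i⟩ Acc hAcc
      exact lb_le M q (by norm_num) T Z A B Acc i hAcc
    · have hN : ∀ e ∈ I.Vd, I.cls e < gn q := fun e _ => gcls_lt e
      have h1 := total_const I hN hη0 hη (hP2 I)
      have h2 := sum_mu (k := k) (1 / 2) (1 / 2) ((1 / 2) ^ 25)
        (fun r => ((2 ^ 40 : ℕ) : ℝ) ^ (gs q) *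
          lbv I ((2 ^ 40 : ℕ) : ℝ) (gn q) (2 ^ 17) r.1 r.2.1 r.2.2.1 r.2.2.2.1 r.2.2.2.2)
      have h3 : ∑ r, (theRule M).μ r * (fun r : Seed k => ((2 ^ 40 : ℕ) : ℝ) ^ (gs q) *
          lbv I ((2 ^ 40 : ℕ) : ℝ) (gn q) (2 ^ 17) r.1 r.2.1 r.2.2.1 r.2.2.2.1 r.2.2.2.2) r =
          ∑ r, mu (1 / 2) (1 / 2) ((1 / 2) ^ 25) r * (((2 ^ 40 : ℕ) : ℝ) ^ (gs q) *
          lbv I ((2 ^ 40 : ℕ) : ℝ) (gn q) (2 ^ 17) r.1 r.2.1 r.2.2.1 r.2.2.2.1 r.2.2.2.2) := rfl
      rw [h3, h2]
      have h4 : ∀ T : Finset (Fin k), EZ (1 / 2) ((1 / 2) ^ 25) (fun Z A B =>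
          ∑ i : Fin 3, ((2 ^ 40 : ℕ) : ℝ) ^ (gs q) *
            lbv I ((2 ^ 40 : ℕ) : ℝ) (gn q) (2 ^ 17) T Z A B i) =
          ((2 ^ 40 : ℕ) : ℝ) ^ (gs q) * EZ (1 / 2) ((1 / 2) ^ 25) (fun Z A B =>
            ∑ i ∈ range 3, lbv I ((2 : ℝ) ^ 40) (gn q) (2 ^ 17) T Z A B i) := by
        intro T
        rw [← EZ_const_mul]
        congr 1
        funext Z A B
        rw [← Finset.mul_sum, Finset.sum_range]
        norm_num
      simp only [h4]
      have h5 : ∑ T, w (fun _ : Fin k => (1 / 2 : ℝ)) T * (((2 ^ 40 : ℕ) : ℝ) ^ (gs q) *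
          EZ (1 / 2) ((1 / 2) ^ 25) (fun Z A B =>
            ∑ i ∈ range 3, lbv I ((2 : ℝ) ^ 40) (gn q) (2 ^ 17) T Z A B i)) =
          ((2 ^ 40 : ℕ) : ℝ) ^ (gs q) * ∑ T, w (fun _ : Fin k => (1 / 2 : ℝ)) T *
          EZ (1 / 2) ((1 / 2) ^ 25) (fun Z A B =>
            ∑ i ∈ range 3, lbv I ((2 : ℝ) ^ 40) (gn q) (2 ^ 17) T Z A B i) := by
        rw [Finset.mul_sum]
        exact Finset.sum_congr rfl fun T _ => by ring
      rw [h5, val_sum q (by norm_num) J hJq]
      have hpos : (0 : ℝ) < ((2 ^ 40 : ℕ) : ℝ) ^ (gs q) := zpow_pos (by norm_num) _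
      have h6 : ∑ e ∈ J, ((2 : ℝ) ^ 40) ^ I.cls e ≤ ∑ e ∈ opt I, ((2 : ℝ) ^ 40) ^ I.cls e := by
        refine Coin2404.indep_le_opt I (fun e => ((2 : ℝ) ^ 40) ^ I.cls e)
          (fun e _ => by positivity) (fun a ha b hb hab =>
            pow_le_pow_right₀ (by norm_num) (I.anti a ha b hb hab)) J ?_ ?_
        · intro e he
          exact (mem_Vd (M := ofMatroid M) (q := q)).2 (hJq e he)
        · exact (indep_iff_r M J).1 hJ
      have h7 : ∑ e ∈ J, ((2 ^ 40 : ℕ) : ℝ) ^ (gcls q e) = ∑ e ∈ J, ((2 : ℝ) ^ 40) ^ I.cls e := by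
        refine Finset.sum_congr rfl fun e _ => ?_
        norm_num
        rfl
      rw [h7]
      have h8 : 0 ≤ ∑ e ∈ opt I, ((2 : ℝ) ^ 40) ^ I.cls e :=
        Finset.sum_nonneg fun e _ => by positivity
      have h9 : (1 / 2 : ℝ) ^ 32 * ∑ e ∈ J, ((2 : ℝ) ^ 40) ^ I.cls e ≤
          1 / 3 * ∑ T, w (fun _ : Fin k => (1 / 2 : ℝ)) T *
          EZ (1 / 2) ((1 / 2) ^ 25) (fun Z A B =>
            ∑ i ∈ range 3, lbv I ((2 : ℝ) ^ 40) (gn q) (2 ^ 17) T Z A B i) := by
        have h10 : (1 / 2 : ℝ) ^ 32 ≤ 1 / 3 * (1 / 2) ^ 30 := by norm_num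
        calc (1 / 2 : ℝ) ^ 32 * ∑ e ∈ J, ((2 : ℝ) ^ 40) ^ I.cls e
            ≤ (1 / 2 : ℝ) ^ 32 * ∑ e ∈ opt I, ((2 : ℝ) ^ 40) ^ I.cls e :=
              mul_le_mul_of_nonneg_left h6 (by norm_num)
          _ ≤ (1 / 3 * (1 / 2) ^ 30) * ∑ e ∈ opt I, ((2 : ℝ) ^ 40) ^ I.cls e :=
              mul_le_mul_of_nonneg_right h10 h8
          _ = 1 / 3 * ((1 / 2) ^ 30 * ∑ e ∈ opt I, ((2 : ℝ) ^ 40) ^ I.cls e) := by ring
          _ ≤ _ := mul_le_mul_of_nonneg_left h1 (by norm_num)
      calc (1 / 2 : ℝ) ^ 32 * (((2 ^ 40 : ℕ) : ℝ) ^ (gs q) * ∑ e ∈ J, ((2 : ℝ) ^ 40) ^ I.cls e)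
          = ((2 ^ 40 : ℕ) : ℝ) ^ (gs q) * ((1 / 2 : ℝ) ^ 32 * ∑ e ∈ J, ((2 : ℝ) ^ 40) ^ I.cls e) := by
            ring
        _ ≤ ((2 ^ 40 : ℕ) : ℝ) ^ (gs q) * (1 / 3 * ∑ T, w (fun _ : Fin k => (1 / 2 : ℝ)) T *
          EZ (1 / 2) ((1 / 2) ^ 25) (fun Z A B =>
            ∑ i ∈ range 3, lbv I ((2 : ℝ) ^ 40) (gn q) (2 ^ 17) T Z A B i)) :=
            mul_le_mul_of_nonneg_left h9 hpos.le
        _ = _ := by ring

end Crest.Agent.R305.TopE137
end

-- ▼ part R305/Phi_655
section

/-!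
# R305: the chain of lower-class flats seen by one class (for the OCP application)

For the residue `ρ` (mod 3) and the top row index `S`: the increasing chain
`g_{ρ+3S} ⊆ f_{ρ+3S-1} ⊆ g_{ρ+3(S-1)} ⊆ … ⊆ g_ρ ⊆ f_{ρ-1}` (`univ` if `ρ = 0`), then `univ`.
-/

set_option autoImplicit false

namespace Crest.Agent.R305.Phi655

open Finset Fcl310

variable {α : Type*} [DecidableEq α] [Fintype α]

/-- the flat above the row `t`: `f_{t-1}`, everything if `t = 0` -/
def top (D : Data α) (A : Finset α) (t n : ℕ) : Finset α :=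
  if t = 0 then univ else fl D A (t - 1) n

/-- the chain -/
def phi (D : Data α) (A B : Finset α) (n ρ S : ℕ) (j : ℕ) : Finset α :=
  if 2 * S + 2 ≤ j then univ
  else if j % 2 = 0 then gl D A B (ρ + 3 * (S - j / 2)) n
  else top D A (ρ + 3 * (S - j / 2)) n

variable (D : Data α) (A B : Finset α) (n ρ S : ℕ)

theorem phi_top {j : ℕ} (h : 2 * S + 2 ≤ j) : phi D A B n ρ S j = univ := by
  rw [phi, if_pos h]

theorem phi_even {s : ℕ} (h : s ≤ S) :
    phi D A B n ρ S (2 * s) = gl D A B (ρ + 3 * (S - s)) n := by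
  rw [phi, if_neg (by omega), if_pos (by omega)]
  congr 3
  omega

theorem phi_odd {s : ℕ} (h : s ≤ S) :
    phi D A B n ρ S (2 * s + 1) = top D A (ρ + 3 * (S - s)) n := by
  rw [phi, if_neg (by omega), if_neg (by omega)]
  congr 3
  omega

/-- `g_t ⊆ f_{t-1}` -/
theorem gl_subset_top (t : ℕ) : gl D A B t n ⊆ top D A t n := by
  unfold top
  split_ifs with h
  · exact subset_univ _
  · obtain ⟨s, rfl⟩ : ∃ s, t = s + 1 := ⟨t - 1, by omega⟩
    exact gl_subset_fl D A B s n

/-- `f_{t+2} ⊆ g_t` -/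
theorem top_subset_gl (t : ℕ) : top D A (t + 3) n ⊆ gl D A B t n := by
  unfold top
  rw [if_neg (by omega)]
  exact (fl_anti D A (show t + 1 ≤ t + 3 - 1 by omega) n).trans (fl_subset_gl D A B t n)

theorem phi_mono : Monotone (phi D A B n ρ S) := by
  refine monotone_nat_of_le_succ fun j => ?_
  show phi D A B n ρ S j ⊆ phi D A B n ρ S (j + 1)
  rcases Nat.lt_or_ge (j + 1) (2 * S + 2) with h | h
  swap
  · rw [phi_top D A B n ρ S h]
    exact subset_univ _
  rcases Nat.even_or_odd' j with ⟨s, rfl | rfl⟩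
  · rw [phi_even D A B n ρ S (by omega), phi_odd D A B n ρ S (by omega)]
    exact gl_subset_top D A B n _
  · rw [phi_odd D A B n ρ S (by omega), show 2 * s + 1 + 1 = 2 * (s + 1) by ring,
      phi_even D A B n ρ S (by omega)]
    have e : ρ + 3 * (S - s) = (ρ + 3 * (S - (s + 1))) + 3 := by omega
    rw [e]
    exact top_subset_gl D A B n _

/-- the own elements of the row `t` are inside `c n (top t)` -/
theorem mem_c_top {t : ℕ} {y : α} (h : y ∈ Dt D A t) : y ∈ D.c (D.cls y) (top D A t (D.cls y)) := by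
  unfold top
  split_ifs with h0
  · exact D.c_ext _ _ (mem_univ y)
  · obtain ⟨s, rfl⟩ : ∃ s, t = s + 1 := ⟨t - 1, by omega⟩
    exact mem_c_of_mem_St D (mem_sdiff.1 h).1

end Crest.Agent.R305.Phi655
end

-- ▼ part R305/Un_228
section

/-!
# R305, block U (helper228): the probability of the union bound over codes

All on helper310's weight `w p A = ∏ a, if a ∈ A then p a else 1 - p a`.

* `chernoff`, `chernoff_half`, `chernoff_quarter` : lower tails of `|A ∩ B|`
* `union_bound` : union over a finite family of weighted codes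
* `Cd`, `IsCode`, `codes`, `om`, `sum_om_le`, `om_ge` : the codes `(C₀, C, K, n)`
* `tail_le`, `EY_le` : `E |Y (cod A)| ≤ (16 ε_k / x + exp (-k/8)) |W|`, `ε_k = (2 ln k + 4) / k`
* `thin` : a thin sample of a sparse set
-/

set_option autoImplicit false
set_option linter.unusedSectionVars false

namespace Crest.Agent.R305.Un228

open Finset Crest.Agent.R305.Dep310

variable {α : Type*} [Fintype α] [DecidableEq α]

/-! ### product functionals -/

theorem sum_w_prod (p f g : α → ℝ) :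
    ∑ A, w p A * ∏ a, (if a ∈ A then f a else g a) = ∏ a, (p a * f a + (1 - p a) * g a) := by
  have h := Finset.prod_add (fun a => p a * f a) (fun a => (1 - p a) * g a)
    (Finset.univ : Finset α)
  rw [h, Finset.powerset_univ]
  refine Finset.sum_congr rfl fun A _ => ?_
  unfold w
  rw [← Finset.prod_mul_distrib]
  have : ∀ a, (if a ∈ A then p a else 1 - p a) * (if a ∈ A then f a else g a) =
      if a ∈ A then p a * f a else (1 - p a) * g a := by
    intro a; split <;> rfl
  simp only [this]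
  rw [Finset.prod_ite]
  congr 1
  · congr 1
    ext a; simp
  · congr 1
    ext a; simp

/-- Laplace transform of `|A ∩ B|` -/
theorem sum_exp (p : α → ℝ) (B : Finset α) (s : ℝ) :
    ∑ A, w p A * Real.exp (-(s * (A ∩ B).card)) =
      ∏ a ∈ B, (p a * Real.exp (-s) + (1 - p a)) := by
  have h := sum_w_prod p (fun a => if a ∈ B then Real.exp (-s) else 1) (fun _ => 1)
  have h1 : ∀ A : Finset α, ∏ a, (if a ∈ A then (if a ∈ B then Real.exp (-s) else 1) else 1) =
      Real.exp (-(s * (A ∩ B).card)) := by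
    intro A
    have h2 : ∀ a, (if a ∈ A then (if a ∈ B then Real.exp (-s) else 1) else 1) =
        if a ∈ A ∩ B then Real.exp (-s) else 1 := by
      intro a
      by_cases ha : a ∈ A <;> by_cases hb : a ∈ B <;> simp [ha, hb]
    simp only [h2]
    rw [Finset.prod_ite_mem, Finset.univ_inter, Finset.prod_const, ← Real.exp_nat_mul]
    congr 1
    ring
  simp only [h1] at h
  rw [h]
  have h3 : ∀ a, p a * (if a ∈ B then Real.exp (-s) else 1) + (1 - p a) * 1 =
      if a ∈ B then p a * Real.exp (-s) + (1 - p a) else 1 := by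
    intro a; split <;> ring
  simp only [h3]
  rw [Finset.prod_ite_mem, Finset.univ_inter]

open Classical in
theorem chernoff {p : α → ℝ} (h0 : ∀ a, 0 ≤ p a) (h1 : ∀ a, p a ≤ 1) (B : Finset α) {x c s : ℝ}
    (hx : ∀ a ∈ B, x ≤ p a) (hs : 0 ≤ s) :
    ∑ A, w p A * (if ((A ∩ B).card : ℝ) ≤ c * B.card then (1 : ℝ) else 0) ≤
      Real.exp (B.card * (s * c - x * (1 - Real.exp (-s)))) := by
  have hes : Real.exp (-s) ≤ 1 := Real.exp_le_one_iff.2 (by linarith)
  have hpos : 0 < Real.exp (-s) := Real.exp_pos _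
  have e1 : ∑ A, w p A * (if ((A ∩ B).card : ℝ) ≤ c * B.card then (1 : ℝ) else 0) ≤
      Real.exp (s * c * B.card) * ∑ A, w p A * Real.exp (-(s * (A ∩ B).card)) := by
    rw [Finset.mul_sum]
    refine Finset.sum_le_sum fun A _ => ?_
    have hw := w_nonneg h0 h1 A
    have : (if ((A ∩ B).card : ℝ) ≤ c * B.card then (1 : ℝ) else 0) ≤
        Real.exp (s * c * B.card) * Real.exp (-(s * (A ∩ B).card)) := by
      rw [← Real.exp_add]
      split
      · rename_i h
        rw [Real.one_le_exp_iff]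
        nlinarith [mul_le_mul_of_nonneg_left h hs]
      · exact (Real.exp_pos _).le
    nlinarith [mul_le_mul_of_nonneg_left this hw]
  refine e1.trans ?_
  rw [sum_exp]
  have e2 : ∏ a ∈ B, (p a * Real.exp (-s) + (1 - p a)) ≤
      ∏ _a ∈ B, Real.exp (-(x * (1 - Real.exp (-s)))) := by
    refine Finset.prod_le_prod (fun a _ => ?_) fun a ha => ?_
    · have := h0 a; have := h1 a
      nlinarith [mul_nonneg (h0 a) hpos.le]
    · have h2 := Real.add_one_le_exp (-(x * (1 - Real.exp (-s))))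
      nlinarith [hx a ha]
  refine (mul_le_mul_of_nonneg_left e2 (Real.exp_pos _).le).trans (le_of_eq ?_)
  rw [Finset.prod_const, ← Real.exp_nat_mul, ← Real.exp_add]
  congr 1
  ring

theorem log_two_le : Real.log 2 ≤ 0.6932 := by
  have := Real.log_two_lt_d9
  linarith

open Classical in
theorem chernoff_half {p : α → ℝ} (h0 : ∀ a, 0 ≤ p a) (h1 : ∀ a, p a ≤ 1) (B : Finset α) {x : ℝ}
    (hx0 : 0 ≤ x) (hx : ∀ a ∈ B, x ≤ p a) :
    ∑ A, w p A * (if ((A ∩ B).card : ℝ) ≤ x / 2 * B.card then (1 : ℝ) else 0) ≤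
      Real.exp (-(x * B.card / 8)) := by
  refine (chernoff h0 h1 B hx (Real.log_nonneg (by norm_num : (1 : ℝ) ≤ 2))).trans ?_
  rw [Real.exp_neg, Real.exp_log (by norm_num), Real.exp_le_exp]
  have h2 := log_two_le
  have h3 : (0 : ℝ) ≤ B.card * x := by positivity
  nlinarith [mul_le_mul_of_nonneg_left h2 h3]


/-! ### the union bound -/

open Classical in
/-- union over a finite family `codes` of codes with weights `om`, `1 ≤ L * om (cod A)`,
`∑ om ≤ S`; `Y c` is the bad set of the code `c`. -/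
theorem union_bound {p : α → ℝ} (h0 : ∀ a, 0 ≤ p a) (h1 : ∀ a, p a ≤ 1) {γ : Type*}
    (codes : Finset γ) (om : γ → ℝ) (hom : ∀ c ∈ codes, 0 ≤ om c) {S L : ℝ}
    (hS : ∑ c ∈ codes, om c ≤ S) (hL0 : 0 ≤ L) (cod : Finset α → γ)
    (hcod : ∀ A, cod A ∈ codes) (hL : ∀ A, 1 ≤ L * om (cod A)) (Y : γ → Finset α) {x y : ℝ}
    (hx0 : 0 ≤ x) (hx : ∀ c ∈ codes, ∀ a ∈ Y c, x ≤ p a)
    (hY : ∀ A, ((A ∩ Y (cod A)).card : ℝ) ≤ x / 2 * (Y (cod A)).card) :
    ∑ A, w p A * (if y ≤ ((Y (cod A)).card : ℝ) then (1 : ℝ) else 0) ≤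
      S * L * Real.exp (-(x * y / 8)) := by
  have e1 : ∀ A, w p A * (if y ≤ ((Y (cod A)).card : ℝ) then (1 : ℝ) else 0) ≤
      ∑ c ∈ codes, L * om c * (w p A * (if y ≤ ((Y c).card : ℝ) ∧
        ((A ∩ Y c).card : ℝ) ≤ x / 2 * (Y c).card then (1 : ℝ) else 0)) := by
    intro A
    have hw := w_nonneg h0 h1 A
    have hle : L * om (cod A) * (w p A * (if y ≤ ((Y (cod A)).card : ℝ) ∧
        ((A ∩ Y (cod A)).card : ℝ) ≤ x / 2 * (Y (cod A)).card then (1 : ℝ) else 0)) ≤
        ∑ c ∈ codes, L * om c * (w p A * (if y ≤ ((Y c).card : ℝ) ∧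
        ((A ∩ Y c).card : ℝ) ≤ x / 2 * (Y c).card then (1 : ℝ) else 0)) := by
      refine Finset.single_le_sum (f := fun c => L * om c * (w p A * (if y ≤ ((Y c).card : ℝ) ∧
        ((A ∩ Y c).card : ℝ) ≤ x / 2 * (Y c).card then (1 : ℝ) else 0))) (fun c hc => ?_) (hcod A)
      refine mul_nonneg (mul_nonneg hL0 (hom c hc)) (mul_nonneg hw ?_)
      split <;> norm_num
    refine le_trans ?_ hle
    by_cases hy : y ≤ ((Y (cod A)).card : ℝ)
    · rw [if_pos hy, if_pos ⟨hy, hY A⟩]
      nlinarith [hL A]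
    · rw [if_neg hy, if_neg (fun h => hy h.1)]
      simp
  refine (Finset.sum_le_sum fun A _ => e1 A).trans ?_
  rw [Finset.sum_comm]
  have e2 : ∀ c ∈ codes, ∑ A, L * om c * (w p A * (if y ≤ ((Y c).card : ℝ) ∧
        ((A ∩ Y c).card : ℝ) ≤ x / 2 * (Y c).card then (1 : ℝ) else 0)) ≤
      om c * (L * Real.exp (-(x * y / 8))) := by
    intro c hc
    rw [← Finset.mul_sum]
    have hLo : 0 ≤ L * om c := mul_nonneg hL0 (hom c hc)
    have e3 : ∑ A, w p A * (if y ≤ ((Y c).card : ℝ) ∧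
        ((A ∩ Y c).card : ℝ) ≤ x / 2 * (Y c).card then (1 : ℝ) else 0) ≤
        Real.exp (-(x * y / 8)) := by
      by_cases hy : y ≤ ((Y c).card : ℝ)
      · have e4 := chernoff_half h0 h1 (Y c) hx0 (hx c hc)
        simp only [hy, true_and]
        refine e4.trans (Real.exp_le_exp.2 ?_)
        nlinarith
      · simp only [hy, false_and, if_false, mul_zero, Finset.sum_const_zero]
        exact (Real.exp_pos _).le
    calc _ ≤ L * om c * Real.exp (-(x * y / 8)) := mul_le_mul_of_nonneg_left e3 hLo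
      _ = _ := by ring
  refine (Finset.sum_le_sum e2).trans ?_
  rw [← Finset.sum_mul, mul_assoc]
  exact mul_le_mul_of_nonneg_right hS (mul_nonneg hL0 (Real.exp_pos _).le)

/-! ### the codes -/

/-- codes `(C₀, C, K, n)` -/
abbrev Cd (α : Type*) := Finset α × Finset α × Finset α × (α → ℕ)

/-- a code of a chain with sample inside `W` -/
structure IsCode (k : ℕ) (W : Finset α) (c : Cd α) : Prop where
  s0 : c.1 ⊆ W
  s1 : c.2.1 ⊆ W
  s2 : c.2.2.1 ⊆ W
  small : k * (c.1.card + c.2.1.card) ≤ W.card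
  one : ∀ a ∈ c.2.2.1, 1 ≤ c.2.2.2 a
  zero : ∀ a, a ∉ c.2.2.1 → c.2.2.2 a = 0
  sum : ∑ a ∈ c.2.2.1, c.2.2.2 a ≤ c.2.1.card

/-- the finite set of label functions with support `K` and values in `[1, N]` -/
def labs (N : ℕ) (K : Finset α) : Finset (α → ℕ) :=
  Fintype.piFinset fun a => if a ∈ K then Finset.Icc 1 N else {0}

/-- the finite set of codes -/
def codes (W : Finset α) : Finset (Cd α) :=
  (W.powerset ×ˢ W.powerset ×ˢ (W.powerset.sigma fun K => labs W.card K).image
    (fun s => ((s.1, s.2) : Finset α × (α → ℕ))))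

/-- weight of a code -/
noncomputable def om (τ : ℝ) (c : Cd α) : ℝ :=
  τ ^ c.1.card * (τ ^ c.2.1.card * (τ ^ c.2.2.1.card * ∏ a ∈ c.2.2.1, (1 / 2 : ℝ) ^ c.2.2.2 a))

theorem mem_codes {k : ℕ} (hk : 1 ≤ k) {W : Finset α} {c : Cd α} (h : IsCode k W c) :
    c ∈ codes W := by
  obtain ⟨C0, C, K, n⟩ := c
  simp only [codes, mem_product, mem_powerset, mem_image, mem_sigma, Prod.mk.injEq]
  refine ⟨h.s0, h.s1, ⟨⟨K, n⟩, ⟨h.s2, ?_⟩, rfl, rfl⟩⟩
  simp only [labs, Fintype.mem_piFinset]
  intro a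
  by_cases ha : a ∈ K
  · simp only [ha, if_true, mem_Icc]
    refine ⟨h.one a ha, ?_⟩
    have h1 : n a ≤ ∑ a ∈ K, n a := Finset.single_le_sum (f := n) (fun _ _ => Nat.zero_le _) ha
    have h2 := h.sum
    have h3 := h.small
    simp only at h2 h3
    have h4 : C0.card + C.card ≤ k * (C0.card + C.card) := Nat.le_mul_of_pos_left _ (by omega)
    omega
  · simp only [ha, if_false, mem_singleton]
    exact h.zero a ha

theorem sum_half_le (N : ℕ) : ∑ j ∈ Finset.Icc 1 N, (1 / 2 : ℝ) ^ j ≤ 1 := by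
  have : ∑ j ∈ Finset.Icc 1 N, (1 / 2 : ℝ) ^ j = 1 - (1 / 2) ^ N := by
    induction N with
    | zero => simp
    | succ n ih =>
      rw [Finset.sum_Icc_succ_top (by omega), ih]
      ring
  rw [this]
  have : (0 : ℝ) ≤ (1 / 2) ^ N := by positivity
  linarith

theorem sum_labs_le (N : ℕ) (K : Finset α) :
    ∑ n ∈ labs N K, ∏ a ∈ K, (1 / 2 : ℝ) ^ n a ≤ 1 := by
  have h1 : ∀ n : α → ℕ, ∏ a ∈ K, (1 / 2 : ℝ) ^ n a =
      ∏ a, (if a ∈ K then (1 / 2 : ℝ) ^ n a else 1) := by
    intro n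
    rw [Finset.prod_ite_mem, Finset.univ_inter]
  simp only [h1, labs]
  rw [← Finset.prod_univ_sum (fun a => if a ∈ K then Finset.Icc 1 N else {0})
    (fun a j => if a ∈ K then (1 / 2 : ℝ) ^ j else 1)]
  refine Finset.prod_le_one (fun a _ => ?_) fun a _ => ?_
  · refine Finset.sum_nonneg fun j _ => ?_
    split <;> positivity
  · by_cases ha : a ∈ K
    · simp only [ha, if_true]
      exact sum_half_le N
    · simp [ha]

theorem sum_pow_card (τ : ℝ) (W : Finset α) :
    ∑ C ∈ W.powerset, τ ^ C.card = (1 + τ) ^ W.card := by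
  have h := Finset.sum_pow_mul_eq_add_pow τ 1 W
  simp only [one_pow, mul_one] at h
  rw [h, add_comm]

theorem om_nonneg {τ : ℝ} (hτ : 0 ≤ τ) (c : Cd α) : 0 ≤ om τ c := by
  unfold om; positivity

theorem sum_om_le {τ : ℝ} (hτ : 0 ≤ τ) (W : Finset α) :
    ∑ c ∈ codes W, om τ c ≤ Real.exp (3 * τ * W.card) := by
  have e1 : ∑ c ∈ codes W, om τ c ≤
      ((1 + τ) ^ W.card * ((1 + τ) ^ W.card * (1 + τ) ^ W.card)) := by
    unfold codes om
    rw [Finset.sum_product]
    simp only [← Finset.mul_sum]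
    rw [← Finset.sum_mul, sum_pow_card]
    refine mul_le_mul_of_nonneg_left ?_ (by positivity)
    rw [Finset.sum_product]
    simp only [← Finset.mul_sum]
    rw [← Finset.sum_mul, sum_pow_card]
    refine mul_le_mul_of_nonneg_left ?_ (by positivity)
    rw [Finset.sum_image]
    · rw [Finset.sum_sigma]
      simp only [← Finset.mul_sum]
      rw [← sum_pow_card]
      refine Finset.sum_le_sum fun K _ => ?_
      have := sum_labs_le (α := α) W.card K
      have h2 : (0 : ℝ) ≤ τ ^ K.card := by positivity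
      nlinarith [mul_le_mul_of_nonneg_left this h2]
    · rintro ⟨K, n⟩ _ ⟨K', n'⟩ _ h
      simp only [Prod.mk.injEq] at h
      obtain ⟨rfl, rfl⟩ := h
      rfl
  refine e1.trans ?_
  have h1 : (1 + τ) ^ W.card ≤ Real.exp (τ * W.card) := by
    have h2 : 1 + τ ≤ Real.exp τ := by linarith [Real.add_one_le_exp τ]
    calc (1 + τ) ^ W.card ≤ Real.exp τ ^ W.card := pow_le_pow_left₀ (by linarith) h2 _
      _ = Real.exp (τ * W.card) := by rw [← Real.exp_nat_mul, mul_comm]
  have h3 : (0 : ℝ) ≤ (1 + τ) ^ W.card := by positivity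
  calc (1 + τ) ^ W.card * ((1 + τ) ^ W.card * (1 + τ) ^ W.card)
      ≤ Real.exp (τ * W.card) * (Real.exp (τ * W.card) * Real.exp (τ * W.card)) := by gcongr
    _ = _ := by
      rw [← Real.exp_add, ← Real.exp_add]
      congr 1; ring

/-- lower bound for the weight of a code, `τ = 1 / k` -/
theorem om_ge {k : ℕ} (hk : 1 ≤ k) {W : Finset α} {c : Cd α} (h : IsCode k W c) :
    1 ≤ Real.exp ((2 * Real.log k + 1) / k * W.card) * om (1 / k : ℝ) c := by
  have hk0 : (0 : ℝ) < k := by exact_mod_cast hk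
  have hk1 : (1 : ℝ) ≤ k := by exact_mod_cast hk
  have hlog : 0 ≤ Real.log k := Real.log_nonneg hk1
  have hτ : (1 / k : ℝ) = Real.exp (-Real.log k) := by
    rw [Real.exp_neg, Real.exp_log hk0]; simp
  have h2 : (1 / 2 : ℝ) = Real.exp (-Real.log 2) := by
    rw [Real.exp_neg, Real.exp_log (by norm_num)]; simp
  have e1 : om (1 / k : ℝ) c = Real.exp (-(Real.log k * (c.1.card + c.2.1.card + c.2.2.1.card) +
      Real.log 2 * ∑ a ∈ c.2.2.1, (c.2.2.2 a : ℝ))) := by
    unfold om
    rw [Finset.prod_pow_eq_pow_sum, hτ, h2, ← Real.exp_nat_mul, ← Real.exp_nat_mul,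
      ← Real.exp_nat_mul, ← Real.exp_nat_mul, ← Real.exp_add, ← Real.exp_add, ← Real.exp_add]
    congr 1
    push_cast
    ring
  rw [e1, ← Real.exp_add, Real.one_le_exp_iff]
  have hK : c.2.2.1.card ≤ ∑ a ∈ c.2.2.1, c.2.2.2 a := by
    rw [Finset.card_eq_sum_ones]
    exact Finset.sum_le_sum fun a ha => h.one a ha
  have hs := h.sum
  have hsm := h.small
  have hsR : (∑ a ∈ c.2.2.1, (c.2.2.2 a : ℝ)) ≤ c.2.1.card := by exact_mod_cast hs
  have hKR : (c.2.2.1.card : ℝ) ≤ c.2.1.card := by exact_mod_cast hK.trans hs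
  have hsmR : (k : ℝ) * (c.1.card + c.2.1.card) ≤ W.card := by exact_mod_cast hsm
  have hN : (c.1.card : ℝ) + c.2.1.card ≤ W.card / k := by
    rw [le_div_iff₀ hk0]; linarith
  have hc0 : (0 : ℝ) ≤ c.1.card := by positivity
  have hl2 := log_two_le
  have hl20 : 0 ≤ Real.log 2 := Real.log_nonneg (by norm_num)
  have e2 : (2 * Real.log k + 1) / k * (W.card : ℝ) = (2 * Real.log k + 1) * (W.card / k) := by
    ring
  rw [e2]
  have e3 : Real.log k * ((c.1.card : ℝ) + c.2.1.card + c.2.2.1.card) ≤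
      2 * Real.log k * (W.card / k) := by
    have : (c.1.card : ℝ) + c.2.1.card + c.2.2.1.card ≤ 2 * (W.card / k) := by linarith
    nlinarith [mul_le_mul_of_nonneg_left this hlog]
  have e4 : Real.log 2 * ∑ a ∈ c.2.2.1, (c.2.2.2 a : ℝ) ≤ W.card / k := by
    have h5 : (0 : ℝ) ≤ c.2.1.card := by positivity
    calc Real.log 2 * ∑ a ∈ c.2.2.1, (c.2.2.2 a : ℝ) ≤ Real.log 2 * c.2.1.card :=
          mul_le_mul_of_nonneg_left hsR hl20
      _ ≤ 1 * c.2.1.card := mul_le_mul_of_nonneg_right (by linarith) h5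
      _ ≤ _ := by linarith
  nlinarith

/-- the entropy of the codes -/
noncomputable def epsk (k : ℕ) : ℝ := (2 * Real.log k + 4) / k

open Classical in
/-- **tail of the bad set** -/
theorem tail_le {p : α → ℝ} (h0 : ∀ a, 0 ≤ p a) (h1 : ∀ a, p a ≤ 1) {k : ℕ} (hk : 1 ≤ k)
    {W : Finset α} {x : ℝ} (hx0 : 0 ≤ x) (hx : ∀ a ∈ W, x ≤ p a) (Y : Cd α → Finset α)
    (hYW : ∀ c, Y c ⊆ W) (cod : Finset α → Cd α) (hcod : ∀ A, IsCode k W (cod A))
    (hY : ∀ A, ((A ∩ Y (cod A)).card : ℝ) ≤ x / 2 * (Y (cod A)).card) (y : ℝ) :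
    ∑ A, w p A * (if y ≤ ((Y (cod A)).card : ℝ) then (1 : ℝ) else 0) ≤
      Real.exp (epsk k * W.card - x * y / 8) := by
  have hk0 : (0 : ℝ) < k := by exact_mod_cast hk
  have h := union_bound h0 h1 (codes W) (om (1 / k : ℝ))
    (fun c _ => om_nonneg (by positivity) c) (sum_om_le (τ := (1 / k : ℝ)) (by positivity) W)
    (Real.exp_pos ((2 * Real.log k + 1) / k * W.card)).le cod
    (fun A => mem_codes hk (hcod A)) (fun A => om_ge hk (hcod A)) Y hx0
    (fun c _ a ha => hx a (hYW c ha)) hY (y := y)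
  refine h.trans (le_of_eq ?_)
  rw [← Real.exp_add, ← Real.exp_add]
  congr 1
  unfold epsk
  field_simp
  ring

theorem sum_split {p : α → ℝ} (h0 : ∀ a, 0 ≤ p a) (h1 : ∀ a, p a ≤ 1) (f g : Finset α → ℝ)
    (h : ∀ A, f A ≤ g A) : ∑ A, w p A * f A ≤ ∑ A, w p A * g A :=
  Finset.sum_le_sum fun A _ => mul_le_mul_of_nonneg_left (h A) (w_nonneg h0 h1 A)

open Classical in
/-- **expectation of the bad set** (Theorem C of 1793) -/
theorem EY_le {p : α → ℝ} (h0 : ∀ a, 0 ≤ p a) (h1 : ∀ a, p a ≤ 1) {k : ℕ} (hk : 1 ≤ k)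
    {W : Finset α} {x : ℝ} (hx0 : 0 < x) (hx : ∀ a ∈ W, x ≤ p a) (Y : Cd α → Finset α)
    (hYW : ∀ c, Y c ⊆ W) (cod : Finset α → Cd α) (hcod : ∀ A, IsCode k W (cod A))
    (hY : ∀ A, ((A ∩ Y (cod A)).card : ℝ) ≤ x / 2 * (Y (cod A)).card)
    (hm : ∀ A, Y (cod A) = ∅ ∨ 2 * (k : ℝ) ≤ x * (Y (cod A)).card) :
    ∑ A, w p A * ((Y (cod A)).card : ℝ) ≤
      (16 * epsk k / x + Real.exp (-(k / 8 : ℝ))) * W.card := by
  have hk0 : (0 : ℝ) < k := by exact_mod_cast hk
  have hk1 : (1 : ℝ) ≤ k := by exact_mod_cast hk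
  have hlog : 0 ≤ Real.log k := Real.log_nonneg hk1
  have heps : 0 < epsk k := by unfold epsk; positivity
  set N : ℝ := (W.card : ℝ) with hN
  have hN0 : 0 ≤ N := by positivity
  have hle : ∀ A, ((Y (cod A)).card : ℝ) ≤ N := fun A => by
    rw [hN]; exact_mod_cast Finset.card_le_card (hYW _)
  have key : ∀ y : ℝ, 0 ≤ y → ∑ A, w p A * ((Y (cod A)).card : ℝ) ≤
      y + N * ∑ A, w p A * (if y ≤ ((Y (cod A)).card : ℝ) then (1 : ℝ) else 0) := by
    intro y hy
    have h2 : ∑ A, w p A * ((Y (cod A)).card : ℝ) ≤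
        ∑ A, w p A * (y + N * (if y ≤ ((Y (cod A)).card : ℝ) then (1 : ℝ) else 0)) := by
      refine sum_split h0 h1 _ _ fun A => ?_
      split
      · have := hle A; linarith
      · rename_i h
        push Not at h
        linarith
    refine h2.trans (le_of_eq ?_)
    simp only [mul_add, Finset.sum_add_distrib]
    rw [← Finset.sum_mul, sum_w, one_mul, Finset.mul_sum]
    congr 1
    exact Finset.sum_congr rfl fun A _ => by ring
  by_cases hNk : N * (8 * epsk k) ≤ k
  · -- few elements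
    have h3 : ∑ A, w p A * ((Y (cod A)).card : ℝ) ≤
        N * ∑ A, w p A * (if 2 * (k : ℝ) / x ≤ ((Y (cod A)).card : ℝ) then (1 : ℝ) else 0) := by
      rw [Finset.mul_sum]
      have : ∀ A, N * (w p A * (if 2 * (k : ℝ) / x ≤ ((Y (cod A)).card : ℝ) then (1 : ℝ) else 0)) =
          w p A * (N * (if 2 * (k : ℝ) / x ≤ ((Y (cod A)).card : ℝ) then (1 : ℝ) else 0)) :=
        fun A => by ring
      simp only [this]
      refine sum_split h0 h1 _ _ fun A => ?_
      rcases hm A with h | h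
      · rw [h]
        simp only [Finset.card_empty, Nat.cast_zero]
        split <;> simp [hN0]
      · rw [if_pos (by rw [div_le_iff₀ hx0]; linarith)]
        have := hle A; linarith
    refine h3.trans ?_
    have h4 := tail_le h0 h1 hk hx0.le hx Y hYW cod hcod hY (2 * (k : ℝ) / x)
    have h5 : epsk k * N - x * (2 * (k : ℝ) / x) / 8 ≤ -(k / 8 : ℝ) := by
      have : x * (2 * (k : ℝ) / x) = 2 * k := by field_simp
      rw [this]
      linarith
    have h6 : (0 : ℝ) ≤ 16 * epsk k / x := by positivity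
    have h7 := h4.trans (Real.exp_le_exp.2 h5)
    nlinarith [mul_le_mul_of_nonneg_left h7 hN0, mul_nonneg h6 hN0]
  · push Not at hNk
    have h3 := key (16 * epsk k / x * N) (by positivity)
    have h4 := tail_le h0 h1 hk hx0.le hx Y hYW cod hcod hY (16 * epsk k / x * N)
    have h5 : epsk k * N - x * (16 * epsk k / x * N) / 8 ≤ -(k / 8 : ℝ) := by
      have : x * (16 * epsk k / x * N) = 16 * epsk k * N := by field_simp
      rw [this]
      linarith
    have h7 := h4.trans (Real.exp_le_exp.2 h5)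
    nlinarith [mul_le_mul_of_nonneg_left h7 hN0]

/-! ### thin samples of sparse sets -/

open Classical in
theorem sum_card_inter (p : α → ℝ) (G : Finset α) :
    ∑ A, w p A * ((A ∩ G).card : ℝ) = ∑ a ∈ G, p a := by
  have h1 : ∀ A : Finset α, ((A ∩ G).card : ℝ) = ∑ a ∈ G, (if a ∈ A then (1 : ℝ) else 0) := by
    intro A
    rw [Finset.sum_boole, Finset.filter_mem_eq_inter, Finset.inter_comm]
  simp only [h1, Finset.mul_sum]
  rw [Finset.sum_comm]
  refine Finset.sum_congr rfl fun a _ => ?_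
  have := sum_mem_mul p a (fun _ => 1) (fun _ _ _ => rfl)
  simpa [sum_w] using this

open Classical in
/-- in a set `G` which is `m`-sparse for `cl`, a thin sample harms few of its elements -/
theorem thin {p : α → ℝ} (h0 : ∀ a, 0 ≤ p a) (h1 : ∀ a, p a ≤ 1) {d m : ℝ} (hd0 : 0 ≤ d)
    (hm0 : 0 ≤ m) (G : Finset α) (hd : ∀ a ∈ G, p a ≤ d) (cl : Finset α → Finset α)
    (mono : ∀ {A B : Finset α}, A ⊆ B → cl A ⊆ cl B)
    (hs : ∀ A, A ⊆ G → ((G ∩ cl A).card : ℝ) ≤ m * A.card) :
    ∑ A, w p A * ((((A ∩ G).filter fun h => h ∈ cl ((A ∩ G).erase h)).card : ℕ) : ℝ) ≤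
      m * d ^ 2 * G.card := by
  have e1 : ∀ A : Finset α, ((((A ∩ G).filter fun h => h ∈ cl ((A ∩ G).erase h)).card : ℕ) : ℝ) =
      ∑ h ∈ G, ((if h ∈ A then (1 : ℝ) else 0) *
        (if h ∈ cl ((A ∩ G).erase h) then (1 : ℝ) else 0)) := by
    intro A
    have : ((A ∩ G).filter fun h => h ∈ cl ((A ∩ G).erase h)) =
        G.filter fun h => h ∈ A ∧ h ∈ cl ((A ∩ G).erase h) := by
      ext a; simp only [mem_filter, mem_inter]; tauto
    rw [this, ← Finset.sum_boole]
    refine Finset.sum_congr rfl fun a _ => ?_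
    by_cases ha : a ∈ A <;> by_cases hb : a ∈ cl ((A ∩ G).erase a) <;> simp [ha, hb]
  simp only [e1, Finset.mul_sum]
  rw [Finset.sum_comm]
  have e2 : ∀ h ∈ G, ∑ A, w p A * ((if h ∈ A then (1 : ℝ) else 0) *
        (if h ∈ cl ((A ∩ G).erase h) then (1 : ℝ) else 0)) ≤
      d * ∑ A, w p A * (if h ∈ cl (A ∩ G) then (1 : ℝ) else 0) := by
    intro h hh
    have hf := sum_mem_mul p h (fun A => if h ∈ cl ((A ∩ G).erase h) then (1 : ℝ) else 0) ?_
    · rw [hf]
      have h2 : ∑ A, w p A * (if h ∈ cl ((A ∩ G).erase h) then (1 : ℝ) else 0) ≤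
          ∑ A, w p A * (if h ∈ cl (A ∩ G) then (1 : ℝ) else 0) := by
        refine sum_split h0 h1 _ _ fun A => ?_
        by_cases h3 : h ∈ cl ((A ∩ G).erase h)
        · rw [if_pos h3, if_pos (mono (Finset.erase_subset _ _) h3)]
        · rw [if_neg h3]
          split <;> norm_num
      have h4 : 0 ≤ ∑ A, w p A * (if h ∈ cl (A ∩ G) then (1 : ℝ) else 0) := by
        refine Finset.sum_nonneg fun A _ => mul_nonneg (w_nonneg h0 h1 A) ?_
        split <;> norm_num
      exact mul_le_mul (hd h hh) h2 (Finset.sum_nonneg fun A _ =>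
        mul_nonneg (w_nonneg h0 h1 A) (by split <;> norm_num)) hd0
    · intro A A' hAA
      have : (A ∩ G).erase h = (A' ∩ G).erase h := by
        ext a
        simp only [mem_erase, mem_inter]
        constructor
        · rintro ⟨h1, h2, h3⟩; exact ⟨h1, (hAA a h1).1 h2, h3⟩
        · rintro ⟨h1, h2, h3⟩; exact ⟨h1, (hAA a h1).2 h2, h3⟩
      simp only [this]
  refine (Finset.sum_le_sum e2).trans ?_
  rw [← Finset.mul_sum, Finset.sum_comm]
  have e3 : ∑ A, ∑ h ∈ G, w p A * (if h ∈ cl (A ∩ G) then (1 : ℝ) else 0) ≤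
      ∑ A, w p A * (m * ((A ∩ G).card : ℝ)) := by
    refine Finset.sum_le_sum fun A _ => ?_
    rw [← Finset.mul_sum]
    refine mul_le_mul_of_nonneg_left ?_ (w_nonneg h0 h1 A)
    rw [Finset.sum_boole, Finset.filter_mem_eq_inter]
    exact hs _ Finset.inter_subset_right
  have e4 : ∑ A, w p A * (m * ((A ∩ G).card : ℝ)) ≤ m * (d * G.card) := by
    have : ∀ A : Finset α, w p A * (m * ((A ∩ G).card : ℝ)) = m * (w p A * ((A ∩ G).card : ℝ)) :=
      fun A => by ring
    simp only [this]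
    rw [← Finset.mul_sum, sum_card_inter]
    refine mul_le_mul_of_nonneg_left ?_ hm0
    calc ∑ a ∈ G, p a ≤ ∑ _a ∈ G, d := Finset.sum_le_sum hd
      _ = d * G.card := by rw [Finset.sum_const, nsmul_eq_mul, mul_comm]
  calc _ ≤ d * (m * (d * G.card)) := mul_le_mul_of_nonneg_left (e3.trans e4) hd0
    _ = _ := by ring

end Crest.Agent.R305.Un228
end

-- ▼ part R305/Flow_447
section

/-!
R305 / S0468: THEOREM B of doc 1793 (flow lemma; helper752/744/306), typed by helper447.
-/

set_option autoImplicit false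
set_option linter.unusedSectionVars false

namespace Crest.Agent.R305.Kd447

open Finset

namespace RankFn

variable {α : Type*} [DecidableEq α] [Fintype α] (M : RankFn α)

/-- the bad set of a double chain up to time `T` -/
def badSet (X E : ℕ → Finset α) (T : ℕ) : Finset α :=
  (range (T + 1)).biUnion (fun i => E i \ X i)

theorem mem_badSet {X E : ℕ → Finset α} {T : ℕ} {x : α} :
    x ∈ badSet X E T ↔ ∃ i ≤ T, x ∈ E i ∧ x ∉ X i := by
  simp [badSet]

theorem badSet_zero (X E : ℕ → Finset α) : badSet X E 0 = E 0 \ X 0 := by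
  ext x; simp [mem_badSet]

theorem badSet_subset {X E : ℕ → Finset α} (hE : Monotone E) (T : ℕ) : badSet X E T ⊆ E T := by
  intro x hx
  obtain ⟨i, hi, h1, -⟩ := mem_badSet.1 hx
  exact hE hi h1

theorem badSet_succ {X E : ℕ → Finset α} (hX : Monotone X) (T : ℕ) :
    badSet X E (T + 1) = badSet X E T ∪ (E (T + 1) \ (X (T + 1) ∪ E T)) := by
  ext x
  simp only [mem_union, mem_badSet, mem_sdiff, not_or]
  constructor
  · rintro ⟨i, hi, h1, h2⟩
    rcases Nat.lt_or_ge T i with h | h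
    · have hiT : i = T + 1 := by omega
      subst hiT
      by_cases hxT : x ∈ E T
      · exact Or.inl ⟨T, le_refl _, hxT, fun h' => h2 (hX (Nat.le_succ T) h')⟩
      · exact Or.inr ⟨h1, h2, hxT⟩
    · exact Or.inl ⟨i, h, h1, h2⟩
  · rintro (⟨i, hi, h1, h2⟩ | ⟨h1, h2, -⟩)
    · exact ⟨i, by omega, h1, h2⟩
    · exact ⟨T + 1, le_refl _, h1, h2⟩

/-- FLOW LEMMA, abstract form. `X i ⊆ E i` increasing, `X i` is `k`-sparse for `Z`, the increments of
`E` are `m`-dense for `W`. -/
theorem flow_abs {k m : ℕ} {Z W : Finset α} {X E : ℕ → Finset α}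
    (hX : Monotone X) (hE : Monotone E) (hXE : ∀ i, X i ⊆ E i)
    (hs : ∀ i, M.Sparse k Z (X i))
    (h0 : m * M.rr (X 0) (E 0) ≤ ((W ∩ E 0) \ X 0).card)
    (hd : ∀ i, m * M.rr (E i ∪ X (i + 1)) (E (i + 1)) ≤
      ((W ∩ E (i + 1)) \ (E i ∪ X (i + 1))).card) (T : ℕ) :
    m * (k * M.rr (X T) (E T)) + m * (Z ∩ badSet X E T).card ≤
      m * ((Z ∩ E T) \ X T).card + k * (W ∩ badSet X E T).card := by
  induction T with
  | zero =>
    rw [badSet_zero]
    have e1 : Z ∩ (E 0 \ X 0) = (Z ∩ E 0) \ X 0 := by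
      ext x; simp only [mem_inter, mem_sdiff]; tauto
    have e2 : W ∩ (E 0 \ X 0) = (W ∩ E 0) \ X 0 := by
      ext x; simp only [mem_inter, mem_sdiff]; tauto
    rw [e1, e2]
    have := Nat.mul_le_mul_left k h0
    have h3 : m * (k * M.rr (X 0) (E 0)) = k * (m * M.rr (X 0) (E 0)) := by ring
    omega
  | succ T ih =>
    set N := E (T + 1) \ (X (T + 1) ∪ E T) with hN
    have hTT := Nat.le_succ T
    -- submodularity
    have s1 := M.submod (E T) (X (T + 1))
    have hXsub : X T ⊆ E T ∩ X (T + 1) := subset_inter (hXE T) (hX hTT)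
    have r1 := M.r_add_rr_of_subset hXsub
    have r2 := M.r_add_rr_of_subset (hXE T)
    have r3 := M.r_add_rr_of_subset (subset_union_right (s₁ := E T) (s₂ := X (T + 1)))
    -- rr (X (T+1)) (E T ∪ X (T+1)) + rr (X T) (E T ∩ X (T+1)) ≤ rr (X T) (E T)
    have s2 : M.rr (X (T + 1)) (E T ∪ X (T + 1)) + M.rr (X T) (E T ∩ X (T + 1)) ≤
        M.rr (X T) (E T) := by omega
    -- sparse at X T
    have s3 : ((Z ∩ (E T ∩ X (T + 1))) \ X T).card ≤ k * M.rr (X T) (E T ∩ X (T + 1)) :=
      ((hs T).le inter_subset_left).trans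
        (Nat.mul_le_mul_left k (M.rr_mono _ inter_subset_right))
    -- chain through U = E T ∪ X (T+1)
    have hU : E T ∪ X (T + 1) ⊆ E (T + 1) := union_subset (hE hTT) (hXE _)
    have s4 := M.rr_trans (subset_union_right (s₁ := E T) (s₂ := X (T + 1))) hU
    -- cardinalities
    have c1 : ((Z ∩ (E T ∩ X (T + 1))) \ X T).card + ((Z ∩ E T) \ X (T + 1)).card =
        ((Z ∩ E T) \ X T).card := by
      rw [← card_union_of_disjoint]
      · congr 1
        ext x
        simp only [mem_union, mem_sdiff, mem_inter]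
        have := @hX _ _ hTT x
        tauto
      · rw [disjoint_left]
        intro x hx hx'
        simp only [mem_sdiff, mem_inter] at hx hx'
        exact hx'.2 hx.1.2.2
    have c2 : ((Z ∩ E (T + 1)) \ X (T + 1)).card =
        ((Z ∩ E T) \ X (T + 1)).card + (Z ∩ N).card := by
      rw [← card_union_of_disjoint]
      · congr 1
        ext x
        simp only [hN, mem_union, mem_sdiff, mem_inter, not_or]
        have := @hE _ _ hTT x
        tauto
      · rw [disjoint_left]
        intro x hx hx'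
        simp only [hN, mem_sdiff, mem_inter, mem_union, not_or] at hx hx'
        exact hx'.2.2.2 hx.1.2
    have c3 : (W ∩ E (T + 1)) \ (E T ∪ X (T + 1)) = W ∩ N := by
      ext x; simp only [hN, mem_union, mem_sdiff, mem_inter, not_or]; tauto
    have hdis : Disjoint (badSet X E T) N := by
      rw [disjoint_left]
      intro x hx hx'
      have := badSet_subset hE T hx
      simp only [hN, mem_sdiff, mem_union, not_or] at hx'
      exact hx'.2.2 this
    have c4 : (Z ∩ badSet X E (T + 1)).card = (Z ∩ badSet X E T).card + (Z ∩ N).card := by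
      rw [badSet_succ hX, inter_union_distrib_left, card_union_of_disjoint]
      exact hdis.mono inter_subset_right inter_subset_right
    have c5 : (W ∩ badSet X E (T + 1)).card = (W ∩ badSet X E T).card + (W ∩ N).card := by
      rw [badSet_succ hX, inter_union_distrib_left, card_union_of_disjoint]
      exact hdis.mono inter_subset_right inter_subset_right
    have hd' := hd T
    rw [c3] at hd'
    rw [c4, c5, c2, s4]
    -- now arithmetic
    set a := M.rr (X (T + 1)) (E T ∪ X (T + 1))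
    set b := M.rr (E T ∪ X (T + 1)) (E (T + 1))
    set c := M.rr (X T) (E T)
    set d := M.rr (X T) (E T ∩ X (T + 1))
    have k1 : k * a + k * d ≤ k * c := by rw [← Nat.mul_add]; exact Nat.mul_le_mul_left k s2
    have k2 : m * (k * a) + m * (k * d) ≤ m * (k * c) := by
      rw [← Nat.mul_add]; exact Nat.mul_le_mul_left m k1
    have k3 := Nat.mul_le_mul_left m s3
    have k4 : k * (m * b) ≤ k * (W ∩ N).card := Nat.mul_le_mul_left k hd'
    have k5 : m * ((Z ∩ (E T ∩ X (T + 1))) \ X T).card + m * ((Z ∩ E T) \ X (T + 1)).card =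
        m * ((Z ∩ E T) \ X T).card := by rw [← Nat.mul_add, c1]
    have k6 : m * (k * (a + b)) = m * (k * a) + k * (m * b) := by ring
    rw [k6, Nat.mul_add m, Nat.mul_add m, Nat.mul_add k]
    omega

/-- THEOREM B (flow lemma) for `k`-dense closures: `m |Z ∩ B| ≤ k |W ∩ B|`. -/
theorem flow {k m : ℕ} (Z W : Finset α) {f : ℕ → Finset α} (hf : Monotone f) (T : ℕ) :
    m * (Z ∩ badSet (fun i => M.kc k Z (f i)) (fun i => M.kc m W (M.kc k Z (f i))) T).card ≤
      k * (W ∩ badSet (fun i => M.kc k Z (f i)) (fun i => M.kc m W (M.kc k Z (f i))) T).card := by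
  set X : ℕ → Finset α := fun i => M.kc k Z (f i) with hXdef
  set E : ℕ → Finset α := fun i => M.kc m W (X i) with hEdef
  have hX : Monotone X := fun i j h => M.kc_mono (Subset.refl _) (hf h)
  have hE : Monotone E := fun i j h => M.kc_mono (Subset.refl _) (hX h)
  have hXE : ∀ i, X i ⊆ E i := fun i => M.subset_kc m W (X i)
  have hs : ∀ i, M.Sparse k Z (X i) := fun i => M.kc_sparse k Z (f i)
  have h0 : m * M.rr (X 0) (E 0) ≤ ((W ∩ E 0) \ X 0).card :=
    M.kc_dense_flat (Subset.refl _) (hXE 0) (M.kc_flat k Z (f 0))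
  have hd : ∀ i, m * M.rr (E i ∪ X (i + 1)) (E (i + 1)) ≤
      ((W ∩ E (i + 1)) \ (E i ∪ X (i + 1))).card := by
    intro i
    have hU : E i ∪ X (i + 1) ⊆ E (i + 1) := union_subset (hE (Nat.le_succ i)) (hXE _)
    have hcl : M.cl (E i ∪ X (i + 1)) ⊆ E (i + 1) := (M.kc_flat _ _ _).cl_subset hU
    have h := M.kc_dense_flat (k := m) (Z := W) (F := X (i + 1)) (G := M.cl (E i ∪ X (i + 1)))
      (subset_union_right.trans (M.subset_cl _)) hcl (M.flat_cl _)
    rw [M.rr_cl_left] at h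
    exact h.trans (card_le_card (sdiff_subset_sdiff (Subset.refl _) (M.subset_cl _)))
  have hmain := M.flow_abs (k := k) (m := m) (Z := Z) (W := W) hX hE hXE hs h0 hd T
  have hle : ((Z ∩ E T) \ X T).card ≤ k * M.rr (X T) (E T) :=
    ((hs T).le inter_subset_left).trans (Nat.mul_le_mul_left k (M.rr_mono _ inter_subset_right))
  have := Nat.mul_le_mul_left m hle
  omega





end RankFn

end Crest.Agent.R305.Kd447
end

-- ▼ part R305/Ocp_228
section

/-!
# R305, block L2 (helper228): the one-class problem, assembly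

`E` class, `O ⊆ E` the part to be served, `g Z` the pilot used for the `K`-dense closure
(`Z ∩ O ⊆ g Z ⊆ Z ∩ E`), `f` an increasing chain, `X Z i = kc K (g Z) (f i)`.

* `harm_le` : pointwise bound of the harmed elements
* `harm_exp_le` : expectation over the thin sample
* `ocp_of` : the expected number of harmed elements, given codes and the flow inequality
* `ocp_code` : **L2** of helper137, given codes of the chains (`CodeP`)
-/

set_option autoImplicit false
set_option linter.unusedSectionVars false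

namespace Crest.Agent.R305.Ocp228

open Finset Crest.Agent.R305.Dep310 Crest.Agent.R305.Un228 Crest.Agent.R305.Kd447

variable {α : Type*} [Fintype α] [DecidableEq α] (R : RankFn α)

/-- the `m`-dense closure in `O` of the chain element `i` -/
noncomputable def EE (m : ℕ) (O : Finset α) (X : ℕ → Finset α) (i : ℕ) : Finset α :=
  R.kc m O (X i)

/-- the dense parts of the rows -/
noncomputable def BB (m T : ℕ) (O : Finset α) (X : ℕ → Finset α) : Finset α :=
  (range (T + 1)).biUnion fun i => EE R m O X i \ X i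

/-- the sparse part of the row `i` -/
noncomputable def GG (m : ℕ) (O : Finset α) (X : ℕ → Finset α) (i : ℕ) : Finset α :=
  (O ∩ X (i + 1)) \ EE R m O X i

open Classical in
/-- the harmed elements of the online set `H` -/
noncomputable def harm (O : Finset α) (X : ℕ → Finset α) (H : Finset α) : Finset α :=
  (H ∩ O).filter fun h => ∃ i, h ∈ X (i + 1) ∧ h ∉ X i ∧
    h ∈ R.cl (X i ∪ ((H ∩ O ∩ X (i + 1)).erase h))

variable {R}

theorem subset_EE (m : ℕ) (O : Finset α) (X : ℕ → Finset α) (i : ℕ) : X i ⊆ EE R m O X i :=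
  R.subset_kc m O (X i)

theorem harm_subset {m T : ℕ} {O : Finset α} {X : ℕ → Finset α}
    (hT : ∀ i, T ≤ i → X (i + 1) = X i) (H : Finset α) :
    harm R O X H ⊆ (H ∩ (O ∩ BB R m T O X)) ∪
      (range (T + 1)).biUnion fun i => (H ∩ GG R m O X i).filter fun h =>
        h ∈ R.cl (EE R m O X i ∪ ((H ∩ GG R m O X i).erase h)) := by
  classical
  intro h hh
  simp only [harm, mem_filter, mem_inter] at hh
  obtain ⟨⟨hH, hO⟩, i, hi1, hi2, hcl⟩ := hh
  have hiT : i < T + 1 := by
    by_contra hc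
    have := hT i (by omega)
    rw [this] at hi1
    exact hi2 hi1
  simp only [mem_union, mem_inter, mem_biUnion, mem_filter, mem_range]
  by_cases hE : h ∈ EE R m O X i
  · left
    refine ⟨hH, hO, ?_⟩
    simp only [BB, mem_biUnion, mem_range, mem_sdiff]
    exact ⟨i, hiT, hE, hi2⟩
  · right
    refine ⟨i, hiT, ⟨hH, ?_⟩, ?_⟩
    · simp only [GG, mem_sdiff, mem_inter]
      exact ⟨⟨hO, hi1⟩, hE⟩
    · have hsub : X i ∪ ((H ∩ O ∩ X (i + 1)).erase h) ⊆
          EE R m O X i ∪ ((H ∩ GG R m O X i).erase h) := by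
        intro a ha
        simp only [mem_union, mem_erase, mem_inter] at ha ⊢
        rcases ha with ha | ⟨ha1, ⟨ha2, ha3⟩, ha4⟩
        · exact Or.inl (subset_EE m O X i ha)
        · by_cases haE : a ∈ EE R m O X i
          · exact Or.inl haE
          · refine Or.inr ⟨ha1, ha2, ?_⟩
            simp only [GG, mem_sdiff, mem_inter]
            exact ⟨⟨ha3, ha4⟩, haE⟩
      exact R.cl_mono hsub hcl

theorem sparse_GG (m : ℕ) (O : Finset α) (X : ℕ → Finset α) (i : ℕ) (Z A : Finset α) :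
    (((GG R m O X i \ Z) ∩ R.cl (EE R m O X i ∪ A)).card : ℝ) ≤ (m : ℝ) * A.card := by
  set S := (GG R m O X i \ Z) ∩ R.cl (EE R m O X i ∪ A) with hS
  have hSO : S ⊆ O := by
    intro a ha
    simp only [hS, GG, mem_inter, mem_sdiff] at ha
    exact ha.1.1.1.1
  have hSE : S \ EE R m O X i = S := by
    refine sdiff_eq_self_of_disjoint ?_
    rw [Finset.disjoint_left]
    intro a ha hE
    simp only [hS, GG, mem_inter, mem_sdiff] at ha
    exact ha.1.1.2 hE
  have h1 := (R.kc_sparse m O (X i)).le hSO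
  have h1' : (S \ EE R m O X i).card ≤ m * R.rr (EE R m O X i) S := h1
  rw [hSE] at h1'
  have h2 : R.rr (EE R m O X i) S ≤ R.rr (EE R m O X i) A := by
    rw [← R.rr_cl_union (EE R m O X i) A]
    exact R.rr_mono _ inter_subset_right
  have h3 := R.rr_le_card (EE R m O X i) A
  have h4 : S.card ≤ m * A.card := h1'.trans (Nat.mul_le_mul_left _ (h2.trans h3))
  exact_mod_cast h4

theorem sum_GG_le (m T : ℕ) (O : Finset α) {X : ℕ → Finset α} (hX : Monotone X) :
    ∑ i ∈ range (T + 1), (GG R m O X i).card ≤ O.card := by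
  have hd : ∀ i ∈ range (T + 1), ∀ j ∈ range (T + 1), i ≠ j →
      Disjoint (GG R m O X i) (GG R m O X j) := by
    have key : ∀ i j, i < j → Disjoint (GG R m O X i) (GG R m O X j) := by
      intro i j hij
      rw [Finset.disjoint_left]
      intro a hi hj
      simp only [GG, mem_inter, mem_sdiff] at hi hj
      exact hj.2 (subset_EE m O X j (hX (Nat.succ_le_of_lt hij) hi.1.2))
    intro i _ j _ hij
    rcases lt_or_gt_of_ne hij with h | h
    · exact key i j h
    · exact (key j i h).symm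
  rw [← card_biUnion hd]
  refine card_le_card ?_
  intro a ha
  simp only [mem_biUnion, GG, mem_sdiff, mem_inter] at ha
  obtain ⟨_, _, h, _⟩ := ha
  exact h.1

open Classical in
theorem harm_exp_le {m T : ℕ} {O : Finset α} {X : ℕ → Finset α} (hX : Monotone X)
    (hT : ∀ i, T ≤ i → X (i + 1) = X i) {p : ℝ} (hp0 : 0 ≤ p) (hp1 : p ≤ 1) (Z : Finset α) :
    ∑ B, w (fun _ => p) B * ((harm R O X (B \ Z)).card : ℝ) ≤
      p * (((O ∩ BB R m T O X).card : ℝ) + m * p * O.card) := by
  have h0 : ∀ _a : α, 0 ≤ p := fun _ => hp0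
  have h1 : ∀ _a : α, p ≤ 1 := fun _ => hp1
  have e1 : ∀ B : Finset α, ((harm R O X (B \ Z)).card : ℝ) ≤
      ((B ∩ ((O ∩ BB R m T O X) \ Z)).card : ℝ) +
      ∑ i ∈ range (T + 1), ((((B ∩ (GG R m O X i \ Z)).filter fun h =>
        h ∈ R.cl (EE R m O X i ∪ ((B ∩ (GG R m O X i \ Z)).erase h))).card : ℕ) : ℝ) := by
    intro B
    have h2 := card_le_card (harm_subset (R := R) (m := m) (T := T) (O := O) hT (B \ Z))
    have h3 := (h2.trans (card_union_le _ _)).trans
      (Nat.add_le_add_left card_biUnion_le _)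
    have h4 : ∀ G : Finset α, (B \ Z) ∩ G = B ∩ (G \ Z) := by
      intro G; ext a; simp only [mem_inter, mem_sdiff]; tauto
    simp only [h4] at h3
    exact_mod_cast h3
  have e2 : ∑ B, w (fun _ : α => p) B * ((B ∩ ((O ∩ BB R m T O X) \ Z)).card : ℝ) ≤
      p * (O ∩ BB R m T O X).card := by
    rw [Un228.sum_card_inter, Finset.sum_const, nsmul_eq_mul, mul_comm]
    refine mul_le_mul_of_nonneg_left ?_ hp0
    exact_mod_cast card_le_card sdiff_subset
  have e3 : ∀ i, ∑ B, w (fun _ : α => p) B * ((((B ∩ (GG R m O X i \ Z)).filter fun h =>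
        h ∈ R.cl (EE R m O X i ∪ ((B ∩ (GG R m O X i \ Z)).erase h))).card : ℕ) : ℝ) ≤
      m * p ^ 2 * (GG R m O X i).card := by
    intro i
    have h5 := thin h0 h1 (d := p) (m := (m : ℝ)) hp0 (by positivity) (GG R m O X i \ Z)
      (fun _ _ => le_rfl) (fun A => R.cl (EE R m O X i ∪ A))
      (fun {A B} h => R.cl_mono (union_subset_union_right h))
      (fun A _ => sparse_GG m O X i Z A)
    refine h5.trans ?_
    refine mul_le_mul_of_nonneg_left ?_ (by positivity)
    exact_mod_cast card_le_card sdiff_subset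
  calc ∑ B, w (fun _ => p) B * ((harm R O X (B \ Z)).card : ℝ)
      ≤ ∑ B, w (fun _ => p) B * (((B ∩ ((O ∩ BB R m T O X) \ Z)).card : ℝ) +
      ∑ i ∈ range (T + 1), ((((B ∩ (GG R m O X i \ Z)).filter fun h =>
        h ∈ R.cl (EE R m O X i ∪ ((B ∩ (GG R m O X i \ Z)).erase h))).card : ℕ) : ℝ)) :=
        sum_split h0 h1 _ _ e1
    _ = ∑ B, w (fun _ => p) B * ((B ∩ ((O ∩ BB R m T O X) \ Z)).card : ℝ) +
      ∑ i ∈ range (T + 1), ∑ B, w (fun _ => p) B *
        ((((B ∩ (GG R m O X i \ Z)).filter fun h =>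
        h ∈ R.cl (EE R m O X i ∪ ((B ∩ (GG R m O X i \ Z)).erase h))).card : ℕ) : ℝ) := by
        simp only [mul_add, Finset.sum_add_distrib, Finset.mul_sum]
        rw [Finset.sum_comm (s := univ) (t := range (T + 1))]
    _ ≤ p * (O ∩ BB R m T O X).card + ∑ i ∈ range (T + 1), m * p ^ 2 * (GG R m O X i).card :=
        add_le_add e2 (Finset.sum_le_sum fun i _ => e3 i)
    _ ≤ _ := by
        rw [← Finset.mul_sum]
        have h6 : (∑ i ∈ range (T + 1), ((GG R m O X i).card : ℝ)) ≤ O.card := by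
          exact_mod_cast sum_GG_le m T O hX
        have h7 : (0 : ℝ) ≤ m * p ^ 2 := by positivity
        nlinarith [mul_le_mul_of_nonneg_left h6 h7]

/-- the dense part is empty or has at least `m` elements of `O` -/
theorem card_BB {m T : ℕ} {O : Finset α} {X : ℕ → Finset α} (hfl : ∀ i, R.Flat (X i)) :
    O ∩ BB R m T O X = ∅ ∨ m ≤ (O ∩ BB R m T O X).card := by
  by_cases h : ∃ i ∈ range (T + 1), (EE R m O X i \ X i).Nonempty
  · obtain ⟨i, hi, hne⟩ := h
    right
    have h1 := R.kc_dense_flat (k := m) (Z := O) (F := X i) (G := X i) Subset.rfl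
      (R.subset_kc m O (X i)) (hfl i)
    have h2 : 1 ≤ R.rr (X i) (R.kc m O (X i)) := by
      by_contra hc
      have h3 : R.rr (X i) (R.kc m O (X i)) = 0 := by omega
      rw [← R.subset_cl_iff_rr, (hfl i).cl_eq] at h3
      obtain ⟨a, ha⟩ := hne
      rw [mem_sdiff] at ha
      exact ha.2 (h3 ha.1)
    have h4 : (O ∩ R.kc m O (X i)) \ X i ⊆ O ∩ BB R m T O X := by
      intro a ha
      simp only [mem_sdiff, mem_inter] at ha
      simp only [BB, mem_inter, mem_biUnion, mem_sdiff]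
      exact ⟨ha.1.1, i, hi, ha.1.2, ha.2⟩
    have h5 := card_le_card h4
    have h6 : m ≤ m * R.rr (X i) (R.kc m O (X i)) := Nat.le_mul_of_pos_right _ h2
    omega
  · left
    push Not at h
    ext a
    simp only [BB, mem_inter, mem_biUnion, notMem_empty, iff_false, not_and, not_exists]
    intro _ i hi ha
    have := h i hi
    rw [this] at ha
    exact absurd ha (notMem_empty a)

/-- the harmed fraction caused by the dense part -/
noncomputable def eta (K : ℕ) (x : ℝ) : ℝ := 16 * epsk K / x + Real.exp (-(K / 8 : ℝ))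

open Classical in
/-- **L2 given codes and the flow inequality.** -/
theorem ocp_of {K m T : ℕ} (hK : 1 ≤ K) {x p : ℝ} (hx0 : 0 < x) (hx1 : x ≤ 1) (hp0 : 0 ≤ p)
    (hp1 : p ≤ 1) (hm : 2 * (K : ℝ) ≤ x * m) {E O : Finset α} (hO : O ⊆ E)
    {g : Finset α → Finset α} (hg2 : ∀ Z, Z ∩ O ⊆ g Z) {f : ℕ → Finset α}
    (hf : Monotone f) (hT : ∀ i, T ≤ i → f (i + 1) = f i)
    (cod : Finset α → Cd α) (dec : Cd α → ℕ → Finset α) (hcod : ∀ Z, IsCode K E (cod Z))
    (hdec : ∀ Z i, i ≤ T → dec (cod Z) i = R.kc K (g Z) (f i))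
    (hflow : ∀ Z, m * (g Z ∩ BB R m T O fun i => R.kc K (g Z) (f i)).card ≤
      K * (O ∩ BB R m T O fun i => R.kc K (g Z) (f i)).card) :
    ∑ Z, ∑ B, w (fun _ => x) Z * w (fun _ => p) B *
      ((harm R O (fun i => R.kc K (g Z) (f i)) (B \ Z)).card : ℝ) ≤
      p * (eta K x * E.card + m * p * O.card) := by
  have h0 : ∀ _a : α, 0 ≤ x := fun _ => hx0.le
  have h1 : ∀ _a : α, x ≤ 1 := fun _ => hx1
  have hm0 : (0 : ℝ) < m := by
    have : (0 : ℝ) < 2 * K := by positivity
    nlinarith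
  set X : Finset α → ℕ → Finset α := fun Z i => R.kc K (g Z) (f i) with hX
  have hXm : ∀ Z, Monotone (X Z) := fun Z i j hij => R.kc_mono Subset.rfl (hf hij)
  have hXT : ∀ Z i, T ≤ i → X Z (i + 1) = X Z i := fun Z i hi => by
    simp only [hX, hT i hi]
  have hfl : ∀ Z i, R.Flat (X Z i) := fun Z i => R.kc_flat _ _ _
  set Y : Cd α → Finset α := fun c => O ∩ BB R m T O (dec c) with hY
  have hYe : ∀ Z, Y (cod Z) = O ∩ BB R m T O (X Z) := by
    intro Z
    simp only [hY]
    congr 1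
    unfold BB EE
    refine Finset.biUnion_congr rfl fun i hi => ?_
    rw [mem_range] at hi
    rw [hdec Z i (by omega)]
  have e1 : ∀ Z, ∑ B, w (fun _ => p) B * ((harm R O (X Z) (B \ Z)).card : ℝ) ≤
      p * (((Y (cod Z)).card : ℝ) + m * p * O.card) := by
    intro Z
    rw [hYe Z]
    exact harm_exp_le (hXm Z) (hXT Z) hp0 hp1 Z
  have e2 := EY_le h0 h1 hK (W := E) hx0 (fun _ _ => le_rfl) Y
    (fun c => inter_subset_left.trans hO) cod hcod ?_ ?_
  · calc ∑ Z, ∑ B, w (fun _ => x) Z * w (fun _ => p) B * ((harm R O (X Z) (B \ Z)).card : ℝ)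
        = ∑ Z, w (fun _ => x) Z * ∑ B, w (fun _ => p) B *
          ((harm R O (X Z) (B \ Z)).card : ℝ) := by
          refine Finset.sum_congr rfl fun Z _ => ?_
          rw [Finset.mul_sum]
          exact Finset.sum_congr rfl fun B _ => by ring
      _ ≤ ∑ Z, w (fun _ => x) Z * (p * (((Y (cod Z)).card : ℝ) + m * p * O.card)) :=
          sum_split h0 h1 _ _ e1
      _ = p * (∑ Z, w (fun _ => x) Z * ((Y (cod Z)).card : ℝ) + m * p * O.card) := by
          have : ∀ Z, w (fun _ : α => x) Z * (p * (((Y (cod Z)).card : ℝ) + m * p * O.card)) =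
              p * (w (fun _ => x) Z * ((Y (cod Z)).card : ℝ)) +
              w (fun _ => x) Z * (p * (m * p * O.card)) := fun Z => by ring
          simp only [this]
          rw [Finset.sum_add_distrib, ← Finset.mul_sum, ← Finset.sum_mul, sum_w]
          ring
      _ ≤ _ := by
          refine mul_le_mul_of_nonneg_left ?_ hp0
          have : eta K x = 16 * epsk K / x + Real.exp (-(K / 8 : ℝ)) := rfl
          rw [this]
          linarith
  · intro Z
    rw [hYe Z]
    have h3 : (Z ∩ (O ∩ BB R m T O (X Z))).card ≤ (g Z ∩ BB R m T O (X Z)).card := by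
      refine card_le_card fun a ha => ?_
      simp only [mem_inter] at ha ⊢
      exact ⟨hg2 Z (mem_inter.2 ⟨ha.1, ha.2.1⟩), ha.2.2⟩
    have h4 : (m : ℝ) * (g Z ∩ BB R m T O (X Z)).card ≤ K * (O ∩ BB R m T O (X Z)).card := by
      exact_mod_cast hflow Z
    have h3' : ((Z ∩ (O ∩ BB R m T O (X Z))).card : ℝ) ≤ (g Z ∩ BB R m T O (X Z)).card := by
      exact_mod_cast h3
    have h5 : (0 : ℝ) ≤ (O ∩ BB R m T O (X Z)).card := by positivity
    have h6 : (m : ℝ) * (Z ∩ (O ∩ BB R m T O (X Z))).card ≤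
        m * (x / 2 * (O ∩ BB R m T O (X Z)).card) := by
      calc (m : ℝ) * (Z ∩ (O ∩ BB R m T O (X Z))).card
          ≤ m * (g Z ∩ BB R m T O (X Z)).card := mul_le_mul_of_nonneg_left h3' hm0.le
        _ ≤ K * (O ∩ BB R m T O (X Z)).card := h4
        _ ≤ _ := by nlinarith [mul_le_mul_of_nonneg_right hm h5]
    exact le_of_mul_le_mul_left h6 hm0
  · intro Z
    rw [hYe Z]
    rcases card_BB (m := m) (T := T) (O := O) (hfl Z) with h | h
    · exact Or.inl h
    · right
      have h7 : (m : ℝ) ≤ (O ∩ BB R m T O (X Z)).card := by exact_mod_cast h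
      nlinarith [mul_le_mul_of_nonneg_left h7 hx0.le]

/-- a monotone chain of finite sets is eventually constant -/
theorem exists_const {f : ℕ → Finset α} (hf : Monotone f) : ∃ T, ∀ i, T ≤ i → f (i + 1) = f i := by
  obtain ⟨T, hT⟩ := WellFoundedGT.monotone_chain_condition (⟨f, hf⟩ : ℕ →o Finset α)
  refine ⟨T, fun i hi => ?_⟩
  have h1 := hT i hi
  have h2 := hT (i + 1) (by omega)
  simp only [OrderHom.coe_mk] at h1 h2
  rw [← h2, ← h1]

/-- codes of the chains `i ↦ kc K V (f i)`, `i ≤ T`, for all `V ⊆ E` -/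
def CodeP (R : RankFn α) (K : ℕ) (E : Finset α) (f : ℕ → Finset α) (T : ℕ) : Prop :=
  ∃ (cod : Finset α → Cd α) (dec : Cd α → ℕ → Finset α), ∀ V, V ⊆ E →
    IsCode K E (cod V) ∧ ∀ i, i ≤ T → dec (cod V) i = R.kc K V (f i)

open Classical in
/-- **L2 given the codes** -/
theorem ocp_code {K m : ℕ} (hK : 1 ≤ K) {x p : ℝ} (hx0 : 0 < x) (hx1 : x ≤ 1) (hp0 : 0 ≤ p)
    (hp1 : p ≤ 1) (hm : 2 * (K : ℝ) ≤ x * m) {E O : Finset α} (hO : O ⊆ E)
    {g : Finset α → Finset α} (hg1 : ∀ Z, g Z ⊆ Z ∩ E) (hg2 : ∀ Z, Z ∩ O ⊆ g Z)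
    {f : ℕ → Finset α} (hf : Monotone f) (hcode : ∀ T, CodeP R K E f T) :
    ∑ Z, ∑ B, w (fun _ => x) Z * w (fun _ => p) B *
      (((((B \ Z) ∩ O).filter fun h => ∃ i, h ∈ R.kc K (g Z) (f (i + 1)) ∧
        h ∉ R.kc K (g Z) (f i) ∧ h ∈ R.cl (R.kc K (g Z) (f i) ∪
          (((B \ Z) ∩ O ∩ R.kc K (g Z) (f (i + 1))).erase h))).card : ℕ) : ℝ) ≤
      p * (eta K x * E.card + m * p * O.card) := by
  obtain ⟨T, hT⟩ := exists_const hf
  obtain ⟨cod, dec, h⟩ := hcode T
  have hgE : ∀ Z, g Z ⊆ E := fun Z => (hg1 Z).trans inter_subset_right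
  exact ocp_of (R := R) hK hx0 hx1 hp0 hp1 hm hO hg2 hf hT (fun Z => cod (g Z)) dec
    (fun Z => (h (g Z) (hgE Z)).1) (fun Z i hi => (h (g Z) (hgE Z)).2 i hi)
    (fun Z => R.flow (g Z) O hf T)

end Crest.Agent.R305.Ocp228
end

-- ▼ part R305/Fcz_310
section

/-!
# R305: the chain of `Fcr_310` looks only at the lower classes of `A`, `B`, `Zs`

`fl`, `gl` at level `n` depend on `A`, `B` of the classes `< n` and on `Zs m`, `m < n`;
`S_t`, `D_t` inside the class `n` depend on `A` of the classes `< n` and on `Zs m`, `m ≤ n`.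
-/

set_option autoImplicit false

namespace Crest.Agent.R305.Fcz310

open Finset Dep310 Fcl310 Kd447 Fcr310

variable {α : Type*} [DecidableEq α] [Fintype α]
variable {M : RankFn α} {cls : α → ℕ} {k : ℕ} {Zs Zs' : ℕ → Finset α}

theorem flat_congr {n : ℕ} (hZ : ∀ m < n, Zs m = Zs' m) {S T : Finset α}
    (h : ∀ a, cls a < n → (a ∈ S ↔ a ∈ T)) :
    flat (rankData M cls k Zs) n S = flat (rankData M cls k Zs') n T := by
  induction n with
  | zero =>
    rw [flat_zero, flat_zero, rankData_cl, rankData_cl]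
  | succ n ih =>
    have h1 := ih (fun m hm => hZ m (by omega)) (fun a ha => h a (by omega))
    have h2 : (S.filter fun a => (rankData M cls k Zs).cls a = n) =
        T.filter fun a => (rankData M cls k Zs').cls a = n := by
      ext a
      rw [mem_filter, mem_filter, rankData_cls, rankData_cls]
      constructor
      · rintro ⟨ha, hn⟩; exact ⟨(h a (by omega)).1 ha, hn⟩
      · rintro ⟨ha, hn⟩; exact ⟨(h a (by omega)).2 ha, hn⟩
    have h3 : (rankData M cls k Zs).c n (flat (rankData M cls k Zs) n S) =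
        (rankData M cls k Zs').c n (flat (rankData M cls k Zs') n T) := by
      rw [rankData_c, rankData_c, h1, hZ n (by omega)]
    rw [flat_succ, flat_succ, h2, h3, rankData_cl, rankData_cl]

theorem mem_K_congr {j : ℕ} (hZ : ∀ m ≤ j, Zs m = Zs' m) {S T : Finset α}
    (h : ∀ a, cls a < j → (a ∈ S ↔ a ∈ T)) {z : α} (hz : cls z ≤ j) :
    z ∈ K (rankData M cls k Zs) S ↔ z ∈ K (rankData M cls k Zs') T := by
  rw [mem_K, mem_K]
  simp only [rankData_c, rankData_cls]
  rw [flat_congr (fun m hm => hZ m (by omega)) (fun a ha => h a (by omega)), hZ _ hz]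

theorem mem_St_congr {j : ℕ} (hZ : ∀ m ≤ j, Zs m = Zs' m) {A A' : Finset α}
    (hA : ∀ a, cls a < j → (a ∈ A ↔ a ∈ A')) (t : ℕ) {z : α} (hz : cls z ≤ j) :
    z ∈ St (rankData M cls k Zs) A t ↔ z ∈ St (rankData M cls k Zs') A' t := by
  induction t generalizing z with
  | zero => simp [St_zero]
  | succ t ih =>
    rw [St_succ, St_succ, mem_inter, mem_inter, ih hz]
    refine and_congr_right fun _ => mem_K_congr hZ ?_ hz
    intro a ha
    rw [mem_inter, mem_inter, ih (z := a) ha.le, hA a ha]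


theorem fl_congr {n : ℕ} (hZ : ∀ m < n, Zs m = Zs' m) {A A' : Finset α}
    (hA : ∀ a, cls a < n → (a ∈ A ↔ a ∈ A')) (t : ℕ) :
    fl (rankData M cls k Zs) A t n = fl (rankData M cls k Zs') A' t n := by
  unfold fl
  refine flat_congr hZ fun a ha => ?_
  have h1 : a ∈ St (rankData M cls k Zs) A t ↔ a ∈ St (rankData M cls k Zs') A' t :=
    mem_St_congr (j := cls a) (fun m hm => hZ m (by omega)) (fun b hb => hA b (by omega)) t le_rfl
  rw [mem_inter, mem_inter, hA a ha, h1]

theorem gl_congr {n : ℕ} (hZ : ∀ m < n, Zs m = Zs' m) {A A' B B' : Finset α}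
    (hA : ∀ a, cls a < n → (a ∈ A ↔ a ∈ A')) (hB : ∀ a, cls a < n → (a ∈ B ↔ a ∈ B')) (t : ℕ) :
    gl (rankData M cls k Zs) A B t n = gl (rankData M cls k Zs') A' B' t n := by
  unfold gl
  refine flat_congr hZ fun a ha => ?_
  have h1 : ∀ t, a ∈ St (rankData M cls k Zs) A t ↔ a ∈ St (rankData M cls k Zs') A' t := fun t =>
    mem_St_congr (j := cls a) (fun m hm => hZ m (by omega)) (fun b hb => hA b (by omega)) t le_rfl
  simp only [mem_union, mem_inter, Dt, mem_sdiff, h1, hA a ha, hB a ha]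


end Crest.Agent.R305.Fcz310
end

-- ▼ part R305/Harm_310
section

/-!
# R305 top assembly, P2: the expected number of harmed elements (helper310)

For fixed `T` and class `n`, the chain `phi` of lower-class flats looks at `Z`, `B` outside the
class `n` only; the harmed event of `Ocp_228` looks at `Z`, `B` inside the class `n` only. Resampling
`Z`, `B` inside the class gives `E |harmed| ≤ p (eta |En| + m p |On|)`.
-/

set_option autoImplicit false

namespace Crest.Agent.R305.Harm310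

open Finset Dep310 Kd447 Fcl310 Fcr310 TopDef137 Phi655 Ocp228

variable {α : Type*} [Fintype α] [DecidableEq α]

/-! ### resampling inside a fixed set -/

/-- resampling one sample: `F Z Z'` looks at `Z` outside `E` and at `Z'` inside `E` -/
theorem resample_one (p : α → ℝ) (E : Finset α) (F : Finset α → Finset α → ℝ)
    (h1 : ∀ Z Z1 Z', (∀ a, a ∉ E → (a ∈ Z ↔ a ∈ Z1)) → F Z Z' = F Z1 Z')
    (h2 : ∀ Z Z' Z1', (∀ a, a ∈ E → (a ∈ Z' ↔ a ∈ Z1')) → F Z Z' = F Z Z1') :
    ∑ Z, w p Z * F Z Z = ∑ Z, ∑ Z', w p Z * w p Z' * F Z Z' := by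
  rw [← sum_sum_const p (fun Z => F Z Z),
    ← sum_swap p (fun _ _ => E) (fun _ _ => rfl) (fun Z _ => F Z Z)]
  refine Finset.sum_congr rfl fun Z _ => Finset.sum_congr rfl fun Z' _ => ?_
  congr 1
  rw [h1 (s1 E Z Z') Z (s1 E Z Z') (fun a ha => by rw [mem_s1]; tauto)]
  exact h2 _ _ _ fun a ha => by rw [mem_s1]; tauto

/-- resampling two samples -/
theorem resample_two (p q : α → ℝ) (E : Finset α)
    (F : Finset α → Finset α → Finset α → Finset α → ℝ)
    (h1 : ∀ Z Z1 B B1 Z' B', (∀ a, a ∉ E → (a ∈ Z ↔ a ∈ Z1)) → (∀ a, a ∉ E → (a ∈ B ↔ a ∈ B1)) →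
      F Z B Z' B' = F Z1 B1 Z' B')
    (h2 : ∀ Z B Z' Z1' B' B1', (∀ a, a ∈ E → (a ∈ Z' ↔ a ∈ Z1')) →
      (∀ a, a ∈ E → (a ∈ B' ↔ a ∈ B1')) → F Z B Z' B' = F Z B Z1' B1') :
    ∑ Z, ∑ B, w p Z * w q B * F Z B Z B =
      ∑ Z, ∑ B, w p Z * w q B * ∑ Z', ∑ B', w p Z' * w q B' * F Z B Z' B' := by
  have e1 : ∀ B, ∑ Z, w p Z * F Z B Z B = ∑ Z, ∑ Z', w p Z * w p Z' * F Z B Z' B := by
    intro B
    refine resample_one p E (fun Z Z' => F Z B Z' B) ?_ ?_
    · intro Z Z1 Z' h
      exact h1 _ _ _ _ _ _ h fun _ _ => Iff.rfl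
    · intro Z Z' Z1' h
      exact h2 _ _ _ _ _ _ h fun _ _ => Iff.rfl
  have e2 : ∀ Z Z', ∑ B, w q B * F Z B Z' B = ∑ B, ∑ B', w q B * w q B' * F Z B Z' B' := by
    intro Z Z'
    refine resample_one q E (fun B B' => F Z B Z' B') ?_ ?_
    · intro B B1 B' h
      exact h1 _ _ _ _ _ _ (fun _ _ => Iff.rfl) h
    · intro B B' B1' h
      exact h2 _ _ _ _ _ _ (fun _ _ => Iff.rfl) h
  calc ∑ Z, ∑ B, w p Z * w q B * F Z B Z B
      = ∑ B, w q B * ∑ Z, w p Z * F Z B Z B := by
        rw [Finset.sum_comm]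
        refine Finset.sum_congr rfl fun B _ => ?_
        rw [Finset.mul_sum]
        exact Finset.sum_congr rfl fun Z _ => by ring
    _ = ∑ B, ∑ Z, ∑ Z', w q B * (w p Z * w p Z' * F Z B Z' B) := by
        refine Finset.sum_congr rfl fun B _ => ?_
        rw [e1, Finset.mul_sum]
        exact Finset.sum_congr rfl fun Z _ => by rw [Finset.mul_sum]
    _ = ∑ Z, ∑ Z', w p Z * w p Z' * ∑ B, w q B * F Z B Z' B := by
        rw [Finset.sum_comm]
        refine Finset.sum_congr rfl fun Z _ => ?_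
        rw [Finset.sum_comm]
        refine Finset.sum_congr rfl fun Z' _ => ?_
        rw [Finset.mul_sum]
        exact Finset.sum_congr rfl fun B _ => by ring
    _ = ∑ Z, ∑ Z', ∑ B, ∑ B', w p Z * w p Z' * (w q B * w q B' * F Z B Z' B') := by
        refine Finset.sum_congr rfl fun Z _ => Finset.sum_congr rfl fun Z' _ => ?_
        rw [e2, Finset.mul_sum]
        exact Finset.sum_congr rfl fun B _ => by rw [Finset.mul_sum]
    _ = ∑ Z, ∑ B, w p Z * w q B * ∑ Z', ∑ B', w p Z' * w q B' * F Z B Z' B' := by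
        refine Finset.sum_congr rfl fun Z _ => ?_
        rw [Finset.sum_comm]
        refine Finset.sum_congr rfl fun B _ => ?_
        rw [Finset.mul_sum]
        refine Finset.sum_congr rfl fun Z' _ => ?_
        rw [Finset.mul_sum]
        exact Finset.sum_congr rfl fun B' _ => by ring

/-! ### the event of `Ocp_228` -/

open Classical in
/-- the event of `Ocp_228` -/
noncomputable def ev (R : RankFn α) (K : ℕ) (O : Finset α) (g : Finset α → Finset α)
    (f : ℕ → Finset α) (Z B : Finset α) : Finset α :=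
  ((B \ Z) ∩ O).filter fun h => ∃ i, h ∈ R.kc K (g Z) (f (i + 1)) ∧
    h ∉ R.kc K (g Z) (f i) ∧ h ∈ R.cl (R.kc K (g Z) (f i) ∪
      (((B \ Z) ∩ O ∩ R.kc K (g Z) (f (i + 1))).erase h))

theorem ev_congr (R : RankFn α) (K : ℕ) (O : Finset α) (g : Finset α → Finset α)
    (f : ℕ → Finset α) {Z B Z' B' : Finset α} (hg : g Z = g Z')
    (h : (B \ Z) ∩ O = (B' \ Z') ∩ O) : ev R K O g f Z B = ev R K O g f Z' B' := by
  unfold ev
  rw [hg, h]

variable (I : Inst α)

theorem mem_En {T : Finset α} {n : ℕ} {a : α} : a ∈ En I T n ↔ a ∈ cand I T ∧ I.cls a = n := by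
  unfold En
  rw [mem_filter]

/-- the greedy basis of the sampled class contains the sampled elements of the optimum -/
theorem inter_On_subset (T Z : Finset α) (n : ℕ) :
    Z ∩ On I T n ⊆ grd I.M I.pos (Z ∩ En I T n) := by
  intro z hz
  rw [mem_inter] at hz
  have hE := On_subset_En I T n hz.2
  have ho := ((mem_On I).1 hz.2).1
  unfold opt grd at ho
  rw [mem_filter] at ho
  unfold grd
  rw [mem_filter]
  refine ⟨mem_inter.2 ⟨hz.1, hE⟩, fun hc => ho.2 (I.M.cl_mono (below_mono _ ?_ _) hc)⟩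
  intro a ha
  have := ((mem_En I).1 (mem_inter.1 ha).2).1
  unfold cand at this
  exact (mem_filter.1 this).1

/-- the chain seen by the class `n` -/
noncomputable def ph (k : ℕ) (T Z A B : Finset α) (n i : ℕ) : ℕ → Finset α :=
  phi (dat I k T Z) (As I T Z A) (Hs I T Z A B) n i (Fintype.card α)

theorem ph_mono (k : ℕ) (T Z A B : Finset α) (n i : ℕ) : Monotone (ph I k T Z A B n i) :=
  phi_mono _ _ _ _ _ _

theorem Zs_congr {T Z Z' : Finset α} {n : ℕ}
    (hZ : ∀ a, a ∉ En I T n → (a ∈ Z ↔ a ∈ Z')) {m : ℕ} (hm : m ≠ n) :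
    Zs I T Z m = Zs I T Z' m := by
  unfold Zs
  congr 1
  ext a
  rw [mem_inter, mem_inter]
  refine and_congr_left fun ha => hZ a ?_
  rw [mem_En] at ha ⊢
  rintro ⟨-, h⟩
  exact hm (ha.2.symm.trans h)

/-- the chain looks only at `Z`, `B` outside the class `n` -/
theorem ph_congr {k : ℕ} {T Z Z' A B B' : Finset α} {n : ℕ} (i : ℕ)
    (hZ : ∀ a, a ∉ En I T n → (a ∈ Z ↔ a ∈ Z')) (hB : ∀ a, a ∉ En I T n → (a ∈ B ↔ a ∈ B')) :
    ph I k T Z A B n i = ph I k T Z' A B' n i := by
  have hlow : ∀ a, I.cls a < n → a ∉ En I T n := by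
    intro a ha h
    rw [mem_En] at h
    omega
  have hZs : ∀ m < n, Zs I T Z m = Zs I T Z' m := fun m hm => Zs_congr I hZ (by omega)
  have hA : ∀ a, I.cls a < n → (a ∈ As I T Z A ↔ a ∈ As I T Z' A) := by
    intro a ha
    unfold As
    rw [mem_inter, mem_inter, mem_sdiff, mem_sdiff, hZ a (hlow a ha)]
  have hH : ∀ a, I.cls a < n → (a ∈ Hs I T Z A B ↔ a ∈ Hs I T Z' A B') := by
    intro a ha
    unfold Hs
    rw [mem_sdiff, mem_sdiff, mem_inter, mem_inter, mem_sdiff, mem_sdiff, hZ a (hlow a ha),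
      hB a (hlow a ha)]
  have e1 : ∀ t, gl (dat I k T Z) (As I T Z A) (Hs I T Z A B) t n =
      gl (dat I k T Z') (As I T Z' A) (Hs I T Z' A B') t n := fun t =>
    Fcz310.gl_congr hZs hA hH t
  have e2 : ∀ t, fl (dat I k T Z) (As I T Z A) t n = fl (dat I k T Z') (As I T Z' A) t n :=
    fun t => Fcz310.fl_congr hZs hA t
  funext j
  unfold ph phi top
  simp only [e1, e2]

open Classical in
/-- **harmed elements are harmed in the sense of `Ocp_228`** -/
theorem harmed_subset_ev {k : ℕ} (hk : 2 ≤ k) (T Z A B : Finset α) (i n : ℕ) :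
    harmed I k T Z A B i n ⊆ ev I.M k (On I T n) (fun Z => grd I.M I.pos (Z ∩ En I T n))
      (ph I k T Z A B n i) Z B := by
  intro h hh
  unfold harmed good at hh
  rw [mem_filter, mem_filter, mem_inter] at hh
  obtain ⟨⟨⟨hH, hO⟩, t', ht', hr', hK'⟩, t, ht, hr, hc⟩ := hh
  have htt : t' = t := exit_unique _ hr' hr
  subst htt
  have hcls : I.cls h = n := ((mem_On I).1 hO).2.2
  have hcand : h ∈ cand I T := On_subset_cand I T n hO
  -- the row index is small
  obtain ⟨s, hs, hsr⟩ := exits (M := I.M) (cls := I.cls) (k := k) (Zs := Zs I T Z) hk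
    (fun n => r_Zs I T Z n) (As I T Z A) (notMem_cl_empty_of_cand I hcand)
  have hst : s = t' := exit_unique _ hsr hr
  rw [hst] at hs
  set S := Fintype.card α with hS
  have hS' : t' = i + 3 * (S - (S - (t' - i) / 3)) := by omega
  have hle : S - (t' - i) / 3 ≤ S := Nat.sub_le _ _
  have e0 : ph I k T Z A B n i (2 * (S - (t' - i) / 3)) =
      gl (dat I k T Z) (As I T Z A) (Hs I T Z A B) t' n := by
    unfold ph
    rw [phi_even _ _ _ _ _ _ hle, ← hS']
  have e1 : ph I k T Z A B n i (2 * (S - (t' - i) / 3) + 1) =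
      top (dat I k T Z) (As I T Z A) t' n := by
    unfold ph
    rw [phi_odd _ _ _ _ _ _ hle, ← hS']
  have hX1 : ∀ y ∈ Row I k T Z A t', I.cls y = n →
      y ∈ I.M.kc k (Zs I T Z n) (top (dat I k T Z) (As I T Z A) t' n) := by
    intro y hy hyn
    have := mem_c_top (dat I k T Z) (As I T Z A) hy
    have e3 : (dat I k T Z).cls y = n := hyn
    rw [e3] at this
    exact this
  have hHB : ∀ y, y ∈ Hs I T Z A B → y ∈ B \ Z := by
    intro y hy
    unfold Hs at hy
    rw [mem_sdiff, mem_inter, mem_sdiff] at hy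
    exact mem_sdiff.2 ⟨hy.1.1, hy.1.2.2⟩
  unfold ev
  rw [mem_filter, mem_inter]
  refine ⟨⟨hHB h hH, hO⟩, 2 * (S - (t' - i) / 3), ?_, ?_, ?_⟩
  · rw [e1]
    exact hX1 h hr hcls
  · rw [e0]
    exact hK'
  · rw [e0, e1]
    refine I.M.cl_mono (union_subset_union_right (erase_subset_erase _ ?_)) hc
    intro y hy
    unfold Nt at hy
    rw [mem_inter, mem_inter] at hy
    rw [mem_inter, mem_inter]
    exact ⟨⟨hHB y hy.1.1, hy.1.2⟩, hX1 y hy.2 ((mem_On I).1 hy.1.2).2.2⟩

/-- **P2**: the expected number of harmed elements -/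
theorem harm_expect {k m : ℕ} (hk : 2 ≤ k) {x p : ℝ} (hx0 : 0 < x) (hx1 : x ≤ 1) (hp0 : 0 ≤ p)
    (hp1 : p ≤ 1) (hm : 2 * (k : ℝ) ≤ x * m) (T : Finset α) (n i : ℕ)
    (hcode : ∀ f : ℕ → Finset α, Monotone f → ∀ T', CodeP I.M k (En I T n) f T') :
    ∑ Z, w (fun _ => x) Z * ∑ A, ∑ B, w (fun _ => p) A * w (fun _ => p) B *
      ((harmed I k T Z A B i n).card : ℝ) ≤
      p * (eta k x * (En I T n).card + m * p * (On I T n).card) := by
  set E := En I T n with hE
  set O := On I T n with hO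
  set g : Finset α → Finset α := fun Z => grd I.M I.pos (Z ∩ E) with hg
  set C : ℝ := p * (eta k x * E.card + m * p * O.card) with hC
  have hwx : ∀ Z : Finset α, 0 ≤ w (fun _ => x) Z := w_nonneg (fun _ => hx0.le) (fun _ => hx1)
  have hwp : ∀ Z : Finset α, 0 ≤ w (fun _ => p) Z := w_nonneg (fun _ => hp0) (fun _ => hp1)
  -- for a fixed chain
  have key : ∀ f : ℕ → Finset α, Monotone f →
      ∑ Z, ∑ B, w (fun _ => x) Z * w (fun _ => p) B * ((ev I.M k O g f Z B).card : ℝ) ≤ C := by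
    intro f hf
    exact ocp_code (R := I.M) (by omega) hx0 hx1 hp0 hp1 hm (On_subset_En I T n)
      (g := g) (fun Z => filter_subset _ _) (fun Z => inter_On_subset I T Z n) hf (hcode f hf)
  -- for a fixed sample `A`
  have hA : ∀ A, ∑ Z, ∑ B, w (fun _ => x) Z * w (fun _ => p) B *
      ((harmed I k T Z A B i n).card : ℝ) ≤ C := by
    intro A
    have h1 : ∑ Z, ∑ B, w (fun _ => x) Z * w (fun _ => p) B *
        ((harmed I k T Z A B i n).card : ℝ) ≤
        ∑ Z, ∑ B, w (fun _ => x) Z * w (fun _ => p) B *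
          ((ev I.M k O g (ph I k T Z A B n i) Z B).card : ℝ) := by
      refine Finset.sum_le_sum fun Z _ => Finset.sum_le_sum fun B _ => ?_
      refine mul_le_mul_of_nonneg_left ?_ (mul_nonneg (hwx Z) (hwp B))
      exact_mod_cast Finset.card_le_card (harmed_subset_ev I hk T Z A B i n)
    refine h1.trans ?_
    have h2 := resample_two (fun _ : α => x) (fun _ : α => p) E
      (fun Z B Z' B' => ((ev I.M k O g (ph I k T Z A B n i) Z' B').card : ℝ)) (by
        intro Z Z1 B B1 Z' B' hZ hB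
        rw [ph_congr I i hZ hB]) (by
        intro Z B Z' Z1' B' B1' hZ hB
        rw [ev_congr I.M k O g _ (Z := Z') (Z' := Z1') (B := B') (B' := B1')]
        · simp only [hg]
          congr 1
          ext a
          rw [mem_inter, mem_inter]
          exact and_congr_left fun ha => hZ a ha
        · ext a
          simp only [mem_inter, mem_sdiff]
          refine and_congr_left fun ha => ?_
          have haE : a ∈ E := On_subset_En I T n ha
          rw [hZ a haE, hB a haE])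
    rw [h2]
    have h3 : ∀ Z B, ∑ Z', ∑ B', w (fun _ => x) Z' * w (fun _ => p) B' *
        ((ev I.M k O g (ph I k T Z A B n i) Z' B').card : ℝ) ≤ C := fun Z B =>
      key _ (ph_mono I k T Z A B n i)
    refine (Finset.sum_le_sum fun Z _ => Finset.sum_le_sum fun B _ =>
      mul_le_mul_of_nonneg_left (h3 Z B) (mul_nonneg (hwx Z) (hwp B))).trans ?_
    have h4 : ∑ Z : Finset α, ∑ B : Finset α, w (fun _ => x) Z * w (fun _ => p) B * C = C := by
      have h5 : ∀ Z : Finset α, ∑ B : Finset α, w (fun _ => x) Z * w (fun _ => p) B * C =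
          w (fun _ => x) Z * C := by
        intro Z
        rw [← Finset.sum_mul, ← Finset.mul_sum, sum_w, mul_one]
      simp only [h5]
      rw [← Finset.sum_mul, sum_w, one_mul]
    rw [h4]
  -- sum over `A`
  have h6 : ∑ Z, w (fun _ => x) Z * ∑ A, ∑ B, w (fun _ => p) A * w (fun _ => p) B *
      ((harmed I k T Z A B i n).card : ℝ) =
      ∑ A, w (fun _ => p) A * ∑ Z, ∑ B, w (fun _ => x) Z * w (fun _ => p) B *
        ((harmed I k T Z A B i n).card : ℝ) := by
    simp only [Finset.mul_sum]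
    rw [Finset.sum_comm]
    refine Finset.sum_congr rfl fun A _ => Finset.sum_congr rfl fun Z _ =>
      Finset.sum_congr rfl fun B _ => by ring
  rw [h6]
  refine (Finset.sum_le_sum fun A _ => mul_le_mul_of_nonneg_left (hA A) (hwp A)).trans ?_
  rw [← Finset.sum_mul, sum_w, one_mul]

end Crest.Agent.R305.Harm310
end

-- ▼ part R305/CodeA_860
section

/-!
# R305: the k-dense chain is decoded from a short code (Theorem A of helper306, doc 1793)
-/

set_option autoImplicit false
set_option linter.unusedSectionVars false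

namespace Crest.Agent.R305.Code860

open Finset Crest.Agent.R305.Kd447

variable {α : Type*} [DecidableEq α] [Fintype α] (M : RankFn α)

/-! ### closure basics -/

theorem mem_cl {A : Finset α} {x : α} : x ∈ M.cl A ↔ M.r (insert x A) = M.r A := by
  simp [RankFn.cl]

theorem sub_cl (A : Finset α) : A ⊆ M.cl A := by
  intro x hx
  rw [mem_cl, insert_eq_of_mem hx]

theorem r_insert_of_subset {A B : Finset α} (h : A ⊆ B) {x : α} (hx : M.r (insert x A) = M.r A) :
    M.r (insert x B) = M.r B := by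
  have h1 := M.submod (insert x A) B
  have h2 : insert x A ∪ B = insert x B := by
    ext y; simp only [mem_union, mem_insert]
    constructor
    · rintro ((h1 | h1) | h1)
      · exact Or.inl h1
      · exact Or.inr (h h1)
      · exact Or.inr h1
    · rintro (h1 | h1)
      · exact Or.inl (Or.inl h1)
      · exact Or.inr h1
  have h3 : A ⊆ insert x A ∩ B := by
    intro y hy
    simp only [mem_inter, mem_insert]
    exact ⟨Or.inr hy, h hy⟩
  have h4 := M.mono h3
  rw [h2] at h1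
  have h5 := M.mono (subset_insert x B)
  omega

theorem cl_mono {A B : Finset α} (h : A ⊆ B) : M.cl A ⊆ M.cl B := by
  intro x hx
  rw [mem_cl] at hx ⊢
  exact r_insert_of_subset M h hx

theorem r_union_of_sub_cl {A B : Finset α} (h : B ⊆ M.cl A) : M.r (A ∪ B) = M.r A := by
  induction B using Finset.induction_on with
  | empty => simp
  | insert b B hb ih =>
    have h1 : A ∪ insert b B = insert b (A ∪ B) := by
      ext y; simp only [mem_union, mem_insert]; tauto
    have h2 : b ∈ M.cl A := h (mem_insert_self _ _)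
    rw [mem_cl] at h2
    rw [h1, r_insert_of_subset M (subset_union_left : A ⊆ A ∪ B) h2]
    exact ih ((subset_insert _ _).trans h)

theorem r_cl (A : Finset α) : M.r (M.cl A) = M.r A := by
  have h1 := r_union_of_sub_cl M (Finset.Subset.refl (M.cl A))
  rwa [union_eq_right.2 (sub_cl M A)] at h1

theorem cl_cl (A : Finset α) : M.cl (M.cl A) = M.cl A := by
  refine Finset.Subset.antisymm ?_ (sub_cl M _)
  intro x hx
  rw [mem_cl] at hx ⊢
  rw [r_cl] at hx
  have h1 := M.mono (insert_subset_insert x (sub_cl M A))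
  have h2 := M.mono (subset_insert x A)
  omega

theorem cl_sub_of_sub {A B : Finset α} (h : A ⊆ M.cl B) : M.cl A ⊆ M.cl B := by
  have := cl_mono M h
  rwa [cl_cl] at this

theorem cl_sub_flat {A F : Finset α} (hF : M.cl F = F) (h : A ⊆ F) : M.cl A ⊆ F := by
  have := cl_mono M h
  rwa [hF] at this

theorem exch {A : Finset α} {x y : α} (hx : x ∉ M.cl A) (hy : x ∈ M.cl (insert y A)) :
    y ∈ M.cl (insert x A) := by
  rw [mem_cl] at hx hy ⊢
  have h1 := M.unit x A
  have h2 := M.unit y A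
  have h3 := M.mono (subset_insert x A)
  have h4 := M.mono (subset_insert y (insert x A))
  have h5 : insert y (insert x A) = insert x (insert y A) := Finset.insert_comm _ _ _
  rw [h5] at h4 ⊢
  omega

/-! ### relative independence -/

/-- `S` is independent over `F` -/
def Ind (F S : Finset α) : Prop := M.r (F ∪ S) = M.r F + S.card

theorem r_union_le (F S : Finset α) : M.r (F ∪ S) ≤ M.r F + S.card := by
  induction S using Finset.induction_on with
  | empty => simp
  | insert b B hb ih =>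
    have h1 : F ∪ insert b B = insert b (F ∪ B) := by
      ext y; simp only [mem_union, mem_insert]; tauto
    rw [h1, card_insert_of_notMem hb]
    have := M.unit b (F ∪ B)
    omega

variable {M}

theorem Ind.empty (F : Finset α) : Ind M F ∅ := by simp [Ind]

theorem Ind.subset {F S S' : Finset α} (h : Ind M F S) (hs : S' ⊆ S) : Ind M F S' := by
  unfold Ind at *
  have h1 := r_union_le M (F ∪ S') (S \ S')
  have h2 : F ∪ S' ∪ S \ S' = F ∪ S := by
    ext y; simp only [mem_union, mem_sdiff]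
    have := @hs y
    tauto
  rw [h2, h, card_sdiff_of_subset hs] at h1
  have h3 := r_union_le M F S'
  have h4 := card_le_card hs
  omega

theorem Ind.not_mem_cl {F S : Finset α} (h : Ind M F S) {c : α} (hc : c ∈ S) :
    c ∉ M.cl (F ∪ S.erase c) := by
  intro hcl
  rw [mem_cl] at hcl
  have h1 : insert c (F ∪ S.erase c) = F ∪ S := by
    ext y; simp only [mem_union, mem_insert, mem_erase]
    constructor
    · rintro (h1 | h1 | h1)
      · exact Or.inr (h1 ▸ hc)
      · exact Or.inl h1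
      · exact Or.inr h1.2
    · rintro (h1 | h1)
      · exact Or.inr (Or.inl h1)
      · by_cases hyc : y = c
        · exact Or.inl hyc
        · exact Or.inr (Or.inr ⟨hyc, h1⟩)
  rw [h1] at hcl
  unfold Ind at h
  have h2 := r_union_le M F (S.erase c)
  have h3 := card_erase_of_mem hc
  have h4 := card_pos.2 ⟨c, hc⟩
  omega

theorem Ind.disjoint {F S : Finset α} (h : Ind M F S) : Disjoint F S := by
  rw [disjoint_right]
  intro c hc hF
  exact h.not_mem_cl hc (sub_cl M _ (mem_union_left _ hF))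

theorem Ind.union {F S F' S' : Finset α} (h : Ind M F S) (h' : Ind M F' S') (hF : F ∪ S ⊆ F') :
    Ind M F (S ∪ S') := by
  have hd : Disjoint S S' := by
    have := h'.disjoint
    exact disjoint_of_subset_left ((subset_union_right).trans hF) this
  unfold Ind at *
  have h1 := M.submod (F ∪ S ∪ S') F'
  have h2 : F ∪ S ∪ S' ∪ F' = F' ∪ S' := by
    ext y; simp only [mem_union]
    have := @hF y
    simp only [mem_union] at this
    tauto
  have h3 : F ∪ S ⊆ (F ∪ S ∪ S') ∩ F' := by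
    intro y hy
    simp only [mem_inter]
    exact ⟨mem_union_left _ hy, hF hy⟩
  have h4 := M.mono h3
  rw [h2] at h1
  have h5 := r_union_le M F (S ∪ S')
  rw [card_union_of_disjoint hd] at h5 ⊢
  rw [← union_assoc] at h5 ⊢
  omega

/-- relative basis inside `S` -/
theorem exists_basis (M : RankFn α) (F S : Finset α) :
    ∃ B ⊆ S, Ind M F B ∧ S ⊆ M.cl (F ∪ B) := by
  induction S using Finset.induction_on with
  | empty => exact ⟨∅, by simp, Ind.empty F, by simp⟩
  | insert b S hb ih =>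
    obtain ⟨B, hBS, hB, hcl⟩ := ih
    by_cases hbc : b ∈ M.cl (F ∪ B)
    · exact ⟨B, hBS.trans (subset_insert _ _), hB, insert_subset hbc hcl⟩
    · refine ⟨insert b B, insert_subset_insert _ hBS, ?_, ?_⟩
      · have hbB : b ∉ B := fun h => hb (hBS h)
        unfold Ind at *
        rw [mem_cl] at hbc
        have h1 : F ∪ insert b B = insert b (F ∪ B) := by
          ext y; simp only [mem_union, mem_insert]; tauto
        rw [h1, card_insert_of_notMem hbB]
        have h2 := M.unit b (F ∪ B)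
        have h3 := M.mono (subset_insert b (F ∪ B))
        omega
      · refine insert_subset (sub_cl M _ (mem_union_right _ (mem_insert_self _ _))) ?_
        exact hcl.trans (cl_mono M (union_subset_union_right (subset_insert _ _)))

theorem sub_cl_of_r {A X : Finset α} (h : A ⊆ X) (hr : M.r X ≤ M.r A) : X ⊆ M.cl A := by
  intro x hx
  rw [mem_cl]
  have h1 := M.mono (insert_subset hx h)
  have h2 := M.mono (subset_insert x A)
  omega

/-! ### fundamental circuits over a flat -/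

/-- the fundamental circuit of `x` over `F` with respect to `C` -/
def Gc (M : RankFn α) (C F : Finset α) (x : α) : Finset α :=
  C.filter (fun c => x ∉ M.cl (F ∪ C.erase c))

theorem Gc_sub {C F : Finset α} {x : α} : Gc M C F x ⊆ C := filter_subset _ _

theorem Gc_anti {C F F' : Finset α} {x : α} (h : F ⊆ F') : Gc M C F' x ⊆ Gc M C F x := by
  intro c hc
  simp only [Gc, mem_filter] at hc ⊢
  exact ⟨hc.1, fun h1 => hc.2 (cl_mono M (union_subset_union_left h) h1)⟩

theorem Gc_sub_of_mem {C F V : Finset α} {x : α} (hV : V ⊆ C) (hx : x ∈ M.cl (F ∪ V)) :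
    Gc M C F x ⊆ V := by
  intro c hc
  simp only [Gc, mem_filter] at hc
  by_contra hcV
  refine hc.2 (cl_mono M (union_subset_union_right ?_) hx)
  intro v hv
  rw [mem_erase]
  exact ⟨fun h => hcV (h ▸ hv), hV hv⟩

theorem Gc_disj {C F : Finset α} {x : α} (hx : x ∈ M.cl (F ∪ C)) : Disjoint F (Gc M C F x) := by
  rw [disjoint_right]
  intro c hc hF
  simp only [Gc, mem_filter] at hc
  refine hc.2 (cl_mono M ?_ hx)
  intro v hv
  rw [mem_union] at hv ⊢
  by_cases h : v = c
  · exact Or.inl (h ▸ hF)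
  · rcases hv with hv | hv
    · exact Or.inl hv
    · exact Or.inr (mem_erase.2 ⟨h, hv⟩)

/-- `C \ F` is independent over `F` -/
def IndC (M : RankFn α) (C F : Finset α) : Prop := ∀ c ∈ C, c ∉ F → c ∉ M.cl (F ∪ C.erase c)

theorem mem_cl_Gc {C F : Finset α} {x : α} (h : IndC M C F) (hx : x ∈ M.cl (F ∪ C)) :
    x ∈ M.cl (F ∪ Gc M C F x) := by
  have key : ∀ S : Finset α, S ⊆ C \ Gc M C F x → x ∈ M.cl (F ∪ (C \ S)) := by
    intro S
    induction S using Finset.induction_on with
    | empty => intro _; simpa using hx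
    | insert d S hd ih =>
      intro hS
      have h1 := ih ((subset_insert _ _).trans hS)
      have h2 := hS (mem_insert_self _ _)
      rw [mem_sdiff] at h2
      have h3 : x ∈ M.cl (F ∪ C.erase d) := by
        by_contra h4
        exact h2.2 (by simp only [Gc, mem_filter]; exact ⟨h2.1, h4⟩)
      by_contra h4
      have h5 : F ∪ (C \ S) = insert d (F ∪ (C \ insert d S)) := by
        ext y
        simp only [mem_union, mem_sdiff, mem_insert]
        by_cases hy : y = d
        · subst hy; tauto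
        · tauto
      rw [h5] at h1
      have h6 := exch M h4 h1
      have h7 : insert x (F ∪ (C \ insert d S)) ⊆ M.cl (F ∪ C.erase d) := by
        refine insert_subset h3 ?_
        refine Finset.Subset.trans ?_ (sub_cl M _)
        intro y hy
        simp only [mem_union, mem_sdiff, mem_insert, mem_erase] at hy ⊢
        tauto
      have h8 := cl_sub_of_sub M h7 h6
      by_cases hdF : d ∈ F
      · apply h4
        have h9 : F ∪ (C \ insert d S) = insert d (F ∪ (C \ insert d S)) := by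
          rw [insert_eq_of_mem (mem_union_left _ hdF)]
        rw [h9]; exact h1
      · exact h d h2.1 hdF h8
  have h1 := key (C \ Gc M C F x) (Finset.Subset.refl _)
  rwa [Finset.sdiff_sdiff_eq_self Gc_sub] at h1

theorem IndC.extend {C Y V : Finset α} (h : IndC M C Y) (hV : V ⊆ C) :
    IndC M C (M.cl (Y ∪ V)) := by
  intro c hc hcF hcl
  have hcY : c ∉ Y := fun h1 => hcF (sub_cl M _ (mem_union_left _ h1))
  have hcV : c ∉ V := fun h1 => hcF (sub_cl M _ (mem_union_right _ h1))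
  refine h c hc hcY ?_
  refine cl_sub_of_sub M ?_ hcl
  refine union_subset (cl_mono M (union_subset_union_right ?_)) ((subset_union_right).trans (sub_cl M _))
  intro v hv
  exact mem_erase.2 ⟨fun h1 => hcV (h1 ▸ hv), hV hv⟩

theorem Gc_nonempty {C F : Finset α} {x : α} (h : IndC M C F) (hF : M.cl F = F)
    (hx : x ∈ M.cl (F ∪ C)) (hxF : x ∉ F) : (Gc M C F x).Nonempty := by
  rw [nonempty_iff_ne_empty]
  intro h1
  have h2 := mem_cl_Gc h hx
  rw [h1, union_empty, hF] at h2
  exact hxF h2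

end Crest.Agent.R305.Code860
end

-- ▼ part R305/CodeB_860
section

set_option autoImplicit false
set_option linter.unusedSectionVars false
set_option linter.unusedVariables false

namespace Crest.Agent.R305.Code860

open Finset Crest.Agent.R305.Kd447

variable {α : Type*} [DecidableEq α] [Fintype α] {M : RankFn α}

/-- a `k`-dense chain `X` over the increasing sequence `f`, for the sample `Z` -/
structure KChain (M : RankFn α) (k : ℕ) (Z : Finset α) (f X : ℕ → Finset α) : Prop where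
  flat : ∀ i, M.cl (X i) = X i
  sub : ∀ i, X i ⊆ X (i + 1)
  fsub : ∀ i, f i ⊆ X i
  sparse : ∀ i, ∀ A ⊆ Z \ X i, A.Nonempty → A.card < k * (M.r (X i ∪ A) - M.r (X i))
  dense0 : ∀ V ⊆ X 0, k * (M.r (X 0) - M.r (f 0 ∪ V)) ≤ ((Z ∩ X 0) \ M.cl (f 0 ∪ V)).card
  dense : ∀ i, ∀ V ⊆ X (i + 1), k * (M.r (X (i + 1)) - M.r (X i ∪ f (i + 1) ∪ V)) ≤
    ((Z ∩ X (i + 1)) \ M.cl (X i ∪ f (i + 1) ∪ V)).card

/-- basis of a dense step inside the sample -/
theorem step_basis {k : ℕ} (hk : 1 ≤ k) {Z f X : Finset α} (hX : M.cl X = X) (hf : f ⊆ X)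
    (hd : ∀ V ⊆ X, k * (M.r X - M.r (f ∪ V)) ≤ ((Z ∩ X) \ M.cl (f ∪ V)).card) :
    ∃ B : Finset α, B ⊆ Z ∧ B ⊆ X ∧ Ind M f B ∧ M.cl (f ∪ B) = X ∧
      k * B.card ≤ ((Z ∩ X) \ M.cl f).card := by
  obtain ⟨B, hBS, hB, hcl⟩ := exists_basis M f (Z ∩ X)
  have hBX : B ⊆ X := hBS.trans inter_subset_right
  have h1 := hd (Z ∩ X) inter_subset_right
  have h2 : (Z ∩ X) \ M.cl (f ∪ (Z ∩ X)) = ∅ := by
    rw [sdiff_eq_empty_iff_subset]
    exact (subset_union_right).trans (sub_cl M _)
  rw [h2, card_empty] at h1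
  have h3 : M.r X ≤ M.r (f ∪ (Z ∩ X)) := by
    by_contra h4
    have h5 : 1 ≤ M.r X - M.r (f ∪ (Z ∩ X)) := by omega
    have h6 : 1 ≤ k * (M.r X - M.r (f ∪ (Z ∩ X))) := Nat.one_le_iff_ne_zero.2 (by positivity)
    omega
  have h4 : M.r (f ∪ (Z ∩ X)) ≤ M.r (f ∪ B) := by
    have h5 : f ∪ (Z ∩ X) ⊆ M.cl (f ∪ B) :=
      union_subset ((subset_union_left).trans (sub_cl M _)) hcl
    have h6 := M.mono h5
    rwa [r_cl] at h6
  have h5 : M.cl (f ∪ B) = X := by
    refine Finset.Subset.antisymm (cl_sub_flat M hX (union_subset hf hBX)) ?_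
    exact sub_cl_of_r (union_subset hf hBX) (h3.trans h4)
  refine ⟨B, hBS.trans inter_subset_left, hBX, hB, h5, ?_⟩
  have h6 := hd ∅ (empty_subset _)
  rw [union_empty] at h6
  have h7 : M.r X = M.r f + B.card := by
    have : M.r (M.cl (f ∪ B)) = M.r X := by rw [h5]
    rw [r_cl] at this
    rw [← this]; exact hB
  rw [h7] at h6
  simpa using h6

/-- connectors of one step -/
theorem connectors {k : ℕ} (hk : 1 ≤ k) {Z C B X Y X' : Finset α} (hXX : X ⊆ Y)
    (hYf : M.cl Y = Y) (hX'f : M.cl X' = X') (hYX : Y ⊆ X')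
    (hBC : B ⊆ C) (hB : Ind M Y B) (hcl : M.cl (Y ∪ B) = X')
    (hIX : IndC M C X) (hIY : IndC M C Y)
    (hs : ∀ A ⊆ Z \ X, A.Nonempty → A.card < k * (M.r (X ∪ A) - M.r X))
    (hd : ∀ V ⊆ X', k * (M.r X' - M.r (Y ∪ V)) ≤ ((Z ∩ X') \ M.cl (Y ∪ V)).card) :
    ∀ (m : ℕ) (V : Finset α), V ⊆ B → (B \ V).card ≤ m →
    ∃ n : α → ℕ, (∀ x, n x ≠ 0 → x ∈ Z ∧ x ∈ X' ∧ x ∉ M.cl (Y ∪ V)) ∧
      ∑ x, n x = (B \ V).card ∧
      (∀ V', V ⊆ V' → V' ⊆ B → V' ≠ B → ∃ x, n x ≠ 0 ∧ x ∉ M.cl (Y ∪ V') ∧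
        (Gc M C (M.cl (Y ∪ V')) x).card ≤ n x) ∧
      (∀ x, n x ≠ 0 → x ∈ M.cl (X ∪ C) → n x < (Gc M C X x).card) := by
  have hBX' : B ⊆ X' := by
    rw [← hcl]; exact (subset_union_right).trans (sub_cl M _)
  intro m
  induction m with
  | zero =>
    intro V hVB hm
    have h1 : B \ V = ∅ := card_eq_zero.1 (by omega)
    refine ⟨fun _ => 0, by simp, by simp [h1], ?_, by simp⟩
    intro V' hV hV' hne
    exact absurd (Finset.Subset.antisymm hV' ((sdiff_eq_empty_iff_subset.1 h1).trans hV)) hne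
  | succ m ih =>
    intro V hVB hm
    by_cases hVeq : B \ V = ∅
    · refine ⟨fun _ => 0, by simp, by simp [hVeq], ?_, by simp⟩
      intro V' hV hV' hne
      exact absurd (Finset.Subset.antisymm hV' ((sdiff_eq_empty_iff_subset.1 hVeq).trans hV)) hne
    set U := M.cl (Y ∪ V) with hU
    have hUf : M.cl U = U := cl_cl M _
    have hYU : Y ⊆ U := (subset_union_left).trans (sub_cl M _)
    have hVU : V ⊆ U := (subset_union_right).trans (sub_cl M _)
    have hXU : X ⊆ U := hXX.trans hYU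
    have hcp : 0 < (B \ V).card := card_pos.2 (nonempty_iff_ne_empty.2 hVeq)
    have hd1 := hd V (hVB.trans hBX')
    have hr1 : M.r X' = M.r Y + B.card := by
      have : M.r (M.cl (Y ∪ B)) = M.r X' := by rw [hcl]
      rw [r_cl] at this
      rw [← this]; exact hB
    have hr2 : M.r (Y ∪ V) = M.r Y + V.card := hB.subset hVB
    have hr3 : (B \ V).card = B.card - V.card := card_sdiff_of_subset hVB
    have hr4 := card_le_card hVB
    have hA1 : k * (B \ V).card ≤ ((Z ∩ X') \ U).card := by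
      have : M.r X' - M.r (Y ∪ V) = (B \ V).card := by omega
      rw [this] at hd1
      exact hd1
    have hA2 : ((Z ∩ X') \ U).Nonempty := by
      rw [← card_pos]
      have : 0 < k * (B \ V).card := Nat.mul_pos (by omega) hcp
      omega
    obtain ⟨x, hxA, hxn⟩ : ∃ x ∈ (Z ∩ X') \ U, x ∉ M.cl (X ∪ (B \ V)) := by
      by_contra hno
      push Not at hno
      have h1 : M.r (X ∪ ((Z ∩ X') \ U)) ≤ M.r X + (B \ V).card := by
        have h2 : X ∪ ((Z ∩ X') \ U) ⊆ M.cl (X ∪ (B \ V)) :=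
          union_subset ((subset_union_left).trans (sub_cl M _)) hno
        have h3 := M.mono h2
        rw [r_cl] at h3
        exact h3.trans (r_union_le M X _)
      have h2 := hs ((Z ∩ X') \ U) (by
        intro y hy
        simp only [mem_sdiff, mem_inter] at hy ⊢
        exact ⟨hy.1.1, fun h => hy.2 (hXU h)⟩) hA2
      have h3 : M.r (X ∪ ((Z ∩ X') \ U)) - M.r X ≤ (B \ V).card := by omega
      have h4 := Nat.mul_le_mul_left k h3
      omega
    simp only [mem_sdiff, mem_inter] at hxA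
    obtain ⟨⟨hxZ, hxX'⟩, hxU⟩ := hxA
    set G := Gc M C U x with hG
    have hxclB : x ∈ M.cl (U ∪ B) := by
      have : X' ⊆ M.cl (U ∪ B) := by
        rw [← hcl]; exact cl_mono M (union_subset_union_left hYU)
      exact this hxX'
    have hxclC : x ∈ M.cl (U ∪ C) := cl_mono M (union_subset_union_right hBC) hxclB
    have hGB : G ⊆ B := Gc_sub_of_mem hBC hxclB
    have hGU : Disjoint U G := Gc_disj hxclC
    have hIU : IndC M C U := hIY.extend (hVB.trans hBC)
    have hGne : G.Nonempty := Gc_nonempty hIU hUf hxclC hxU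
    have hxG : x ∈ M.cl (U ∪ G) := mem_cl_Gc hIU hxclC
    have hGV : Disjoint V G := disjoint_of_subset_left hVU hGU
    have hV1 : V ∪ G ⊆ B := union_subset hVB hGB
    have hc1 : (B \ (V ∪ G)).card + G.card = (B \ V).card := by
      have h1 := card_sdiff_of_subset hV1
      have h2 := card_union_of_disjoint hGV
      have h3 := card_le_card hV1
      omega
    have hGp := card_pos.2 hGne
    obtain ⟨n1, hn1, hn2, hn3, hn4⟩ := ih (V ∪ G) hV1 (by omega)
    have hx1 : n1 x = 0 := by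
      by_contra h0
      apply (hn1 x h0).2.2
      have : U ∪ G ⊆ M.cl (Y ∪ (V ∪ G)) := by
        refine union_subset (cl_mono M (union_subset_union_right subset_union_left)) ?_
        exact (subset_union_right.trans subset_union_right).trans (sub_cl M _)
      exact cl_sub_of_sub M this hxG
    refine ⟨fun y => n1 y + if y = x then G.card else 0, ?_, ?_, ?_, ?_⟩
    · intro y hy
      by_cases hyx : y = x
      · subst hyx; exact ⟨hxZ, hxX', hxU⟩
      · have h1 : n1 y ≠ 0 := by simpa [hyx] using hy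
        obtain ⟨h2, h3, h4⟩ := hn1 y h1
        exact ⟨h2, h3, fun h5 => h4 (cl_mono M (union_subset_union_right subset_union_left) h5)⟩
    · rw [sum_add_distrib, hn2, sum_ite_eq' univ x]
      simp only [mem_univ, if_true]
      exact hc1
    · intro V' hVV' hV'B hV'ne
      by_cases hG' : G ⊆ V'
      · obtain ⟨y, hy1, hy2, hy3⟩ := hn3 V' (union_subset hVV' hG') hV'B hV'ne
        refine ⟨y, ?_, hy2, ?_⟩
        · have := Nat.pos_of_ne_zero hy1
          show n1 y + _ ≠ 0
          omega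
        · exact hy3.trans (Nat.le_add_right _ _)
      · refine ⟨x, ?_, ?_, ?_⟩
        · simp only [if_true]; omega
        · intro hxcl
          apply hG'
          refine Gc_sub_of_mem (hV'B.trans hBC) ?_
          exact cl_mono M (union_subset_union_left hYU) hxcl
        · simp only [if_true, hx1, zero_add]
          exact card_le_card (Gc_anti (cl_mono M (union_subset_union_right hVV')))
    · intro y hy hycl
      by_cases hyx : y = x
      · subst hyx
        simp only [if_true, hx1, zero_add]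
        refine card_lt_card ⟨Gc_anti hXU, ?_⟩
        intro hsub
        apply hxn
        have h1 := mem_cl_Gc hIX hycl
        refine cl_mono M (union_subset_union_right ?_) h1
        refine hsub.trans ?_
        intro g hg
        rw [mem_sdiff]
        exact ⟨hGB hg, fun hgV => (disjoint_left.1 hGV) hgV hg⟩
      · have h1 : n1 y ≠ 0 := by simpa [hyx] using hy
        simp only [hyx, if_false, add_zero]
        exact hn4 y h1 hycl

end Crest.Agent.R305.Code860
end

-- ▼ part R305/CodeC_860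
section

set_option autoImplicit false
set_option linter.unusedSectionVars false
set_option linter.unusedVariables false

namespace Crest.Agent.R305.Code860

open Finset Crest.Agent.R305.Kd447

variable {α : Type*} [DecidableEq α] [Fintype α] {M : RankFn α}

/-- a code: basis of the initial step, bases of the other steps, connectors with their sizes -/
abbrev Code (α : Type*) := Finset α × Finset α × (α → ℕ)

/-- fire all connectors at once -/
def fire (M : RankFn α) (C : Finset α) (n : α → ℕ) (F : Finset α) : Finset α :=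
  M.cl (F ∪ (univ.filter (fun x => n x ≠ 0 ∧ x ∉ F ∧ x ∈ M.cl (F ∪ C) ∧
    (Gc M C F x).card ≤ n x)).biUnion (Gc M C F))

/-- the decoder -/
def dec (M : RankFn α) (f : ℕ → Finset α) (c : Code α) : ℕ → Finset α
  | 0 => M.cl (f 0 ∪ c.1)
  | i + 1 => (fire M c.2.1 c.2.2)^[Fintype.card α] (M.cl (dec M f c i ∪ f (i + 1)))

theorem iterate_fix {g : Finset α → Finset α} {P : Finset α → Prop} {X' : Finset α}
    (hP : ∀ F, P F → F ⊆ g F ∧ P (g F) ∧ F ⊆ X' ∧ (F ≠ X' → g F ≠ F)) {F0 : Finset α}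
    (h0 : P F0) : g^[Fintype.card α] F0 = X' := by
  have key : ∀ m, P (g^[m] F0) ∧ (m ≤ (g^[m] F0).card ∨ g^[m] F0 = X') := by
    intro m
    induction m with
    | zero => exact ⟨h0, Or.inl (Nat.zero_le _)⟩
    | succ m ih =>
      obtain ⟨h1, h2⟩ := ih
      rw [Function.iterate_succ_apply']
      obtain ⟨h3, h4, h5, h6⟩ := hP _ h1
      refine ⟨h4, ?_⟩
      by_cases h7 : g^[m] F0 = X'
      · right
        rw [h7] at h3 h4 ⊢
        exact Finset.Subset.antisymm (hP _ h4).2.2.1 h3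
      · left
        have h8 : m ≤ (g^[m] F0).card := by
          rcases h2 with h2 | h2
          · exact h2
          · exact absurd h2 h7
        have h9 : g^[m] F0 ⊂ g (g^[m] F0) :=
          ⟨h3, fun h => h6 h7 (Finset.Subset.antisymm h h3)⟩
        have := card_lt_card h9
        omega
  obtain ⟨h1, h2⟩ := key (Fintype.card α)
  rcases h2 with h2 | h2
  · have h3 : g^[Fintype.card α] F0 = univ := by
      rw [← card_eq_iff_eq_univ]
      exact le_antisymm (card_le_univ _) h2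
    have h4 := (hP _ h1).2.2.1
    rw [h3] at h4 ⊢
    exact (Finset.Subset.antisymm h4 (subset_univ _))
  · exact h2

theorem cl_cl_union (A B : Finset α) : M.cl (M.cl A ∪ B) = M.cl (A ∪ B) := by
  refine Finset.Subset.antisymm ?_ (cl_mono M (union_subset_union_left (sub_cl M _)))
  refine cl_sub_of_sub M (union_subset (cl_mono M subset_union_left) ?_)
  exact subset_union_right.trans (sub_cl M _)

theorem fire_step {C : Finset α} {n : α → ℕ} {B Y X' : Finset α} (hBC : B ⊆ C)
    (hIY : IndC M C Y) (hcl : M.cl (Y ∪ B) = X')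
    (hP1 : ∀ V' ⊆ B, V' ≠ B → ∃ x, n x ≠ 0 ∧ x ∉ M.cl (Y ∪ V') ∧ x ∈ X' ∧
      (Gc M C (M.cl (Y ∪ V')) x).card ≤ n x)
    (hloc : ∀ F, Y ⊆ F → F ⊆ X' → ∀ x, n x ≠ 0 → x ∉ F → x ∈ M.cl (F ∪ C) →
      (Gc M C F x).card ≤ n x → x ∈ X') :
    (fire M C n)^[Fintype.card α] (M.cl Y) = X' := by
  refine iterate_fix (P := fun F => ∃ V ⊆ B, F = M.cl (Y ∪ V)) ?_ ⟨∅, empty_subset _, by simp⟩
  rintro F ⟨V, hV, rfl⟩
  set F := M.cl (Y ∪ V) with hF
  have hYF : Y ⊆ F := subset_union_left.trans (sub_cl M _)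
  have hFX : F ⊆ X' := by
    rw [← hcl]; exact cl_mono M (union_subset_union_right hV)
  have hxB : ∀ x ∈ X', x ∈ M.cl (F ∪ B) := by
    intro x hx
    rw [← hcl] at hx
    exact cl_mono M (union_subset_union_left hYF) hx
  set S := (univ.filter (fun x => n x ≠ 0 ∧ x ∉ F ∧ x ∈ M.cl (F ∪ C) ∧
    (Gc M C F x).card ≤ n x)) with hS
  have hW : S.biUnion (Gc M C F) ⊆ B := by
    rw [biUnion_subset]
    intro x hx
    simp only [hS, mem_filter, mem_univ, true_and] at hx
    exact Gc_sub_of_mem hBC (hxB x (hloc F hYF hFX x hx.1 hx.2.1 hx.2.2.1 hx.2.2.2))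
  refine ⟨subset_union_left.trans (sub_cl M _), ⟨V ∪ S.biUnion (Gc M C F), union_subset hV hW, ?_⟩,
    hFX, ?_⟩
  · show M.cl (F ∪ S.biUnion (Gc M C F)) = _
    rw [hF, cl_cl_union, union_assoc]
  · intro hne heq
    have hVB : V ≠ B := by
      rintro rfl
      exact hne hcl
    obtain ⟨x, hx1, hx2, hx3, hx4⟩ := hP1 V hV hVB
    have hxC : x ∈ M.cl (F ∪ C) := cl_mono M (union_subset_union_right hBC) (hxB x hx3)
    obtain ⟨c, hc⟩ := Gc_nonempty (hIY.extend (hV.trans hBC)) (cl_cl M _) hxC hx2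
    have hcF : c ∉ F := fun h => (disjoint_left.1 (Gc_disj hxC)) h hc
    apply hcF
    have hxS : x ∈ S := by
      simp only [hS, mem_filter, mem_univ, true_and]
      exact ⟨hx1, hx2, hxC, hx4⟩
    have : c ∈ fire M C n F :=
      sub_cl M _ (mem_union_right _ (mem_biUnion.2 ⟨x, hxS, hc⟩))
    rwa [heq] at this

/-- **Theorem A (coding)**: a `k`-dense chain is decoded from a short code inside the sample. -/
theorem exists_code {k : ℕ} (hk : 1 ≤ k) {Z : Finset α} {f X : ℕ → Finset α}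
    (h : KChain M k Z f X) (T : ℕ) :
    ∃ c : Code α, c.1 ⊆ Z ∧ c.2.1 ⊆ Z ∧ (∀ x, c.2.2 x ≠ 0 → x ∈ Z) ∧
      ∑ x, c.2.2 x = c.2.1.card ∧ k * (c.1.card + c.2.1.card) ≤ Z.card ∧
      ∀ i ≤ T, dec M f c i = X i := by
  classical
  have hXm : Monotone X := monotone_nat_of_le_succ h.sub
  set Y : ℕ → Finset α := fun i => M.cl (X i ∪ f (i + 1)) with hY
  have hYX : ∀ i, Y i ⊆ X (i + 1) := fun i =>
    cl_sub_flat M (h.flat (i + 1)) (union_subset (h.sub i) (h.fsub (i + 1)))
  have hXY : ∀ i, X i ⊆ Y i := fun i => subset_union_left.trans (sub_cl M _)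
  have hYf : ∀ i, M.cl (Y i) = Y i := fun i => cl_cl M _
  have hd : ∀ i, ∀ V ⊆ X (i + 1), k * (M.r (X (i + 1)) - M.r (Y i ∪ V)) ≤
      ((Z ∩ X (i + 1)) \ M.cl (Y i ∪ V)).card := by
    intro i V hV
    have h1 := h.dense i V hV
    have h2 : M.cl (Y i ∪ V) = M.cl (X i ∪ f (i + 1) ∪ V) := cl_cl_union _ _
    have h3 : M.r (Y i ∪ V) = M.r (X i ∪ f (i + 1) ∪ V) := by
      rw [← r_cl M (Y i ∪ V), h2, r_cl]
    rw [h2, h3]; exact h1
  have hstep : ∀ i, ∃ B : Finset α, B ⊆ Z ∧ B ⊆ X (i + 1) ∧ Ind M (Y i) B ∧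
      M.cl (Y i ∪ B) = X (i + 1) ∧ k * B.card ≤ ((Z ∩ X (i + 1)) \ M.cl (Y i)).card := fun i =>
    step_basis hk (h.flat (i + 1)) (hYX i) (hd i)
  choose B hB1 hB2 hB3 hB4 hB5 using hstep
  obtain ⟨C0, hC1, hC2, hC3, hC4, hC5⟩ := step_basis hk (h.flat 0) (h.fsub 0) h.dense0
  set C := (range T).biUnion B with hC
  have hBC : ∀ i, i < T → B i ⊆ C := fun i hi => subset_biUnion_of_mem B (mem_range.2 hi)
  -- independence of the tails
  have htail : ∀ d i, T ≤ i + d → Ind M (Y i) ((Ico i T).biUnion B) := by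
    intro d
    induction d with
    | zero =>
      intro i hi
      rw [Ico_eq_empty (by omega), biUnion_empty]
      exact Ind.empty _
    | succ d ih =>
      intro i hi
      have h1 := (hB3 i).union (ih (i + 1) (by omega)) (by
        refine union_subset ?_ ?_
        · exact (hYX i).trans (hXY (i + 1))
        · exact (hB2 i).trans (hXY (i + 1)))
      refine h1.subset ?_
      intro x hx
      rw [mem_biUnion] at hx
      obtain ⟨j, hj, hxj⟩ := hx
      rw [mem_Ico] at hj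
      rw [mem_union, mem_biUnion]
      by_cases hji : j = i
      · exact Or.inl (hji ▸ hxj)
      · exact Or.inr ⟨j, mem_Ico.2 ⟨by omega, hj.2⟩, hxj⟩
  have hCtail : ∀ i, ∀ c ∈ C, c ∉ X i → c ∈ (Ico i T).biUnion B := by
    intro i c hc hcX
    rw [hC, mem_biUnion] at hc
    obtain ⟨j, hj, hcj⟩ := hc
    rw [mem_range] at hj
    rw [mem_biUnion]
    refine ⟨j, mem_Ico.2 ⟨?_, hj⟩, hcj⟩
    by_contra hlt
    exact hcX (hXm (by omega : j + 1 ≤ i) (hB2 j hcj))
  have hIY0 : ∀ i, ∀ c ∈ C, c ∉ X i → c ∉ M.cl (Y i ∪ C.erase c) := by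
    intro i c hc hcX hcl
    have h1 := htail T i (by omega)
    refine h1.not_mem_cl (hCtail i c hc hcX) (cl_sub_of_sub M ?_ hcl)
    refine union_subset (subset_union_left.trans (sub_cl M _)) ?_
    intro d hd'
    rw [mem_erase] at hd'
    by_cases hdX : d ∈ X i
    · exact sub_cl M _ (mem_union_left _ (hXY i hdX))
    · exact sub_cl M _ (mem_union_right _ (mem_erase.2 ⟨hd'.1, hCtail i d hd'.2 hdX⟩))
  have hIY : ∀ i, IndC M C (Y i) := fun i c hc hcY =>
    hIY0 i c hc (fun hX => hcY (hXY i hX))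
  have hIX : ∀ i, IndC M C (X i) := fun i c hc hcX hcl =>
    hIY0 i c hc hcX (cl_mono M (union_subset_union_left (hXY i)) hcl)
  -- the connectors
  have hconn : ∀ i, ∃ n : α → ℕ, i < T →
      (∀ x, n x ≠ 0 → x ∈ Z ∧ x ∈ X (i + 1) ∧ x ∉ Y i) ∧
      ∑ x, n x = (B i).card ∧
      (∀ V' ⊆ B i, V' ≠ B i → ∃ x, n x ≠ 0 ∧ x ∉ M.cl (Y i ∪ V') ∧
        (Gc M C (M.cl (Y i ∪ V')) x).card ≤ n x) ∧
      (∀ x, n x ≠ 0 → x ∈ M.cl (X i ∪ C) → n x < (Gc M C (X i) x).card) := by
    intro i
    by_cases hi : i < T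
    · obtain ⟨n, h1, h2, h3, h4⟩ := connectors hk (hXY i) (hYf i) (h.flat (i + 1)) (hYX i)
        (hBC i hi) (hB3 i) (hB4 i) (hIX i) (hIY i) (h.sparse i) (hd i) (B i).card ∅
        (empty_subset _) (card_le_card sdiff_subset)
      refine ⟨n, fun _ => ⟨?_, ?_, ?_, h4⟩⟩
      · intro x hx
        have := h1 x hx
        rw [union_empty, hYf i] at this
        exact this
      · rw [h2, sdiff_empty]
      · intro V' hV' hne
        exact h3 V' (empty_subset _) hV' hne
    · exact ⟨fun _ => 0, fun h => absurd h hi⟩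
  choose n hn using hconn
  set nt : α → ℕ := fun x => ∑ i ∈ range T, n i x with hnt
  have hnt1 : ∀ i, i < T → ∀ x, n i x ≠ 0 → nt x = n i x := by
    intro i hi x hx
    obtain ⟨-, hx1, hx2⟩ := (hn i hi).1 x hx
    refine sum_eq_single_of_mem i (mem_range.2 hi) ?_
    intro j hj hji
    rw [mem_range] at hj
    by_contra h0
    obtain ⟨-, hy1, hy2⟩ := (hn j hj).1 x h0
    rcases Nat.lt_or_gt_of_ne hji with hlt | hlt
    · exact hx2 (hXY i (hXm (by omega : j + 1 ≤ i) hy1))
    · exact hy2 (hXY j (hXm (by omega : i + 1 ≤ j) hx1))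
  have hnt2 : ∀ x, nt x ≠ 0 → ∃ i, i < T ∧ n i x ≠ 0 := by
    intro x hx
    obtain ⟨i, hi, h1⟩ := exists_ne_zero_of_sum_ne_zero hx
    exact ⟨i, mem_range.1 hi, h1⟩
  have hdisj : ∀ i ∈ range T, ∀ j ∈ range T, i ≠ j → Disjoint (B i) (B j) := by
    intro i _ j _ hij
    have hlt : ∀ a b, a < b → Disjoint (B a) (B b) := by
      intro a b hab
      refine disjoint_of_subset_left ?_ (hB3 b).disjoint
      exact (hB2 a).trans ((hXm (by omega : a + 1 ≤ b)).trans (hXY b))
    rcases Nat.lt_or_gt_of_ne hij with h1 | h1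
    · exact hlt i j h1
    · exact (hlt j i h1).symm
  refine ⟨(C0, C, nt), hC1, ?_, ?_, ?_, ?_, ?_⟩
  · exact biUnion_subset.2 fun i _ => hB1 i
  · intro x hx
    obtain ⟨i, hi, h1⟩ := hnt2 x hx
    exact ((hn i hi).1 x h1).1
  · show ∑ x, ∑ i ∈ range T, n i x = C.card
    rw [sum_comm, hC, card_biUnion hdisj]
    exact sum_congr rfl fun i hi => (hn i (mem_range.1 hi)).2.1
  · show k * (C0.card + C.card) ≤ Z.card
    have h1 : ∀ T', k * (C0.card + ∑ i ∈ range T', (B i).card) ≤ (Z ∩ X T').card := by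
      intro T'
      induction T' with
      | zero =>
        rw [range_zero, sum_empty, add_zero]
        exact hC5.trans (card_le_card sdiff_subset)
      | succ T' ih =>
        rw [sum_range_succ, ← add_assoc, Nat.mul_add]
        have h2 := hB5 T'
        rw [hYf] at h2
        have h3 : Disjoint (Z ∩ X T') ((Z ∩ X (T' + 1)) \ Y T') := by
          rw [disjoint_left]
          intro x hx hx'
          rw [mem_inter] at hx
          rw [mem_sdiff] at hx'
          exact hx'.2 (hXY _ hx.2)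
        have h4 : (Z ∩ X T') ∪ ((Z ∩ X (T' + 1)) \ Y T') ⊆ Z ∩ X (T' + 1) :=
          union_subset (inter_subset_inter_left (h.sub T')) sdiff_subset
        have h5 := card_le_card h4
        rw [card_union_of_disjoint h3] at h5
        omega
    rw [hC, card_biUnion hdisj]
    exact (h1 T).trans (card_le_card inter_subset_left)
  · intro i
    induction i with
    | zero => intro _; exact hC4
    | succ i ih =>
      intro hi
      have hiT : i < T := by omega
      show (fire M C nt)^[Fintype.card α] (M.cl (dec M f (C0, C, nt) i ∪ f (i + 1))) = X (i + 1)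
      rw [ih (by omega)]
      have h1 := fire_step (M := M) (n := nt) (X' := X (i + 1)) (hBC i hiT) (hIY i) (hB4 i) ?_ ?_
      · rw [hYf] at h1
        exact h1
      · intro V' hV' hne
        obtain ⟨x, hx1, hx2, hx3⟩ := (hn i hiT).2.2.1 V' hV' hne
        refine ⟨x, ?_, hx2, ((hn i hiT).1 x hx1).2.1, ?_⟩
        · rw [hnt1 i hiT x hx1]; exact hx1
        · rw [hnt1 i hiT x hx1]; exact hx3
      · intro F hYF hFX x hx hxF hxC hxn
        obtain ⟨j, hj, hxj⟩ := hnt2 x hx
        rw [hnt1 j hj x hxj] at hxn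
        by_cases hji : j ≤ i
        · exact hXm (by omega : j + 1 ≤ i + 1) ((hn j hj).1 x hxj).2.1
        · exfalso
          have hFj : F ⊆ X j := hFX.trans (hXm (by omega : i + 1 ≤ j))
          have h2 := (hn j hj).2.2.2 x hxj (cl_mono M (union_subset_union_left hFj) hxC)
          have h3 := card_le_card (Gc_anti (M := M) (C := C) (x := x) hFj)
          omega

end Crest.Agent.R305.Code860
end

-- ▼ part R305/CodeD_860
section

/-!
# R305: coding theorem for `kc` chains, the finite set of codes and its cardinality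
-/

set_option autoImplicit false
set_option linter.unusedSectionVars false
set_option linter.unusedVariables false

namespace Crest.Agent.R305.Code860

open Finset Crest.Agent.R305.Kd447

variable {α : Type*} [DecidableEq α] [Fintype α]

/-- the `k`-dense closures of an increasing sequence form a chain -/
theorem kchain_kc (M : RankFn α) (k : ℕ) (Z : Finset α) {f : ℕ → Finset α} (hf : Monotone f) :
    KChain M k Z f (fun i => M.kc k Z (f i)) where
  flat i := M.kc_flat k Z (f i)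
  sub i := M.kc_mono (Finset.Subset.refl _) (hf (Nat.le_succ i))
  fsub i := M.subset_kc k Z (f i)
  sparse i := M.kc_sparse k Z (f i)
  dense0 := by
    intro V hV
    have h1 := M.kc_dense (k := k) (Z := Z) (F := f 0) hV
    have h2 : M.rr (M.cl (f 0 ∪ V)) (M.kc k Z (f 0)) =
        M.r (M.kc k Z (f 0)) - M.r (f 0 ∪ V) := by
      have h3 : M.cl (f 0 ∪ V) ⊆ M.kc k Z (f 0) :=
        (M.kc_flat k Z (f 0)).cl_subset (union_subset (M.subset_kc k Z _) hV)
      have h4 := M.r_add_rr_of_subset h3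
      rw [M.r_cl] at h4
      omega
    rwa [h2] at h1
  dense := by
    intro i V hV
    set X := M.kc k Z (f (i + 1)) with hX
    have hXi : M.kc k Z (f i) ⊆ X := M.kc_mono (Finset.Subset.refl _) (hf (Nat.le_succ i))
    have hfX : f (i + 1) ⊆ X := M.subset_kc k Z _
    have hsub : M.kc k Z (f i) ∪ f (i + 1) ∪ V ⊆ X :=
      union_subset (union_subset hXi hfX) hV
    have h3 : M.cl (M.kc k Z (f i) ∪ f (i + 1) ∪ V) ⊆ X :=
      (M.kc_flat k Z (f (i + 1))).cl_subset hsub
    have h1 := M.kc_dense_flat (k := k) (Z := Z) (F := f (i + 1))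
      (G := M.cl (M.kc k Z (f i) ∪ f (i + 1) ∪ V))
      ((subset_union_right.trans subset_union_left).trans (M.subset_cl _)) h3 (M.flat_cl _)
    have h4 := M.r_add_rr_of_subset h3
    rw [M.r_cl] at h4
    have h2 : M.rr (M.cl (M.kc k Z (f i) ∪ f (i + 1) ∪ V)) X =
        M.r X - M.r (M.kc k Z (f i) ∪ f (i + 1) ∪ V) := by omega
    rw [← hX, h2] at h1
    exact h1

/-- the finite set of codes supported on `E` -/
noncomputable def codes (E : Finset α) (k : ℕ) : Finset (Code α) :=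
  (E.powerset ×ˢ E.powerset ×ˢ
    Fintype.piFinset (fun x => if x ∈ E then range (E.card + 1) else {0})).filter
    (fun c => k * (c.1.card + c.2.1.card) ≤ E.card ∧ ∑ x, c.2.2 x = c.2.1.card)

/-- **Theorem A**: the chain of `k`-dense closures is one of the decoded codes. -/
theorem exists_code_kc (M : RankFn α) {k : ℕ} (hk : 1 ≤ k) {Z E : Finset α} (hZ : Z ⊆ E)
    {f : ℕ → Finset α} (hf : Monotone f) (T : ℕ) :
    ∃ c ∈ codes E k, c.1 ⊆ Z ∧ c.2.1 ⊆ Z ∧ (∀ x, c.2.2 x ≠ 0 → x ∈ Z) ∧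
      k * (c.1.card + c.2.1.card) ≤ Z.card ∧
      ∀ i ≤ T, dec M f c i = M.kc k Z (f i) := by
  obtain ⟨c, h1, h2, h3, h4, h5, h6⟩ := exists_code hk (kchain_kc M k Z hf) T
  refine ⟨c, ?_, h1, h2, h3, h5, h6⟩
  simp only [codes, mem_filter, mem_product, mem_powerset, Fintype.mem_piFinset]
  refine ⟨⟨h1.trans hZ, h2.trans hZ, ?_⟩, h5.trans (card_le_card hZ), h4⟩
  intro x
  split_ifs with hx
  · rw [mem_range]
    have h7 : c.2.2 x ≤ ∑ y, c.2.2 y := single_le_sum (fun _ _ => Nat.zero_le _) (mem_univ x)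
    have h8 := card_le_card (h2.trans hZ)
    omega
  · rw [mem_singleton]
    by_contra h0
    exact hx (hZ (h3 x h0))







end Crest.Agent.R305.Code860
end

-- ▼ part R305/Code_310
section

/-!
# R305: the codes of `CodeD_860` as `CodeP` of `Ocp_228`; P2 without hypotheses
-/

set_option autoImplicit false

namespace Crest.Agent.R305.Harm310

open Finset Dep310 Kd447 Fcl310 Fcr310 TopDef137 Phi655 Ocp228

variable {α : Type*} [Fintype α] [DecidableEq α]

/-- **codes exist** -/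
theorem codeP (R : RankFn α) {K : ℕ} (hK : 1 ≤ K) (E : Finset α) {f : ℕ → Finset α}
    (hf : Monotone f) (T : ℕ) : CodeP R K E f T := by
  classical
  have h : ∀ V : Finset α, ∃ c : Code860.Code α, V ⊆ E →
      c ∈ Code860.codes E K ∧ ∀ i ≤ T, Code860.dec R f c i = R.kc K V (f i) := by
    intro V
    by_cases hV : V ⊆ E
    · obtain ⟨c, h1, -, -, -, -, h2⟩ := Code860.exists_code_kc R hK hV hf T
      exact ⟨c, fun _ => ⟨h1, h2⟩⟩
    · exact ⟨(∅, ∅, fun _ => 0), fun h => absurd h hV⟩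
  choose c hc using h
  refine ⟨fun V => ((c V).1, (c V).2.1, univ.filter (fun a => (c V).2.2 a ≠ 0), (c V).2.2),
    fun d i => Code860.dec R f (d.1, d.2.1, d.2.2.2) i, fun V hV => ⟨?_, ?_⟩⟩
  · obtain ⟨h1, -⟩ := hc V hV
    unfold Code860.codes at h1
    rw [mem_filter, mem_product, mem_product, mem_powerset, mem_powerset,
      Fintype.mem_piFinset] at h1
    obtain ⟨⟨h2, h3, h4⟩, h5, h6⟩ := h1
    refine ⟨h2, h3, ?_, h5, ?_, ?_, ?_⟩
    · intro a ha
      rw [mem_filter] at ha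
      by_contra hE
      have := h4 a
      rw [if_neg hE, mem_singleton] at this
      exact ha.2 this
    · intro a ha
      rw [mem_filter] at ha
      exact Nat.one_le_iff_ne_zero.2 ha.2
    · intro a ha
      by_contra h
      exact ha (mem_filter.2 ⟨mem_univ _, h⟩)
    · rw [← h6]
      exact Finset.sum_le_sum_of_subset (filter_subset _ _)
  · intro i hi
    exact (hc V hV).2 i hi

/-- **P2**, unconditional -/
theorem harm_expect_all (I : Inst α) {k m : ℕ} (hk : 2 ≤ k) {x p : ℝ} (hx0 : 0 < x) (hx1 : x ≤ 1)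
    (hp0 : 0 ≤ p) (hp1 : p ≤ 1) (hm : 2 * (k : ℝ) ≤ x * m) (T : Finset α) (n i : ℕ) :
    ∑ Z, w (fun _ => x) Z * ∑ A, ∑ B, w (fun _ => p) A * w (fun _ => p) B *
      ((harmed I k T Z A B i n).card : ℝ) ≤
      p * (eta k x * (En I T n).card + m * p * (On I T n).card) :=
  harm_expect I hk hx0 hx1 hp0 hp1 hm T n i
    (fun _ hf T' => codeP I.M (by omega) (En I T n) hf T')

end Crest.Agent.R305.Harm310
end

-- ▼ part R305/Num_306
section

/-! # R305: numerals of the captain table (k = 2^17, x = 1/2) -/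

set_option autoImplicit false

namespace Crest.Agent.R305.Num306

open Crest.Agent.R305

theorem eta_le : 16 * Un228.epsk (2 ^ 17) / (1 / 2 : ℝ) + Real.exp (-(((2 ^ 17 : ℕ) : ℝ) / 8)) ≤ 1 / 100 := by
  have h1 : Real.log ((2 ^ 17 : ℕ) : ℝ) = 17 * Real.log 2 := by
    rw [Nat.cast_pow, Real.log_pow]
    norm_num
  have h2 := Real.log_two_lt_d9
  have h3 : Un228.epsk (2 ^ 17) ≤ (2 * (17 * 0.6931471808) + 4) / 131072 := by
    unfold Un228.epsk
    rw [h1]
    rw [show ((2 ^ 17 : ℕ) : ℝ) = 131072 by norm_num]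
    gcongr
  have h4 : Real.exp (-(((2 ^ 17 : ℕ) : ℝ) / 8)) ≤ 1 / 1000 := by
    have h5 : Real.exp (-(((2 ^ 17 : ℕ) : ℝ) / 8)) ≤ Real.exp (-10) := by
      apply Real.exp_le_exp.2
      norm_num
    refine h5.trans ?_
    rw [Real.exp_neg, one_div]
    apply inv_anti₀ (by norm_num)
    have h6 : (2 : ℝ) ≤ Real.exp 1 := by
      have := Real.add_one_le_exp (1 : ℝ)
      linarith
    have h7 : Real.exp 10 = Real.exp 1 ^ 10 := by
      rw [← Real.exp_nat_mul]; norm_num
    rw [h7]
    calc (1000 : ℝ) ≤ 2 ^ 10 := by norm_num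
      _ ≤ Real.exp 1 ^ 10 := pow_le_pow_left₀ (by norm_num) h6 10
  have h8 : 16 * Un228.epsk (2 ^ 17) / (1 / 2 : ℝ) ≤ 16 * ((2 * (17 * 0.6931471808) + 4) / 131072) / (1 / 2 : ℝ) := by
    gcongr
  norm_num at h8 h4 ⊢
  linarith

end Crest.Agent.R305.Num306
end

-- ▼ part R305/TopF_137

/-!
# R305: the core of S0468 without hypotheses
-/

set_option autoImplicit false

universe u

namespace Crest.Agent.R305.TopF137

open Finset Dep310 TopDef137 Red396 TopE137

theorem eta_nonneg : 0 ≤ Ocp228.eta (2 ^ 17) (1 / 2 : ℝ) := by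
  unfold Ocp228.eta Un228.epsk
  have : 0 ≤ Real.log ((2 ^ 17 : ℕ) : ℝ) := Real.log_natCast_nonneg _
  positivity

theorem core {k : ℕ} (M : Matroid (Fin k)) : Concl.{u} k M ((2 : ENNReal)⁻¹ ^ 310) := by
  refine core_of_P2 M (η := Ocp228.eta (2 ^ 17) (1 / 2)) eta_nonneg ?_ ?_
  · exact Num306.eta_le
  · intro I T n i _
    have h := Harm310.harm_expect_all I (k := 2 ^ 17) (m := 2 ^ 19) (by norm_num)
      (x := 1 / 2) (p := (1 / 2) ^ 25) (by norm_num) (by norm_num) (by positivity)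
      (by norm_num) (by norm_num) T n i
    refine le_trans (le_of_eq ?_) (h.trans (le_of_eq ?_))
    · rfl
    · norm_num

end Crest.Agent.R305.TopF137
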